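import Vale.Agent.Lib.P123.U.Softmax

/-!
# Job R2: Toeplitz-Hausdorff and reduction to finite dimension
-/

open Complex Set Filter Topology Polynomial ComplexConjugate
open scoped Real

namespace Vale.Agent.Lib.P123.U

section TH

variable {E : Type*} [NormedAddCommGroup E] [InnerProductSpace ℂ E]

/-- normalized core of the Toeplitz-Hausdorff theorem -/
lemma th_core (A : E →L[ℂ] E) {v₁ v₂ : E} (h₁ : ‖v₁‖ = 1) (h₂ : ‖v₂‖ = 1)
    (hq₁ : inner ℂ v₁ (A v₁) = 0) (hq₂ : inner ℂ v₂ (A v₂) = 1) {s : ℝ}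
    (hs0 : 0 ≤ s) (hs1 : s ≤ 1) :
    ∃ v : E, ‖v‖ = 1 ∧ inner ℂ v (A v) = (s : ℂ) := by
  set α : ℂ := inner ℂ v₁ (A v₂) with hα
  set β : ℂ := inner ℂ v₂ (A v₁) with hβ
  set γ : ℂ := α - conj β with hγ
  set e : ℂ := exp (arg γ * I) with he
  have hen : ‖e‖ = 1 := Complex.norm_exp_ofReal_mul_I _
  have hee : conj e * e = 1 := by
    rw [mul_comm, Complex.mul_conj, Complex.normSq_eq_norm_sq, hen]; simp
  have hrot : conj e * γ = (‖γ‖ : ℂ) := by
    have h1 := Complex.norm_mul_exp_arg_mul_I γ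
    calc conj e * γ = conj e * ((‖γ‖ : ℂ) * e) := by rw [he, h1]
      _ = (‖γ‖ : ℂ) * (conj e * e) := by ring
      _ = (‖γ‖ : ℂ) := by rw [hee, mul_one]
  set u₁ : E := e • v₁ with hu₁
  have hu₁n : ‖u₁‖ = 1 := by rw [hu₁, norm_smul, hen, h₁, one_mul]
  have hqu₁ : inner ℂ u₁ (A u₁) = 0 := by
    rw [hu₁, map_smul, inner_smul_left, inner_smul_right, hq₁]; simp
  have hα' : inner ℂ u₁ (A v₂) = conj e * α := by
    rw [hu₁, inner_smul_left]
  have hβ' : inner ℂ v₂ (A u₁) = e * β := by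
    rw [hu₁, map_smul, inner_smul_right]
  -- the cross term is real
  set cc : ℂ := conj e * α + e * β with hcc
  have hccim : cc.im = 0 := by
    have h1 : (conj e * γ).im = 0 := by rw [hrot]; simp
    have h2 : conj e * γ = conj e * α - conj (e * β) := by
      rw [hγ, map_mul]; ring
    rw [h2, Complex.sub_im, Complex.conj_im] at h1
    rw [hcc, Complex.add_im]
    linarith
  -- the path
  set v : ℝ → E := fun t => ((1 - t : ℝ) : ℂ) • u₁ + (t : ℂ) • v₂ with hv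
  have hq : ∀ t, inner ℂ (v t) (A (v t)) = ((t ^ 2 + t * (1 - t) * cc.re : ℝ) : ℂ) := by
    intro t
    have hcc' : cc = (cc.re : ℂ) := by
      apply Complex.ext <;> simp [hccim]
    simp only [hv, map_add, map_smul, inner_add_left, inner_add_right, inner_smul_left,
      inner_smul_right, Complex.conj_ofReal, hqu₁, hq₂, hα', hβ']
    have : ((t ^ 2 + t * (1 - t) * cc.re : ℝ) : ℂ) = t ^ 2 + t * (1 - t) * cc := by
      rw [hcc']; push_cast; simp
    rw [this, hcc]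
    push_cast
    ring
  have hcontv : Continuous v := by
    simp only [hv]
    fun_prop
  have hne : ∀ t ∈ Icc (0:ℝ) 1, v t ≠ 0 := by
    intro t ht h0
    have h1 : ((1 - t : ℝ) : ℂ) • u₁ = -((t : ℂ) • v₂) := by
      rw [eq_neg_iff_add_eq_zero]; exact h0
    have h2 : ‖((1 - t : ℝ) : ℂ) • u₁‖ = ‖(t : ℂ) • v₂‖ := by
      rw [h1, norm_neg]
    rw [norm_smul _ u₁, norm_smul _ v₂, hu₁n, h₂, mul_one, mul_one, Complex.norm_real, Complex.norm_real,
      Real.norm_of_nonneg (by linarith [ht.2]), Real.norm_of_nonneg ht.1] at h2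
    have ht2 : t = 1 / 2 := by linarith
    subst ht2
    have h3 : u₁ = - v₂ := by
      have h4 : ((1 / 2 : ℝ) : ℂ) • u₁ + ((1 / 2 : ℝ) : ℂ) • v₂ = 0 := by
        have := h0
        simp only [hv] at this
        norm_num at this ⊢
        exact this
      rw [← smul_add] at h4
      have h5 : u₁ + v₂ = 0 := by
        have hne0 : ((1 / 2 : ℝ) : ℂ) ≠ 0 := by norm_num
        exact (smul_eq_zero.1 h4).resolve_left hne0
      exact eq_neg_of_add_eq_zero_left h5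
    rw [h3, map_neg, inner_neg_left, inner_neg_right, neg_neg, hq₂] at hqu₁
    exact one_ne_zero hqu₁
  have hnv : ∀ t ∈ Icc (0:ℝ) 1, 0 < ‖v t‖ := fun t ht => norm_pos_iff.2 (hne t ht)
  -- the normalized value
  set g : ℝ → ℝ := fun t => (t ^ 2 + t * (1 - t) * cc.re) / ‖v t‖ ^ 2 with hg
  have hgc : ContinuousOn g (Icc 0 1) := by
    refine ContinuousOn.div (by fun_prop) ?_ ?_
    · exact (hcontv.norm.pow 2).continuousOn
    · intro t ht
      exact pow_ne_zero 2 (hnv t ht).ne'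
  have hv0 : v 0 = u₁ := by simp [hv]
  have hv1 : v 1 = v₂ := by simp [hv]
  have hg0 : g 0 = 0 := by simp [hg]
  have hg1 : g 1 = 1 := by simp [hg, hv1, h₂]
  have hivt := intermediate_value_Icc (zero_le_one' ℝ) hgc
  rw [hg0, hg1] at hivt
  obtain ⟨t, ht, hts⟩ := hivt ⟨hs0, hs1⟩
  refine ⟨((‖v t‖⁻¹ : ℝ) : ℂ) • v t, ?_, ?_⟩
  · rw [norm_smul, Complex.norm_real, norm_inv, norm_norm, inv_mul_cancel₀ (hnv t ht).ne']
  · rw [map_smul, inner_smul_left, inner_smul_right, hq t, Complex.conj_ofReal, ← hts]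
    simp only [hg]
    push_cast
    have hn : ((‖v t‖ : ℂ)) ≠ 0 := by
      exact_mod_cast (hnv t ht).ne'
    field_simp

/-- **Toeplitz-Hausdorff**: the numerical range is convex. -/
theorem numerical_range_convex (A : E →L[ℂ] E) :
    Convex ℝ {z : ℂ | ∃ v : E, ‖v‖ = 1 ∧ z = inner ℂ v (A v)} := by
  rintro z₁ ⟨v₁, h₁, rfl⟩ z₂ ⟨v₂, h₂, rfl⟩ a b ha hb hab
  set z₁ : ℂ := inner ℂ v₁ (A v₁) with hz₁
  set z₂ : ℂ := inner ℂ v₂ (A v₂) with hz₂
  by_cases hzz : z₂ = z₁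
  · refine ⟨v₁, h₁, ?_⟩
    rw [hzz, ← add_smul, hab, one_smul]
  have hμ : z₂ - z₁ ≠ 0 := sub_ne_zero.2 hzz
  set μ : ℂ := (z₂ - z₁)⁻¹ with hμdef
  set A' : E →L[ℂ] E := μ • (A - z₁ • ContinuousLinearMap.id ℂ E) with hA'
  have hself : ∀ v : E, ‖v‖ = 1 → inner ℂ v v = (1 : ℂ) := by
    intro v hv
    rw [inner_self_eq_norm_sq_to_K, hv]; simp
  have hq : ∀ v : E, ‖v‖ = 1 → inner ℂ v (A' v) = μ * (inner ℂ v (A v) - z₁) := by
    intro v hv
    simp only [hA', smul_apply, sub_apply,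
      ContinuousLinearMap.id_apply, inner_smul_right, inner_sub_right, hself v hv, mul_one]
  obtain ⟨v, hv, hvs⟩ := th_core A' h₁ h₂ (by rw [hq v₁ h₁, ← hz₁]; simp)
    (by rw [hq v₂ h₂, ← hz₂]; exact inv_mul_cancel₀ hμ) hb (by linarith)
  refine ⟨v, hv, ?_⟩
  rw [hq v hv] at hvs
  have h1 : inner ℂ v (A v) - z₁ = (b : ℂ) * (z₂ - z₁) := by
    have := congrArg (fun w => (z₂ - z₁) * w) hvs
    simp only [hμdef, ← mul_assoc, mul_inv_cancel₀ hμ, one_mul] at this
    rw [this]; ring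
  have ha' : (a : ℂ) = 1 - b := by
    have : a = 1 - b := by linarith
    rw [this]; push_cast; ring
  have h2 : inner ℂ v (A v) = z₁ + (b : ℂ) * (z₂ - z₁) := by rw [← h1]; ring
  rw [h2, Complex.real_smul, Complex.real_smul, ha']
  ring

end TH

section Compress

variable {H : Type*} [NormedAddCommGroup H] [InnerProductSpace ℂ H]

/-- compression to a finite dimensional subspace, realized on a Euclidean space. -/
lemma exists_compression (V : Submodule ℂ H) [FiniteDimensional ℂ V] :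
    ∃ (n : ℕ) (J : EuclideanSpace ℂ (Fin n) →L[ℂ] H) (Pi : H →L[ℂ] EuclideanSpace ℂ (Fin n)),
      (∀ f, Pi (J f) = f) ∧ (∀ f x, inner ℂ f (Pi x) = inner ℂ (J f) x) ∧
      (∀ f, ‖J f‖ = ‖f‖) ∧ (∀ x ∈ V, J (Pi x) = x) := by
  have : CompleteSpace V := FiniteDimensional.complete ℂ V
  let U : V ≃ₗᵢ[ℂ] EuclideanSpace ℂ (Fin (Module.finrank ℂ V)) := (stdOrthonormalBasis ℂ V).repr
  let J : EuclideanSpace ℂ (Fin (Module.finrank ℂ V)) →L[ℂ] H :=
    V.subtypeL ∘L (U.symm.toContinuousLinearEquiv : _ →L[ℂ] V)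
  let Pi : H →L[ℂ] EuclideanSpace ℂ (Fin (Module.finrank ℂ V)) :=
    (U.toContinuousLinearEquiv : V →L[ℂ] _) ∘L V.orthogonalProjectionOnto
  refine ⟨Module.finrank ℂ V, J, Pi, ?_, ?_, ?_, ?_⟩
  · intro f
    change U (V.orthogonalProjectionOnto ((U.symm f : V) : H)) = f
    rw [Submodule.orthogonalProjectionOnto_mem_subspace_eq_self, U.apply_symm_apply]
  · intro f x
    change inner ℂ f (U (V.orthogonalProjectionOnto x)) = inner ℂ ((U.symm f : V) : H) x
    rw [← Submodule.inner_orthogonalProjectionOnto_eq_of_mem_left, ← U.inner_map_map,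
      U.apply_symm_apply]
  · intro f
    change ‖((U.symm f : V) : H)‖ = ‖f‖
    rw [← Submodule.coe_norm, U.symm.norm_map]
  · intro x hx
    change ((U.symm (U (V.orthogonalProjectionOnto x)) : V) : H) = x
    rw [U.symm_apply_apply]
    exact Submodule.starProjection_eq_self_iff.2 hx

/-- the compression and the powers. -/
lemma compress_pow {F : Type*} [NormedAddCommGroup F] [InnerProductSpace ℂ F]
    (A : H →L[ℂ] H) (J : F →L[ℂ] H) (Pi : H →L[ℂ] F) (v : H) {d : ℕ}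
    (hd : ∀ k ≤ d, J (Pi ((A ^ k) v)) = (A ^ k) v) :
    ∀ k ≤ d, ((Pi ∘L A ∘L J) ^ k) (Pi v) = Pi ((A ^ k) v) := by
  intro k
  induction k with
  | zero => intro _; simp
  | succ k ih =>
    intro hk
    rw [pow_succ', pow_succ', mul_apply_eq_comp, ih (by omega)]
    change Pi (A (J (Pi ((A ^ k) v)))) = _
    rw [hd k (by omega), mul_apply_eq_comp]

lemma compress_aeval {F : Type*} [NormedAddCommGroup F] [InnerProductSpace ℂ F]
    (A : H →L[ℂ] H) (J : F →L[ℂ] H) (Pi : H →L[ℂ] F) (v : H) (P : ℂ[X])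
    (hd : ∀ k ≤ P.natDegree, J (Pi ((A ^ k) v)) = (A ^ k) v) :
    J ((Polynomial.aeval (Pi ∘L A ∘L J) P) (Pi v)) = (Polynomial.aeval A P) v := by
  have hp := compress_pow A J Pi v hd
  rw [Polynomial.aeval_eq_sum_range, Polynomial.aeval_eq_sum_range]
  simp only [sum_apply, smul_apply, map_sum, map_smul]
  refine Finset.sum_congr rfl fun k hk => ?_
  have hk' : k ≤ P.natDegree := by
    have := Finset.mem_range.1 hk
    omega
  rw [hp k hk', hd k hk']

end Compress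

/-- **Reduction to finite dimension and smooth domains** (the hypothesis `0 ≤ M` is automatic when
there is a unit vector, and it is needed on the zero space). -/
theorem reduction (κ : ℝ) (hκ : 0 ≤ κ)
    (hmain : ∀ (C : SCurve) (E : Type) [NormedAddCommGroup E] [InnerProductSpace ℂ E]
      [FiniteDimensional ℂ E] (A : E →L[ℂ] E) (g : ℝ) (v₀ : E), 0 < g → ‖v₀‖ = 1 →
      (∀ v : E, ‖v‖ = 1 → ∀ t, g ≤ C.D (inner ℂ v (A v)) t) →
      ∀ (P : ℂ[X]) (M : ℝ), (∀ t, ‖P.eval (C.x t)‖ ≤ M) → ‖Polynomial.aeval A P‖ ≤ κ * M)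
    {H : Type*} [NormedAddCommGroup H] [InnerProductSpace ℂ H] (A : H →L[ℂ] H)
    (P : ℂ[X]) (M : ℝ) (hM : 0 ≤ M) (hP : ∀ v : H, ‖v‖ = 1 → ‖P.eval (inner ℂ v (A v))‖ ≤ M) :
    ‖Polynomial.aeval A P‖ ≤ κ * M := by
  refine ContinuousLinearMap.opNorm_le_of_unit_norm (mul_nonneg hκ hM) fun v hv => ?_
  -- the Krylov space
  set V : Submodule ℂ H :=
    Submodule.span ℂ (Set.range fun k : Fin (P.natDegree + 1) => (A ^ (k : ℕ)) v) with hV
  have : FiniteDimensional ℂ V := FiniteDimensional.span_of_finite ℂ (Set.finite_range _)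
  obtain ⟨n, J, Pi, hPJ, hadj, hJn, hJP⟩ := exists_compression V
  have hmem : ∀ k ≤ P.natDegree, (A ^ k) v ∈ V := fun k hk =>
    Submodule.subset_span ⟨⟨k, by omega⟩, rfl⟩
  have hd : ∀ k ≤ P.natDegree, J (Pi ((A ^ k) v)) = (A ^ k) v := fun k hk => hJP _ (hmem k hk)
  set B : EuclideanSpace ℂ (Fin n) →L[ℂ] EuclideanSpace ℂ (Fin n) := Pi ∘L A ∘L J with hB
  have hBq : ∀ f, inner ℂ f (B f) = inner ℂ (J f) (A (J f)) := fun f => hadj f _
  have hv₀mem : v ∈ V := by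
    have := hmem 0 (Nat.zero_le _)
    simpa using this
  have hv₀ : ‖Pi v‖ = 1 := by
    rw [← hJn, hJP v hv₀mem, hv]
  have hval := compress_aeval A J Pi v P hd
  -- the numerical range of the compression
  set W : Set ℂ := {z : ℂ | ∃ f : EuclideanSpace ℂ (Fin n), ‖f‖ = 1 ∧ z = inner ℂ f (B f)} with hW
  have hWc : IsCompact W := by
    have h1 : W = (fun f => inner ℂ f (B f)) '' Metric.sphere (0 : EuclideanSpace ℂ (Fin n)) 1 := by
      ext z
      simp only [hW, Set.mem_ofPred_eq, Set.mem_image, mem_sphere_zero_iff_norm]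
      constructor
      · rintro ⟨f, hf, rfl⟩; exact ⟨f, hf, rfl⟩
      · rintro ⟨f, hf, rfl⟩; exact ⟨f, hf, rfl⟩
    rw [h1]
    refine (isCompact_sphere _ _).image ?_
    exact continuous_id.inner B.continuous
  have hWconv : Convex ℝ W := numerical_range_convex B
  have hWne : W.Nonempty := ⟨_, Pi v, hv₀, rfl⟩
  have hWM : ∀ z ∈ W, ‖P.eval z‖ ≤ M := by
    rintro z ⟨f, hf, rfl⟩
    rw [hBq]
    exact hP _ (by rw [hJn, hf])
  -- the approximate bound
  have happrox : ∀ η > 0, ‖(Polynomial.aeval A P) v‖ ≤ κ * (M + η) := by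
    intro η hη
    have hopen : IsOpen {z : ℂ | ‖P.eval z‖ < M + η} :=
      isOpen_lt (P.continuous.norm) continuous_const
    have hsub : W ⊆ {z : ℂ | ‖P.eval z‖ < M + η} := fun z hz => by
      have := hWM z hz
      simp only [Set.mem_ofPred_eq]
      linarith
    obtain ⟨δ, hδ, hthick⟩ := hWc.exists_thickening_subset_open hopen hsub
    obtain ⟨C, g, hg, hgD, hK⟩ := exists_curve_of_compact_convex hWc hWconv hWne (half_pos hδ)
    have hbd : ∀ t, ‖P.eval (C.x t)‖ ≤ M + η := by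
      intro t
      obtain ⟨w, hw, hwd⟩ := hK _ (C.x_mem_K t)
      have h1 : C.x t ∈ Metric.thickening δ W := by
        rw [Metric.mem_thickening_iff]
        refine ⟨w, hw, ?_⟩
        rw [dist_eq_norm]
        linarith
      exact (hthick h1).le
    have hnorm := hmain C (EuclideanSpace ℂ (Fin n)) B g (Pi v) hg hv₀
      (fun f hf t => hgD _ ⟨f, hf, rfl⟩ t) P (M + η) hbd
    rw [← hval, hJn]
    calc ‖(Polynomial.aeval B P) (Pi v)‖ ≤ ‖Polynomial.aeval B P‖ * ‖Pi v‖ :=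
          ContinuousLinearMap.le_opNorm _ _
      _ = ‖Polynomial.aeval B P‖ := by rw [hv₀, mul_one]
      _ ≤ κ * (M + η) := hnorm
  refine le_of_forall_pos_le_add fun ε hε => ?_
  have h1 := happrox (ε / (κ + 1)) (by positivity)
  have h2 : κ * (ε / (κ + 1)) ≤ ε := by
    rw [← mul_div_assoc, div_le_iff₀ (by positivity)]
    nlinarith
  nlinarith

/-- version without `hM`, when the space has a nonzero vector -/
theorem reduction' (κ : ℝ) (hκ : 0 ≤ κ)
    (hmain : ∀ (C : SCurve) (E : Type) [NormedAddCommGroup E] [InnerProductSpace ℂ E]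
      [FiniteDimensional ℂ E] (A : E →L[ℂ] E) (g : ℝ) (v₀ : E), 0 < g → ‖v₀‖ = 1 →
      (∀ v : E, ‖v‖ = 1 → ∀ t, g ≤ C.D (inner ℂ v (A v)) t) →
      ∀ (P : ℂ[X]) (M : ℝ), (∀ t, ‖P.eval (C.x t)‖ ≤ M) → ‖Polynomial.aeval A P‖ ≤ κ * M)
    {H : Type*} [NormedAddCommGroup H] [InnerProductSpace ℂ H] [Nontrivial H] (A : H →L[ℂ] H)
    (P : ℂ[X]) (M : ℝ) (hP : ∀ v : H, ‖v‖ = 1 → ‖P.eval (inner ℂ v (A v))‖ ≤ M) :
    ‖Polynomial.aeval A P‖ ≤ κ * M := by
  obtain ⟨x, hx⟩ := exists_ne (0 : H)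
  have hu : ‖((‖x‖⁻¹ : ℝ) : ℂ) • x‖ = 1 := by
    rw [norm_smul, Complex.norm_real, norm_inv, norm_norm, inv_mul_cancel₀ (norm_ne_zero_iff.2 hx)]
  exact reduction κ hκ hmain A P M ((norm_nonneg _).trans (hP _ hu)) hP

end Vale.Agent.Lib.P123.U
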