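import Vale.Agent.Lib.P123.U.State

/-! The approximation of the conjugate Cauchy operator and the form inequality. -/

open Complex MeasureTheory Set Filter Topology Polynomial ComplexConjugate
open scoped Real BoundedContinuousFunction

set_option linter.unusedSectionVars false

namespace Vale.Agent.Lib.P123.U

variable {E : Type} [NormedAddCommGroup E] [InnerProductSpace ℂ E] [FiniteDimensional ℂ E]

namespace SCurve

variable (C : SCurve)

variable {A : E →L[ℂ] E} {g : ℝ} (hg : 0 < g)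
  (hW : ∀ v : E, ‖v‖ = 1 → ∀ t, g ≤ C.D (inner ℂ v (A v)) t)
include hg hW

lemma hW_shift (δ : ℝ) (hδ : 0 ≤ δ) (v : E) (hv : ‖v‖ = 1) (t : ℝ) :
    g ≤ (C.shift δ hδ).D (inner ℂ v (A v)) t := by
  rw [shift_D]
  linarith [hW v hv t]

/-- Comparison of the operator Cauchy integrals. -/
lemma op_compare {G : ℝ → ℂ} (hGc : Continuous G) {Bg : ℝ} (hBg : ∀ t, ‖G t‖ ≤ Bg)
    (δ : ℝ) (hδ : 0 ≤ δ) :
    ‖(∫ t in (0:ℝ)..(2 * π), (G t * (C.shift δ hδ).dx t / (2 * π * I)) • (C.shift δ hδ).res A t) -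
      ∫ t in (0:ℝ)..(2 * π), G t • C.NN A t‖ ≤ Bg * (1 / g + C.Rb / g ^ 2) * δ := by
  have hpi := Real.pi_pos
  set C' := C.shift δ hδ with hC'
  have hW' : ∀ v : E, ‖v‖ = 1 → ∀ t, g ≤ C'.D (inner ℂ v (A v)) t := C.hW_shift hg hW δ hδ
  have hres' : Continuous (C'.res A) := C'.cont_res_A hg hW'
  have hres : Continuous (C.res A) := C.cont_res_A hg hW
  have hc1 : Continuous fun t => (G t * C'.dx t / (2 * π * I)) • C'.res A t :=
    ((hGc.mul C'.cont_dx).div_const _).smul hres'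
  have hc2 : Continuous fun t => G t • C.NN A t := hGc.smul (C.cont_NN hg hW)
  rw [← intervalIntegral.integral_sub (hc1.intervalIntegrable _ _) (hc2.intervalIntegrable _ _)]
  have hBg0 : 0 ≤ Bg := (norm_nonneg _).trans (hBg 0)
  have hbound : ∀ t ∈ Set.uIoc (0:ℝ) (2 * π),
      ‖(G t * C'.dx t / (2 * π * I)) • C'.res A t - G t • C.NN A t‖ ≤
        Bg * (1 / g + C.Rb / g ^ 2) * δ / (2 * π) := by
    intro t _
    have hb' : ‖C'.res A t‖ ≤ 1 / g := (C'.res_unit_bound hg hW' t).2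
    have hb : ‖C.res A t‖ ≤ 1 / g := (C.res_unit_bound hg hW t).2
    have hU' := (C'.res_unit_bound hg hW' t).1
    have hU := (C.res_unit_bound hg hW t).1
    set e := exp (I * t) with he
    have hen : ‖e‖ = 1 := norm_exp_I t
    have hx' : C'.x t = C.x t + δ * e := C.shift_x δ hδ t
    have hdx' : C'.dx t = C.dx t + I * e * δ := C.shift_dx δ hδ t
    -- resolvent difference
    have hdiff : C'.res A t - C.res A t = (-(δ * e)) • (C'.res A t * C.res A t) := by
      have h1 : (algebraMap ℂ (E →L[ℂ] E) (C'.x t) - A) * C'.res A t = 1 := Ring.mul_inverse_cancel _ hU'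
      have h2 : C'.res A t * (algebraMap ℂ (E →L[ℂ] E) (C'.x t) - A) = 1 := Ring.inverse_mul_cancel _ hU'
      have h3 : (algebraMap ℂ (E →L[ℂ] E) (C.x t) - A) * C.res A t = 1 := Ring.mul_inverse_cancel _ hU
      have e1 : algebraMap ℂ (E →L[ℂ] E) (C'.x t) - A =
          (algebraMap ℂ (E →L[ℂ] E) (C.x t) - A) + (δ * e) • (1 : E →L[ℂ] E) := by
        rw [hx', map_add, Algebra.algebraMap_eq_smul_one (δ * e)]
        abel
      calc C'.res A t - C.res A t
          = C'.res A t * ((algebraMap ℂ (E →L[ℂ] E) (C.x t) - A) * C.res A t) -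
            (C'.res A t * (algebraMap ℂ (E →L[ℂ] E) (C'.x t) - A)) * C.res A t := by
              rw [h3, h2]; simp
        _ = (-(δ * e)) • (C'.res A t * C.res A t) := by
              rw [e1]
              simp only [mul_add, add_mul, neg_smul, mul_smul_comm, smul_mul_assoc, mul_one, mul_assoc]
              abel
    have hdiffn : ‖C'.res A t - C.res A t‖ ≤ δ * (1 / g) ^ 2 := by
      rw [hdiff, norm_smul, norm_neg, norm_mul, hen, mul_one, Complex.norm_real,
        Real.norm_of_nonneg hδ]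
      refine mul_le_mul_of_nonneg_left ?_ hδ
      refine (norm_mul_le _ _).trans ?_
      rw [sq]
      exact mul_le_mul hb' hb (norm_nonneg _) (by positivity)
    have hval : (G t * C'.dx t / (2 * π * I)) • C'.res A t - G t • C.NN A t =
        (G t / (2 * π * I)) • ((I * e * δ) • C'.res A t + C.dx t • (C'.res A t - C.res A t)) := by
      unfold NN
      rw [hdx']
      simp only [smul_add, smul_sub, smul_smul]
      have hpiI : (2 * π * I : ℂ) ≠ 0 := by
        simp [Real.pi_ne_zero, Complex.I_ne_zero]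
      have e2 : G t * (C.dx t + I * e * δ) / (2 * π * I) =
          G t / (2 * π * I) * (I * e * δ) + G t / (2 * π * I) * C.dx t := by
        field_simp
        ring
      have e3 : G t * (C.dx t / (2 * π * I)) = G t / (2 * π * I) * C.dx t := by
        field_simp
      rw [e2, add_smul, e3]
      abel
    rw [hval, norm_smul]
    have hn1 : ‖G t / (2 * π * I)‖ ≤ Bg / (2 * π) := by
      rw [norm_div, norm_mul, norm_mul, norm_I, Complex.norm_real, Real.norm_of_nonneg hpi.le]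
      simp only [mul_one, norm_ofNat]
      exact div_le_div_of_nonneg_right (hBg t) (by positivity)
    have hn2 : ‖(I * e * δ) • C'.res A t + C.dx t • (C'.res A t - C.res A t)‖ ≤
        (1 / g + C.Rb / g ^ 2) * δ := by
      refine (norm_add_le _ _).trans ?_
      rw [norm_smul, norm_smul, norm_mul, norm_mul, norm_I, one_mul, hen, one_mul, Complex.norm_real,
        Real.norm_of_nonneg hδ, C.norm_dx]
      have h1 : δ * ‖C'.res A t‖ ≤ δ * (1 / g) := mul_le_mul_of_nonneg_left hb' hδ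
      have h2 : C.R t * ‖C'.res A t - C.res A t‖ ≤ C.Rb * (δ * (1 / g) ^ 2) :=
        mul_le_mul (C.R_le t) hdiffn (norm_nonneg _) C.Rb_pos.le
      have h3 : (1 / g + C.Rb / g ^ 2) * δ = δ * (1 / g) + C.Rb * (δ * (1 / g) ^ 2) := by
        field_simp
      rw [h3]
      linarith
    calc ‖G t / (2 * π * I)‖ * ‖(I * e * δ) • C'.res A t + C.dx t • (C'.res A t - C.res A t)‖
        ≤ (Bg / (2 * π)) * ((1 / g + C.Rb / g ^ 2) * δ) :=
          mul_le_mul hn1 hn2 (norm_nonneg _) (by positivity)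
      _ = Bg * (1 / g + C.Rb / g ^ 2) * δ / (2 * π) := by ring
  have := intervalIntegral.norm_integral_le_of_norm_le_const hbound
  rw [sub_zero, abs_of_pos (by positivity : (0:ℝ) < 2 * π)] at this
  refine this.trans (le_of_eq ?_)
  field_simp

/-- Simultaneous approximation of `V` and of `conj (L h)` by one polynomial. -/
theorem approx_conj (h : ℂ[X]) {η : ℝ} (hη : 0 < η) :
    ∃ q : ℂ[X],
      ‖Polynomial.aeval A q - ∫ t in (0:ℝ)..(2 * π), conj (h.eval (C.x t)) • C.NN A t‖ ≤ η ∧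
      ∀ t₀, ‖q.eval (C.x t₀) - conj (C.LC (fun t => h.eval (C.x t)) t₀)‖ ≤ η := by
  have hK : ∀ v : E, ‖v‖ = 1 → inner ℂ v (A v) ∈ C.K := fun v hv t =>
    hg.le.trans (hW v hv t)
  obtain ⟨L₀, hL₀, hL⟩ := C.exists_lipschitz h
  set G : ℝ → ℂ := fun t => conj (h.eval (C.x t)) with hG
  have hGc : Continuous G := Complex.continuous_conj.comp (C.cont_eval h)
  have hGper : ∀ t, G (t + 2 * π) = G t := fun t => by simp only [hG, C.x_per]
  have hGL : ∀ t t₁, ‖G t - G t₁‖ ≤ L₀ * ‖C.x t - C.x t₁‖ := by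
    intro t t₁
    simp only [hG]
    rw [← map_sub, Complex.norm_conj]
    exact hL _ (C.x_mem_K t) _ (C.x_mem_K t₁)
  obtain ⟨Bg, hBg⟩ := exists_bound_of_periodic hGc hGper
  have hBg0 : 0 ≤ Bg := (norm_nonneg _).trans (hBg 0)
  obtain ⟨δ₀, hδ₀, hbl⟩ := C.boundary_limit hGc hGper hL₀ hGL (half_pos hη)
  set c : ℝ := Bg * (1 / g + C.Rb / g ^ 2) + 1 with hc
  have hR := C.Rb_pos
  have hcpos : 0 < c := by rw [hc]; positivity
  set δ : ℝ := min (δ₀ / 2) (η / (2 * c)) with hδdef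
  have hδ : 0 < δ := lt_min (half_pos hδ₀) (by positivity)
  have hδlt : δ < δ₀ := lt_of_le_of_lt (min_le_left _ _) (half_lt_self hδ₀)
  have hδc : Bg * (1 / g + C.Rb / g ^ 2) * δ ≤ η / 2 := by
    have h1 : δ ≤ η / (2 * c) := min_le_right _ _
    have h2 : Bg * (1 / g + C.Rb / g ^ 2) ≤ c := by rw [hc]; linarith
    calc Bg * (1 / g + C.Rb / g ^ 2) * δ ≤ c * (η / (2 * c)) :=
          mul_le_mul h2 h1 hδ.le hcpos.le
      _ = η / 2 := by field_simp
  obtain ⟨q, hq1, hq2⟩ := C.approx_poly hK δ hδ.le hδ hGc (half_pos hη)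
  refine ⟨q, ?_, fun t₀ => ?_⟩
  · have h1 := C.op_compare hg hW hGc hBg δ hδ.le
    calc ‖Polynomial.aeval A q - ∫ t in (0:ℝ)..(2 * π), G t • C.NN A t‖
        ≤ ‖Polynomial.aeval A q - ∫ t in (0:ℝ)..(2 * π), (G t * (C.shift δ hδ.le).dx t / (2 * π * I)) • (C.shift δ hδ.le).res A t‖ +
          ‖(∫ t in (0:ℝ)..(2 * π), (G t * (C.shift δ hδ.le).dx t / (2 * π * I)) • (C.shift δ hδ.le).res A t) -
            ∫ t in (0:ℝ)..(2 * π), G t • C.NN A t‖ := norm_sub_le_norm_sub_add_norm_sub _ _ _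
      _ ≤ η / 2 + η / 2 := add_le_add hq1 (h1.trans hδc)
      _ = η := by ring
  · have h1 := hbl δ hδ hδlt t₀
    have h2 := hq2 _ (C.x_mem_K t₀)
    have h3 := C.principal_conj h t₀
    set Cd := ∫ t in (0:ℝ)..(2 * π), G t * (C.shift δ hδ.le).dx t / ((C.shift δ hδ.le).x t - C.x t₀) / (2 * π * I) with hCd
    have h4 : G t₀ + ((1 / (2 * π * I) : ℂ) * ∫ t in (0:ℝ)..(2 * π), (G t - G t₀) * (C.dx t / (C.x t - C.x t₀))) =
        conj (C.LC (fun t => h.eval (C.x t)) t₀) := by
      simp only [hG]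
      rw [h3]
      ring
    calc ‖q.eval (C.x t₀) - conj (C.LC (fun t => h.eval (C.x t)) t₀)‖
        ≤ ‖q.eval (C.x t₀) - Cd‖ + ‖Cd - conj (C.LC (fun t => h.eval (C.x t)) t₀)‖ :=
          norm_sub_le_norm_sub_add_norm_sub _ _ _
      _ ≤ η / 2 + η / 2 := by
          refine add_le_add h2 ?_
          rw [← h4, ← sub_sub]
          exact h1
      _ = η := by ring

/-- The form inequality for the extremal state. -/
theorem star_form {Kc : ℝ} (hKc : 1 ≤ Kc) {T₀ : E →L[ℂ] E} {a b : E} {l : (ℝ →ᵇ ℂ) →L[ℂ] ℂ}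
    (ha : ‖a‖ = 1) (hb : ‖b‖ = 1) (hT : T₀ a = (Kc : ℂ) • b) (hl : ‖l‖ ≤ 1) (hl1 : l 1 = 1)
    (hst : ∀ (p : ℂ[X]) (φ : ℝ →ᵇ ℂ), (∀ t, φ t = p.eval (C.x t)) →
        l φ = inner ℂ a (Polynomial.aeval A p a) ∧ l φ = inner ℂ b (Polynomial.aeval A p b))
    (hmul : ∀ (g' h' : ℂ[X]), Polynomial.aeval A h' = T₀ →
        (Kc : ℂ) * inner ℂ a (Polynomial.aeval A g' b) = inner ℂ b (Polynomial.aeval A (h' * g') b))
    (f u : ℂ[X]) (hf : Polynomial.aeval A f = T₀) {F : ℝ} (hF : ∀ t, ‖f.eval (C.x t)‖ ≤ F)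
    {B : ℝ} (hB : ∀ t, ‖(f * u).eval (C.x t)‖ ≤ B) (φ₁ φ₂ : ℝ →ᵇ ℂ)
    (h₁ : ∀ t, φ₁ t = u.eval (C.x t))
    (h₂ : ∀ t, φ₂ t = conj (f.eval (C.x t)) * C.LC (fun s => (f * u).eval (C.x s)) t) :
    ‖(Kc : ℂ) * l φ₁ + (1 / Kc : ℂ) * l φ₂‖ ≤ 2 * B := by
  have hKpos : (0:ℝ) < Kc := by linarith
  have hKc0 : (Kc : ℂ) ≠ 0 := by exact_mod_cast hKpos.ne'
  set h := f * u with hh
  have hhc : Continuous fun t => h.eval (C.x t) := C.cont_eval h
  -- first term
  have hterm1 : inner ℂ b (Polynomial.aeval A h a) = (Kc : ℂ) * l φ₁ := by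
    have h1 : Polynomial.aeval A h = Polynomial.aeval A u * T₀ := by
      rw [hh, mul_comm, map_mul, hf]
    rw [h1, ContinuousLinearMap.mul_apply, hT, map_smul, inner_smul_right,
      ← (hst u φ₁ h₁).2]
  -- the cp form
  set V := ∫ t in (0:ℝ)..(2 * π), conj (h.eval (C.x t)) • C.NN A t with hV
  have hcp := C.cp_form hg hW ha hb hhc hB
  rw [← C.aeval_eq_integral hg hW a ha h, hterm1] at hcp
  -- identification of the second term
  have hF0 : 0 ≤ F := (norm_nonneg _).trans (hF 0)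
  have hid : inner ℂ (V b) a = (1 / Kc : ℂ) * l φ₂ := by
    refine eq_of_forall_dist_le fun ε hε => ?_
    set η := ε / (1 + F) with hη
    have hηpos : 0 < η := by positivity
    obtain ⟨q, hq1, hq2⟩ := C.approx_conj hg hW h hηpos
    -- the polynomial `f q` and its state value
    have hfqc : Continuous fun t => (f * q).eval (C.x t) := C.cont_eval (f * q)
    obtain ⟨Bq, hBq⟩ := exists_bound_of_periodic hfqc (fun t => by simp only [C.x_per])
    set ψ : ℝ →ᵇ ℂ := BoundedContinuousFunction.ofNormedAddCommGroup _ hfqc Bq hBq with hψ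
    have hψa : ∀ t, ψ t = (f * q).eval (C.x t) := fun t => rfl
    set ψc : ℝ →ᵇ ℂ := BoundedContinuousFunction.ofNormedAddCommGroup (fun t => conj ((f * q).eval (C.x t)))
      (Complex.continuous_conj.comp hfqc) Bq (fun t => by rw [Complex.norm_conj]; exact hBq t) with hψc
    have hψca : ∀ t, ψc t = conj (ψ t) := fun t => rfl
    have h1 : inner ℂ b (Polynomial.aeval A (f * q) b) = l ψ := ((hst _ ψ hψa).2).symm
    have h2 : (Kc : ℂ) * inner ℂ a (Polynomial.aeval A q b) = l ψ := by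
      rw [hmul q f hf, h1]
    have h3 : inner ℂ (Polynomial.aeval A q b) a = (1 / Kc : ℂ) * l ψc := by
      rw [st_conj hl hl1 hψca, ← h2, map_mul, Complex.conj_ofReal, inner_conj_symm]
      field_simp
    have h4 : ‖l ψc - l φ₂‖ ≤ F * η := by
      rw [← map_sub]
      refine (st_norm hl _).trans ?_
      refine (BoundedContinuousFunction.norm_le (by positivity)).2 fun t => ?_
      simp only [BoundedContinuousFunction.coe_sub, Pi.sub_apply]
      rw [hψca, hψa, h₂, eval_mul, map_mul, ← mul_sub, norm_mul, Complex.norm_conj]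
      refine mul_le_mul (hF t) ?_ (norm_nonneg _) hF0
      have h5 := hq2 t
      rw [← Complex.norm_conj, map_sub, Complex.conj_conj]
      have : conj (q.eval (C.x t)) - C.LC (fun s => (f * u).eval (C.x s)) t =
          conj (q.eval (C.x t) - conj (C.LC (fun s => (f * u).eval (C.x s)) t)) := by
        simp
      simpa [this] using h5
    have h6 : ‖inner ℂ (V b) a - inner ℂ (Polynomial.aeval A q b) a‖ ≤ η := by
      rw [← inner_sub_left, ← ContinuousLinearMap.sub_apply]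
      refine (norm_inner_le_norm _ _).trans ?_
      rw [ha, mul_one]
      refine (ContinuousLinearMap.le_opNorm _ _).trans ?_
      rw [hb, mul_one, norm_sub_rev]
      exact hq1
    rw [dist_eq_norm]
    have h7 : inner ℂ (V b) a - (1 / Kc : ℂ) * l φ₂ =
        (inner ℂ (V b) a - inner ℂ (Polynomial.aeval A q b) a) + (1 / Kc : ℂ) * (l ψc - l φ₂) := by
      rw [h3]; ring
    rw [h7]
    refine (norm_add_le _ _).trans ?_
    rw [norm_mul]
    have h8 : ‖(1 / Kc : ℂ)‖ ≤ 1 := by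
      rw [norm_div, norm_one, Complex.norm_real, Real.norm_of_nonneg hKpos.le]
      exact (div_le_one hKpos).2 hKc
    have h9 : ‖(1 / Kc : ℂ)‖ * ‖l ψc - l φ₂‖ ≤ 1 * (F * η) :=
      mul_le_mul h8 h4 (norm_nonneg _) zero_le_one
    have h10 : η + F * η = ε := by
      rw [hη]; field_simp
    linarith
  rw [hid] at hcp
  exact hcp

end SCurve
end Vale.Agent.Lib.P123.U
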