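import Vale.Agent.Lib.P123.U.Neumann

/-! Boundary values of the Cauchy integrals. -/

open Complex MeasureTheory Set Filter Topology Polynomial ComplexConjugate
open scoped Real

set_option linter.unusedSectionVars false

namespace Vale.Agent.Lib.P123.U

lemma iI_of_bdd {F : ℝ → ℂ} {B : ℝ} (hm : Measurable F) (hb : ∀ t, ‖F t‖ ≤ B) (a b : ℝ) :
    IntervalIntegrable F volume a b := by
  rw [intervalIntegrable_iff]
  refine Measure.integrableOn_of_bounded (M := B) ?_ hm.aestronglyMeasurable ?_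
  · simp
  · exact Eventually.of_forall hb

/-- splitting a period around the singular point -/
lemma norm_integral_split {F : ℝ → ℂ} {a σ B₁ B₂ : ℝ} (hF : ∀ α β, IntervalIntegrable F volume α β)
    (hσ : 0 < σ) (hσ' : σ < π) (h1 : ∀ t, ‖F t‖ ≤ B₁)
    (h2 : ∀ t, a + σ ≤ t → t ≤ a + 2 * π - σ → ‖F t‖ ≤ B₂) :
    ‖∫ t in a..(a + 2 * π), F t‖ ≤ 2 * σ * B₁ + 2 * π * B₂ := by
  have hB₁ : 0 ≤ B₁ := (norm_nonneg _).trans (h1 0)
  have hB₂ : 0 ≤ B₂ := (norm_nonneg _).trans (h2 (a + σ) le_rfl (by linarith))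
  have e1 : ∫ t in a..(a + 2 * π), F t = (∫ t in a..(a + σ), F t) +
      (∫ t in (a + σ)..(a + 2 * π - σ), F t) + ∫ t in (a + 2 * π - σ)..(a + 2 * π), F t := by
    rw [intervalIntegral.integral_add_adjacent_intervals (hF _ _) (hF _ _),
      intervalIntegral.integral_add_adjacent_intervals (hF _ _) (hF _ _)]
  have b1 : ‖∫ t in a..(a + σ), F t‖ ≤ B₁ * |a + σ - a| :=
    intervalIntegral.norm_integral_le_of_norm_le_const fun t _ => h1 t
  have b3 : ‖∫ t in (a + 2 * π - σ)..(a + 2 * π), F t‖ ≤ B₁ * |a + 2 * π - (a + 2 * π - σ)| :=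
    intervalIntegral.norm_integral_le_of_norm_le_const fun t _ => h1 t
  have b2 : ‖∫ t in (a + σ)..(a + 2 * π - σ), F t‖ ≤ B₂ * |a + 2 * π - σ - (a + σ)| := by
    refine intervalIntegral.norm_integral_le_of_norm_le_const fun t ht => ?_
    rw [uIoc_of_le (by linarith)] at ht
    exact h2 t ht.1.le ht.2
  have e2 : |a + σ - a| = σ := by rw [add_sub_cancel_left, abs_of_pos hσ]
  have e3 : |a + 2 * π - (a + 2 * π - σ)| = σ := by
    rw [sub_sub_cancel, abs_of_pos hσ]
  have e4 : |a + 2 * π - σ - (a + σ)| = 2 * π - 2 * σ := by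
    rw [show a + 2 * π - σ - (a + σ) = 2 * π - 2 * σ by ring, abs_of_pos (by linarith)]
  rw [e2] at b1
  rw [e3] at b3
  rw [e4] at b2
  rw [e1]
  refine (norm_add_le _ _).trans ((add_le_add (norm_add_le _ _) le_rfl).trans ?_)
  nlinarith

namespace SCurve

variable (C : SCurve)

lemma sin_half_ge {σ u : ℝ} (hσ : 0 < σ) (hσ' : σ < π) (h1 : σ ≤ u) (h2 : u ≤ 2 * π - σ) :
    Real.sin (σ / 2) ≤ |Real.sin (u / 2)| := by
  refine le_trans ?_ (le_abs_self _)
  rcases le_total (u / 2) (π / 2) with h | h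
  · exact Real.sin_le_sin_of_le_of_le_pi_div_two (by linarith) h (by linarith)
  · rw [← Real.sin_pi_sub (u / 2)]
    exact Real.sin_le_sin_of_le_of_le_pi_div_two (by linarith) (by linarith) (by linarith)

lemma measurable_dx_div (z : ℂ) : Measurable fun t => C.dx t / (C.x t - z) :=
  C.cont_dx.measurable.div (C.cont_x.sub continuous_const).measurable

lemma x_sub_ne {p : ℂ} (hp : p ∈ C.Om) (t : ℝ) : C.x t - p ≠ 0 := by
  intro h
  have := C.normSq_sub p t
  rw [h, norm_zero] at this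
  have hD := hp t
  nlinarith [sq_nonneg (C.T p t), pow_pos hD 2]

/-- The kernel with a Lipschitz factor is bounded. -/
lemma norm_lip_mul_div_le {g : ℝ → ℂ} {L₀ : ℝ} (hL₀ : 0 ≤ L₀)
    (hL : ∀ t t₀, ‖g t - g t₀‖ ≤ L₀ * ‖C.x t - C.x t₀‖) (t t₀ : ℝ) :
    ‖(g t - g t₀) * (C.dx t / (C.x t - C.x t₀))‖ ≤ L₀ * C.Rb := by
  have hR := C.Rb_pos
  rcases eq_or_ne (C.x t - C.x t₀) 0 with h | h
  · simp [h]; positivity
  · have hn : 0 < ‖C.x t - C.x t₀‖ := norm_pos_iff.2 h
    rw [norm_mul, norm_div, C.norm_dx]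
    calc ‖g t - g t₀‖ * (C.R t / ‖C.x t - C.x t₀‖)
        ≤ (L₀ * ‖C.x t - C.x t₀‖) * (C.Rb / ‖C.x t - C.x t₀‖) :=
          mul_le_mul (hL t t₀) (div_le_div_of_nonneg_right (C.R_le t) hn.le) (by
            have := C.R_pos t; positivity) (by positivity)
      _ = L₀ * C.Rb := by field_simp

theorem boundary_limit {g : ℝ → ℂ} (hg : Continuous g) (hper : ∀ t, g (t + 2 * π) = g t)
    {L₀ : ℝ} (hL₀ : 0 ≤ L₀) (hL : ∀ t t₀, ‖g t - g t₀‖ ≤ L₀ * ‖C.x t - C.x t₀‖)
    {ε : ℝ} (hε : 0 < ε) :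
    ∃ δ₀ > 0, ∀ (δ : ℝ) (hδ : 0 < δ), δ < δ₀ → ∀ t₀,
      ‖(∫ t in (0:ℝ)..(2 * π), g t * (C.shift δ hδ.le).dx t /
          ((C.shift δ hδ.le).x t - C.x t₀) / (2 * π * I)) - g t₀ -
        (1 / (2 * π * I)) * ∫ t in (0:ℝ)..(2 * π), (g t - g t₀) * (C.dx t / (C.x t - C.x t₀))‖ ≤ ε := by
  have hpi := Real.pi_pos
  have hR := C.Rb_pos
  have hrho := C.rho_pos
  -- choose σ
  set c₁ : ℝ := L₀ * (1 + C.Rb) + 1 with hc₁
  have hc₁pos : 0 < c₁ := by rw [hc₁]; positivity
  set σ : ℝ := min (π / 2) (π * ε / (2 * c₁)) with hσ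
  have hσpos : 0 < σ := lt_min (by positivity) (by positivity)
  have hσlt : σ < π := lt_of_le_of_lt (min_le_left _ _) (by linarith)
  have hσle : σ * c₁ ≤ π * ε / 2 := by
    have := min_le_right (π / 2) (π * ε / (2 * c₁))
    calc σ * c₁ ≤ (π * ε / (2 * c₁)) * c₁ := mul_le_mul_of_nonneg_right this hc₁pos.le
      _ = π * ε / 2 := by field_simp
  set sn : ℝ := Real.sin (σ / 2) with hsn
  have hsnpos : 0 < sn := Real.sin_pos_of_pos_of_lt_pi (by linarith) (by linarith)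
  set c₂ : ℝ := L₀ * (1 + C.Rb / (2 * C.rho * sn)) + 1 with hc₂
  have hc₂pos : 0 < c₂ := by rw [hc₂]; positivity
  refine ⟨min 1 (ε / (2 * c₂)), lt_min one_pos (by positivity), fun δ hδ hδlt t₀ => ?_⟩
  have hδ1 : δ ≤ 1 := (lt_of_lt_of_le hδlt (min_le_left _ _)).le
  have hδ2 : δ * c₂ ≤ ε / 2 := by
    have : δ ≤ ε / (2 * c₂) := (lt_of_lt_of_le hδlt (min_le_right _ _)).le
    calc δ * c₂ ≤ (ε / (2 * c₂)) * c₂ := mul_le_mul_of_nonneg_right this hc₂pos.le
      _ = ε / 2 := by field_simp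
  set C' := C.shift δ hδ.le with hC'
  set z := C.x t₀ with hz
  have hzOm : z ∈ C'.Om := C.x_mem_shift_Om δ hδ.le hδ t₀
  have hne' : ∀ t, C'.x t - z ≠ 0 := C'.x_sub_ne hzOm
  -- continuity of the shifted integrand
  have hcd : Continuous fun t => C'.dx t / (C'.x t - z) :=
    C'.cont_dx.div (C'.cont_x.sub continuous_const) hne'
  -- the first integral
  have hmain : (∫ t in (0:ℝ)..(2 * π), g t * C'.dx t / (C'.x t - z) / (2 * π * I)) =
      g t₀ + (1 / (2 * π * I)) * ∫ t in (0:ℝ)..(2 * π), (g t - g t₀) * (C'.dx t / (C'.x t - z)) := by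
    have hpiI : (2 * π * I : ℂ) ≠ 0 := by
      simp [Real.pi_ne_zero, Complex.I_ne_zero]
    have e1 : ∀ t, g t * C'.dx t / (C'.x t - z) / (2 * π * I) =
        (1 / (2 * π * I)) * (g t₀ * (C'.dx t / (C'.x t - z)) + (g t - g t₀) * (C'.dx t / (C'.x t - z))) := by
      intro t
      field_simp
      ring
    simp_rw [e1]
    have hc1 : Continuous fun t => g t₀ * (C'.dx t / (C'.x t - z)) := continuous_const.mul hcd
    have hc2 : Continuous fun t => (g t - g t₀) * (C'.dx t / (C'.x t - z)) :=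
      (hg.sub continuous_const).mul hcd
    rw [intervalIntegral.integral_const_mul, intervalIntegral.integral_add
      (hc1.intervalIntegrable _ _) (hc2.intervalIntegrable _ _), intervalIntegral.integral_const_mul,
      C'.integral_dx_div hzOm]
    field_simp
  -- the difference
  set F : ℝ → ℂ := fun t => (g t - g t₀) * (C'.dx t / (C'.x t - z) - C.dx t / (C.x t - z)) with hF
  have hFm : Measurable F :=
    ((hg.sub continuous_const).measurable).mul (hcd.measurable.sub (C.measurable_dx_div z))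
  -- pointwise bound
  have hpt : ∀ t, ‖F t‖ ≤ L₀ * (δ + C.R t * min 1 (δ / ‖C.x t - z‖)) := by
    intro t
    have hmin0 : 0 ≤ min 1 (δ / ‖C.x t - z‖) := le_min zero_le_one (by positivity)
    have hRt := C.R_pos t
    rcases eq_or_ne (C.x t - z) 0 with h0 | h0
    · have : g t - g t₀ = 0 := by
        have h1 := hL t t₀
        rw [← hz, h0, norm_zero, mul_zero] at h1
        exact norm_le_zero_iff.1 h1
      simp only [hF, this, zero_mul, norm_zero]
      positivity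
    · have hn : 0 < ‖C.x t - z‖ := norm_pos_iff.2 h0
      set e := exp (I * t) with he
      have hen : ‖e‖ = 1 := norm_exp_I t
      have hx' : C'.x t = C.x t + δ * e := C.shift_x δ hδ.le t
      have hdx' : C'.dx t = C.dx t + I * e * δ := C.shift_dx δ hδ.le t
      have hdiff : C'.dx t / (C'.x t - z) - C.dx t / (C.x t - z) =
          (δ * e * (I * (C.x t - z) - C.dx t)) / ((C'.x t - z) * (C.x t - z)) := by
        have := hne' t
        field_simp
        rw [hx', hdx']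
        ring
      -- distance comparison
      have hD0 : 0 ≤ C.D z t := C.x_mem_K t₀ t
      have hsq : ‖C'.x t - z‖ ^ 2 = (C.D z t + δ) ^ 2 + C.T z t ^ 2 := by
        rw [C'.normSq_sub, hC', shift_D, shift_T]
      have hsq0 : ‖C.x t - z‖ ^ 2 = C.D z t ^ 2 + C.T z t ^ 2 := C.normSq_sub z t
      have hgt : ‖C.x t - z‖ ≤ ‖C'.x t - z‖ := by
        apply abs_le_of_sq_le_sq _ (norm_nonneg _) |> (le_abs_self _).trans
        rw [hsq, hsq0]
        nlinarith
      have hgtδ : δ ≤ ‖C'.x t - z‖ := by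
        apply abs_le_of_sq_le_sq _ (norm_nonneg _) |> (le_abs_self _).trans
        rw [hsq]
        nlinarith [sq_nonneg (C.T z t)]
      have hn' : 0 < ‖C'.x t - z‖ := lt_of_lt_of_le hδ hgtδ
      simp only [hF]
      rw [hdiff, norm_mul, norm_div, norm_mul, norm_mul, norm_mul]
      have hnum : ‖I * (C.x t - z) - C.dx t‖ ≤ ‖C.x t - z‖ + C.R t := by
        refine (norm_sub_le _ _).trans ?_
        rw [norm_mul, norm_I, one_mul, C.norm_dx]
      have h1 : ‖g t - g t₀‖ ≤ L₀ * ‖C.x t - z‖ := hL t t₀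
      have hδn : ‖(δ : ℂ)‖ = δ := by rw [Complex.norm_real, Real.norm_of_nonneg hδ.le]
      rw [hδn, hen, mul_one]
      have h2 : ‖g t - g t₀‖ * (δ * ‖I * (C.x t - z) - C.dx t‖ / (‖C'.x t - z‖ * ‖C.x t - z‖)) ≤
          (L₀ * ‖C.x t - z‖) * (δ * (‖C.x t - z‖ + C.R t) / (‖C'.x t - z‖ * ‖C.x t - z‖)) := by
        refine mul_le_mul h1 ?_ (by positivity) (by positivity)
        exact div_le_div_of_nonneg_right (mul_le_mul_of_nonneg_left hnum hδ.le) (by positivity)
      refine h2.trans ?_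
      have h3 : (L₀ * ‖C.x t - z‖) * (δ * (‖C.x t - z‖ + C.R t) / (‖C'.x t - z‖ * ‖C.x t - z‖)) =
          L₀ * (δ * (‖C.x t - z‖ / ‖C'.x t - z‖) + C.R t * (δ / ‖C'.x t - z‖)) := by
        field_simp
      rw [h3]
      refine mul_le_mul_of_nonneg_left (add_le_add ?_ ?_) hL₀
      · have : ‖C.x t - z‖ / ‖C'.x t - z‖ ≤ 1 := (div_le_one hn').2 hgt
        nlinarith
      · refine mul_le_mul_of_nonneg_left ?_ hRt.le
        refine le_min ((div_le_one hn').2 hgtδ) ?_
        exact div_le_div_of_nonneg_left hδ.le hn hgt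
  have hb1 : ∀ t, ‖F t‖ ≤ L₀ * (1 + C.Rb) := by
    intro t
    refine (hpt t).trans (mul_le_mul_of_nonneg_left ?_ hL₀)
    have h1 : min 1 (δ / ‖C.x t - z‖) ≤ 1 := min_le_left _ _
    have h0 : 0 ≤ min 1 (δ / ‖C.x t - z‖) := le_min zero_le_one (by positivity)
    have h2 : C.R t * min 1 (δ / ‖C.x t - z‖) ≤ C.Rb * 1 :=
      mul_le_mul (C.R_le t) h1 h0 hR.le
    linarith
  have hb2 : ∀ t, t₀ + σ ≤ t → t ≤ t₀ + 2 * π - σ →
      ‖F t‖ ≤ δ * (L₀ * (1 + C.Rb / (2 * C.rho * sn))) := by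
    intro t h1 h2
    refine (hpt t).trans ?_
    have hs := sin_half_ge hσpos hσlt (by linarith : σ ≤ t - t₀) (by linarith : t - t₀ ≤ 2 * π - σ)
    have hnorm : 2 * C.rho * sn ≤ ‖C.x t - z‖ := by
      refine le_trans ?_ (C.norm_x_sub_ge t₀ t)
      exact mul_le_mul_of_nonneg_left hs (by positivity)
    have h3 : min 1 (δ / ‖C.x t - z‖) ≤ δ / (2 * C.rho * sn) :=
      (min_le_right _ _).trans (div_le_div_of_nonneg_left hδ.le (by positivity) hnorm)
    have h0 : 0 ≤ min 1 (δ / ‖C.x t - z‖) := le_min zero_le_one (by positivity)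
    have h4 : C.R t * min 1 (δ / ‖C.x t - z‖) ≤ C.Rb * (δ / (2 * C.rho * sn)) :=
      mul_le_mul (C.R_le t) h3 h0 hR.le
    calc L₀ * (δ + C.R t * min 1 (δ / ‖C.x t - z‖))
        ≤ L₀ * (δ + C.Rb * (δ / (2 * C.rho * sn))) := mul_le_mul_of_nonneg_left (by linarith) hL₀
      _ = δ * (L₀ * (1 + C.Rb / (2 * C.rho * sn))) := by ring
  -- periodicity
  have hFper : Function.Periodic F (2 * π) := by
    intro t
    simp only [hF, hper, C.x_per, C.dx_per, C'.x_per, C'.dx_per]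
  have hFint : ∀ α β, IntervalIntegrable F volume α β := fun α β => iI_of_bdd hFm hb1 α β
  have hsplit := norm_integral_split (a := t₀) hFint hσpos hσlt hb1 hb2
  have hshift : ∫ t in (0:ℝ)..(2 * π), F t = ∫ t in t₀..(t₀ + 2 * π), F t := by
    have := hFper.intervalIntegral_add_eq 0 t₀
    rwa [zero_add] at this
  -- the integrals with the curve kernel
  have hGm : Measurable fun t => (g t - g t₀) * (C.dx t / (C.x t - z)) :=
    ((hg.sub continuous_const).measurable).mul (C.measurable_dx_div z)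
  have hGi : IntervalIntegrable (fun t => (g t - g t₀) * (C.dx t / (C.x t - z))) volume 0 (2 * π) :=
    iI_of_bdd hGm (fun t => C.norm_lip_mul_div_le hL₀ hL t t₀) _ _
  have hc2 : Continuous fun t => (g t - g t₀) * (C'.dx t / (C'.x t - z)) :=
    (hg.sub continuous_const).mul hcd
  have hFeq : (∫ t in (0:ℝ)..(2 * π), (g t - g t₀) * (C'.dx t / (C'.x t - z))) -
      (∫ t in (0:ℝ)..(2 * π), (g t - g t₀) * (C.dx t / (C.x t - z))) = ∫ t in (0:ℝ)..(2 * π), F t := by
    rw [← intervalIntegral.integral_sub (hc2.intervalIntegrable _ _) hGi]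
    refine intervalIntegral.integral_congr fun t _ => ?_
    simp only [hF]
    ring
  rw [hmain]
  have hfinal : g t₀ + (1 / (2 * π * I)) * (∫ t in (0:ℝ)..(2 * π), (g t - g t₀) * (C'.dx t / (C'.x t - z))) - g t₀ -
      (1 / (2 * π * I)) * (∫ t in (0:ℝ)..(2 * π), (g t - g t₀) * (C.dx t / (C.x t - z))) =
      (1 / (2 * π * I)) * ∫ t in (0:ℝ)..(2 * π), F t := by
    rw [← hFeq]; ring
  rw [hfinal, hshift, norm_mul]
  have hcoef : ‖(1 / (2 * π * I) : ℂ)‖ = 1 / (2 * π) := by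
    rw [norm_div, norm_one, norm_mul, norm_mul, norm_I, Complex.norm_real, Real.norm_of_nonneg hpi.le]
    simp
  rw [hcoef]
  have hfin2 : 2 * σ * (L₀ * (1 + C.Rb)) + 2 * π * (δ * (L₀ * (1 + C.Rb / (2 * C.rho * sn)))) ≤ 2 * π * ε := by
    have h1 : L₀ * (1 + C.Rb) ≤ c₁ := by rw [hc₁]; linarith
    have h2 : L₀ * (1 + C.Rb / (2 * C.rho * sn)) ≤ c₂ := by rw [hc₂]; linarith
    have h3 : σ * (L₀ * (1 + C.Rb)) ≤ σ * c₁ := mul_le_mul_of_nonneg_left h1 hσpos.le
    have h4 : δ * (L₀ * (1 + C.Rb / (2 * C.rho * sn))) ≤ δ * c₂ := mul_le_mul_of_nonneg_left h2 hδ.le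
    nlinarith
  calc 1 / (2 * π) * ‖∫ t in t₀..(t₀ + 2 * π), F t‖
      ≤ 1 / (2 * π) * (2 * π * ε) :=
        mul_le_mul_of_nonneg_left (hsplit.trans hfin2) (by positivity)
    _ = ε := by field_simp

/-- Lipschitz property of polynomials on `K`. -/
lemma exists_lipschitz (h : ℂ[X]) : ∃ L ≥ 0, ∀ u ∈ C.K, ∀ v ∈ C.K, ‖h.eval u - h.eval v‖ ≤ L * ‖u - v‖ := by
  obtain ⟨B, hB⟩ := C.isCompact_K.exists_bound_of_continuousOn (f := fun p => h.derivative.eval p)
    (h.derivative.continuous).continuousOn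
  have hB0 : 0 ≤ max B 0 := le_max_right _ _
  refine ⟨max B 0, hB0, fun u hu v hv => ?_⟩
  have := C.convex_K.norm_image_sub_le_of_norm_deriv_le (𝕜 := ℂ) (f := fun p => h.eval p)
    (C := max B 0) (x := v) (y := u)
    (fun p _ => h.differentiable.differentiableAt)
    (fun p hp => by
      rw [Polynomial.deriv]
      exact (hB p hp).trans (le_max_left _ _)) hv hu
  exact this

/-- kernel `kar` against a Lipschitz factor: interval integrability. -/
lemma norm_kar_mul_le {g : ℝ → ℂ} {L₀ : ℝ} (hL₀ : 0 ≤ L₀)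
    (hL : ∀ t t₀, ‖g t - g t₀‖ ≤ L₀ * ‖C.x t - C.x t₀‖) (t t₀ : ℝ) :
    ‖(g t - g t₀) * (C.kar (C.x t₀) t : ℂ)‖ ≤ L₀ * C.Rb := by
  have hR := C.Rb_pos
  rw [norm_mul, Complex.norm_real, Real.norm_eq_abs]
  set z := C.x t₀ with hz
  have hsq := C.normSq_sub z t
  have hTle := C.abs_T_le_norm z t
  rcases eq_or_ne (C.x t - z) 0 with h | h
  · have : C.D z t ^ 2 + C.T z t ^ 2 = 0 := by rw [← hsq, h, norm_zero]; ring
    simp [kar, this]
    positivity
  · have hn : 0 < ‖C.x t - z‖ := norm_pos_iff.2 h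
    have hkar : |C.kar z t| ≤ C.Rb / ‖C.x t - z‖ := by
      unfold kar
      rw [← hsq, abs_div, abs_mul, abs_of_pos (C.R_pos t), abs_of_pos (pow_pos hn 2),
        div_le_div_iff₀ (pow_pos hn 2) hn]
      have hRR := C.R_le t
      have hRp := C.R_pos t
      have h1 : C.R t * |C.T z t| ≤ C.Rb * ‖C.x t - z‖ :=
        mul_le_mul hRR hTle (abs_nonneg _) hR.le
      have h2 := mul_le_mul_of_nonneg_right h1 hn.le
      nlinarith
    calc ‖g t - g t₀‖ * |C.kar z t| ≤ (L₀ * ‖C.x t - z‖) * (C.Rb / ‖C.x t - z‖) :=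
          mul_le_mul (hL t t₀) hkar (abs_nonneg _) (by positivity)
      _ = L₀ * C.Rb := by field_simp

lemma norm_kap_mul_le {g : ℝ → ℂ} {L₀ : ℝ} (hL₀ : 0 ≤ L₀)
    (hL : ∀ t t₀, ‖g t - g t₀‖ ≤ L₀ * ‖C.x t - C.x t₀‖) (t t₀ : ℝ) :
    ‖(g t - g t₀) * (C.kap (C.x t₀) t : ℂ)‖ ≤ L₀ * C.Rb := by
  have hR := C.Rb_pos
  rw [norm_mul, Complex.norm_real, Real.norm_eq_abs]
  set z := C.x t₀ with hz
  have hsq := C.normSq_sub z t
  have hD0 : 0 ≤ C.D z t := C.x_mem_K t₀ t
  have hDle := C.D_le_norm z t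
  rcases eq_or_ne (C.x t - z) 0 with h | h
  · have : C.D z t ^ 2 + C.T z t ^ 2 = 0 := by rw [← hsq, h, norm_zero]; ring
    simp [kap, this]
    positivity
  · have hn : 0 < ‖C.x t - z‖ := norm_pos_iff.2 h
    have hkap : |C.kap z t| ≤ C.Rb / ‖C.x t - z‖ := by
      unfold kap
      rw [← hsq, abs_div, abs_mul, abs_of_pos (C.R_pos t), abs_of_pos (pow_pos hn 2),
        abs_of_nonneg hD0, div_le_div_iff₀ (pow_pos hn 2) hn]
      have hRR := C.R_le t
      have hRp := C.R_pos t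
      have h1 : C.R t * C.D z t ≤ C.Rb * ‖C.x t - z‖ :=
        mul_le_mul hRR hDle hD0 hR.le
      have h2 := mul_le_mul_of_nonneg_right h1 hn.le
      nlinarith
    calc ‖g t - g t₀‖ * |C.kap z t| ≤ (L₀ * ‖C.x t - z‖) * (C.Rb / ‖C.x t - z‖) :=
          mul_le_mul (hL t t₀) hkap (abs_nonneg _) (by positivity)
      _ = L₀ * C.Rb := by field_simp

lemma measurable_mul_kar {g : ℝ → ℂ} (hg : Continuous g) (t₀ : ℝ) :
    Measurable fun t => (g t - g t₀) * (C.kar (C.x t₀) t : ℂ) :=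
  ((hg.sub continuous_const).measurable).mul (Complex.measurable_ofReal.comp (C.measurable_kar _))

lemma measurable_mul_kap {g : ℝ → ℂ} (hg : Continuous g) (t₀ : ℝ) :
    Measurable fun t => (g t - g t₀) * (C.kap (C.x t₀) t : ℂ) :=
  ((hg.sub continuous_const).measurable).mul (Complex.measurable_ofReal.comp (C.measurable_kap _))

/-- The principal part splits into `kar` and `kap` integrals. -/
lemma integral_split_kar_kap {g : ℝ → ℂ} (hg : Continuous g) {L₀ : ℝ} (hL₀ : 0 ≤ L₀)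
    (hL : ∀ t t₀, ‖g t - g t₀‖ ≤ L₀ * ‖C.x t - C.x t₀‖) (t₀ : ℝ) :
    ∫ t in (0:ℝ)..(2 * π), (g t - g t₀) * (C.dx t / (C.x t - C.x t₀)) =
      (∫ t in (0:ℝ)..(2 * π), (g t - g t₀) * (C.kar (C.x t₀) t : ℂ)) +
        I * ∫ t in (0:ℝ)..(2 * π), (g t - g t₀) * (C.kap (C.x t₀) t : ℂ) := by
  have h1 := iI_of_bdd (C.measurable_mul_kar hg t₀) (fun t => C.norm_kar_mul_le hL₀ hL t t₀) 0 (2 * π)
  have h2 := iI_of_bdd (C.measurable_mul_kap hg t₀) (fun t => C.norm_kap_mul_le hL₀ hL t t₀) 0 (2 * π)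
  rw [← intervalIntegral.integral_const_mul, ← intervalIntegral.integral_add h1 (h2.const_mul I)]
  refine intervalIntegral.integral_congr fun t _ => ?_
  beta_reduce
  rw [C.dx_div]
  ring

/-- Key vanishing: the Cauchy theorem for the difference quotient of a polynomial. -/
theorem integral_poly_kernel (h : ℂ[X]) (t₀ : ℝ) :
    ∫ t in (0:ℝ)..(2 * π), (h.eval (C.x t) - h.eval (C.x t₀)) * (C.dx t / (C.x t - C.x t₀)) = 0 := by
  set z := C.x t₀ with hz
  obtain ⟨Q, hQ⟩ : ∃ Q : ℂ[X], ∀ w, h.eval w - h.eval z = (w - z) * Q.eval w := by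
    refine ⟨(h - Polynomial.C (h.eval z)) /ₘ (Polynomial.X - Polynomial.C z), fun w => ?_⟩
    have hroot : (h - Polynomial.C (h.eval z)).IsRoot z := by simp [Polynomial.IsRoot]
    have := (Polynomial.mul_divByMonic_eq_iff_isRoot).2 hroot
    have h2 := congrArg (Polynomial.eval w) this
    simp only [Polynomial.eval_mul, Polynomial.eval_sub, Polynomial.eval_X, Polynomial.eval_C] at h2
    exact h2.symm
  -- the integrand is periodic
  have hper : Function.Periodic (fun t => (h.eval (C.x t) - h.eval z) * (C.dx t / (C.x t - z))) (2 * π) := by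
    intro t
    simp only [C.x_per, C.dx_per]
  have hshift := hper.intervalIntegral_add_eq 0 t₀
  rw [zero_add] at hshift
  rw [hshift]
  have hcongr : ∫ t in t₀..(t₀ + 2 * π), (h.eval (C.x t) - h.eval z) * (C.dx t / (C.x t - z)) =
      ∫ t in t₀..(t₀ + 2 * π), Q.eval (C.x t) * C.dx t := by
    refine intervalIntegral.integral_congr_ae ?_
    have hne : ∀ᵐ t ∂(volume : Measure ℝ), t ≠ t₀ + 2 * π := by
      simp [ae_iff]
    filter_upwards [hne] with t ht htm
    rw [uIoc_of_le (by linarith [Real.pi_pos])] at htm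
    have hlt : t < t₀ + 2 * π := lt_of_le_of_ne htm.2 ht
    have hD := C.D_x_pos htm.1 hlt
    have hne0 : C.x t - z ≠ 0 := by
      intro h0
      have := C.D_le_norm z t
      rw [h0, norm_zero] at this
      linarith
    beta_reduce
    rw [hQ]
    field_simp
  rw [hcongr]
  have hperQ : Function.Periodic (fun t => Q.eval (C.x t) * C.dx t) (2 * π) := by
    intro t
    simp only [C.x_per, C.dx_per]
  have hs2 := hperQ.intervalIntegral_add_eq t₀ 0
  rw [zero_add] at hs2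
  rw [hs2, C.integral_eval_dx]

/-- Boundary principal value of the conjugate of a polynomial. -/
theorem principal_conj (h : ℂ[X]) (t₀ : ℝ) :
    (1 / (2 * π * I)) * ∫ t in (0:ℝ)..(2 * π),
        (conj (h.eval (C.x t)) - conj (h.eval (C.x t₀))) * (C.dx t / (C.x t - C.x t₀)) =
      conj (C.LC (fun t => h.eval (C.x t)) t₀) - conj (h.eval (C.x t₀)) := by
  obtain ⟨L₀, hL₀, hL⟩ := C.exists_lipschitz h
  set z := C.x t₀ with hz
  have hgc : Continuous fun t => h.eval (C.x t) := h.continuous.comp C.cont_x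
  have hgL : ∀ t t₁, ‖h.eval (C.x t) - h.eval (C.x t₁)‖ ≤ L₀ * ‖C.x t - C.x t₁‖ :=
    fun t t₁ => hL _ (C.x_mem_K t) _ (C.x_mem_K t₁)
  have hcc : Continuous fun t => conj (h.eval (C.x t)) := Complex.continuous_conj.comp hgc
  have hcL : ∀ t t₁, ‖conj (h.eval (C.x t)) - conj (h.eval (C.x t₁))‖ ≤ L₀ * ‖C.x t - C.x t₁‖ := by
    intro t t₁
    rw [← map_sub, Complex.norm_conj]
    exact hgL t t₁
  have hvan := C.integral_poly_kernel h t₀
  rw [C.integral_split_kar_kap hgc hL₀ hgL t₀] at hvan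
  rw [C.integral_split_kar_kap hcc hL₀ hcL t₀]
  simp only [← hz] at hvan ⊢
  have h1 := iI_of_bdd (C.measurable_mul_kar hgc t₀) (fun t => C.norm_kar_mul_le hL₀ hgL t t₀) 0 (2 * π)
  have h2 := iI_of_bdd (C.measurable_mul_kap hgc t₀) (fun t => C.norm_kap_mul_le hL₀ hgL t t₀) 0 (2 * π)
  -- conjugate integrals
  have hconjint : ∀ (k : ℝ → ℝ), IntervalIntegrable (fun t => (h.eval (C.x t) - h.eval (C.x t₀)) * (k t : ℂ)) volume 0 (2 * π) →
      ∫ t in (0:ℝ)..(2 * π), (conj (h.eval (C.x t)) - conj (h.eval (C.x t₀))) * (k t : ℂ) =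
        conj (∫ t in (0:ℝ)..(2 * π), (h.eval (C.x t) - h.eval (C.x t₀)) * (k t : ℂ)) := by
    intro k hk
    have := (Complex.conjCLE : ℂ →L[ℝ] ℂ).intervalIntegral_comp_comm hk
    have e : ∀ t, (Complex.conjCLE : ℂ →L[ℝ] ℂ) ((h.eval (C.x t) - h.eval (C.x t₀)) * (k t : ℂ)) =
        (conj (h.eval (C.x t)) - conj (h.eval (C.x t₀))) * (k t : ℂ) := by
      intro t
      simp
    simp_rw [e] at this
    rw [this]
    simp
  rw [hconjint _ h1, hconjint _ h2]
  set A := ∫ t in (0:ℝ)..(2 * π), (h.eval (C.x t) - h.eval (C.x t₀)) * (C.kar z t : ℂ) with hA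
  set B := ∫ t in (0:ℝ)..(2 * π), (h.eval (C.x t) - h.eval (C.x t₀)) * (C.kap z t : ℂ) with hB
  have hAB : conj A = I * conj B := by
    have := congrArg conj hvan
    simp only [map_add, map_mul, Complex.conj_I, map_zero] at this
    linear_combination this
  have hLC : conj (C.LC (fun t => h.eval (C.x t)) t₀) - conj (h.eval z) = ((1 / π : ℝ) : ℂ) * conj B := by
    have hkm : ∫ t in (0:ℝ)..(2 * π), (C.kap z t : ℂ) = (π : ℂ) := by
      rw [intervalIntegral.integral_ofReal, C.integral_kap_x']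
    have hki : IntervalIntegrable (fun t => (C.kap z t : ℂ)) volume 0 (2 * π) :=
      iI_ofReal (C.intervalIntegrable_kap_x t₀ _ _)
    have hk2 : IntervalIntegrable (fun t => h.eval (C.x t) * (C.kap z t : ℂ)) volume 0 (2 * π) := by
      have h3 := h2.add (hki.const_mul (h.eval z))
      refine h3.congr (fun t _ => ?_)
      beta_reduce
      ring
    have hBeq : B = (∫ t in (0:ℝ)..(2 * π), h.eval (C.x t) * (C.kap z t : ℂ)) - h.eval z * π := by
      rw [hB, ← hkm, ← intervalIntegral.integral_const_mul,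
        ← intervalIntegral.integral_sub hk2 (hki.const_mul _)]
      refine intervalIntegral.integral_congr fun t _ => ?_
      beta_reduce
      ring
    have hLCeq : C.LC (fun t => h.eval (C.x t)) t₀ =
        ((1 / π : ℝ) : ℂ) * ∫ t in (0:ℝ)..(2 * π), h.eval (C.x t) * (C.kap z t : ℂ) := rfl
    rw [hLCeq, hBeq]
    have hpi : (π : ℂ) ≠ 0 := by exact_mod_cast Real.pi_ne_zero
    simp only [map_mul, map_sub, Complex.conj_ofReal]
    push_cast
    field_simp
  rw [hLC, hAB]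
  have hpi : (π : ℂ) ≠ 0 := by exact_mod_cast Real.pi_ne_zero
  push_cast
  field_simp
  ring

end SCurve
end Vale.Agent.Lib.P123.U
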