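import Vale.Agent.Lib.P123.U.Kernel

/-! Cauchy formula along the curve in a Banach algebra. -/

open Complex MeasureTheory Set Filter Topology Polynomial
open scoped Real

namespace Vale.Agent.Lib.P123.U
namespace SCurve

variable (C : SCurve)

lemma iI_ofReal {f : ℝ → ℝ} {a b : ℝ} (h : IntervalIntegrable f volume a b) :
    IntervalIntegrable (fun t => (f t : ℂ)) volume a b :=
  ⟨h.1.ofReal, h.2.ofReal⟩

/-- scalar winding number -/
theorem integral_dx_div {p : ℂ} (hp : p ∈ C.Om) :
    ∫ t in (0:ℝ)..(2 * π), C.dx t / (C.x t - p) = 2 * π * I := by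
  have h1 : IntervalIntegrable (fun t => (C.kar p t : ℂ)) volume 0 (2 * π) :=
    iI_ofReal (C.intervalIntegrable_kar_Om hp _ _)
  have h2 : IntervalIntegrable (fun t => I * (C.kap p t : ℂ)) volume 0 (2 * π) :=
    (iI_ofReal (C.intervalIntegrable_kap_Om hp _ _)).const_mul I
  simp_rw [C.dx_div]
  rw [intervalIntegral.integral_add h1 h2, intervalIntegral.integral_const_mul,
    intervalIntegral.integral_ofReal, intervalIntegral.integral_ofReal, C.integral_kar_Om hp,
    C.integral_kap_Om hp]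
  push_cast
  ring

/-- primitive of polynomials along the curve -/
theorem integral_pow_dx (n : ℕ) : ∫ t in (0:ℝ)..(2 * π), C.x t ^ n * C.dx t = 0 := by
  have hd : ∀ t, HasDerivAt (fun t => C.x t ^ (n + 1) / ((n : ℂ) + 1)) (C.x t ^ n * C.dx t) t := by
    intro t
    have h1 := ((C.hasDerivAt_x t).pow (n + 1)).div_const ((n : ℂ) + 1)
    refine h1.congr_deriv ?_
    have hn : ((n : ℂ) + 1) ≠ 0 := by exact_mod_cast Nat.succ_ne_zero n
    push_cast
    field_simp
  have hc : Continuous fun t => C.x t ^ n * C.dx t := (C.cont_x.pow n).mul C.cont_dx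
  rw [intervalIntegral.integral_eq_sub_of_hasDerivAt (fun t _ => hd t) (hc.intervalIntegrable _ _)]
  have : C.x (2 * π) = C.x 0 := by
    have := C.x_per 0
    rwa [zero_add] at this
  rw [this, sub_self]

theorem integral_eval_dx (P : ℂ[X]) : ∫ t in (0:ℝ)..(2 * π), P.eval (C.x t) * C.dx t = 0 := by
  induction P using Polynomial.induction_on' with
  | add p q hp hq =>
    have hc : ∀ r : ℂ[X], Continuous fun t => r.eval (C.x t) * C.dx t := fun r =>
      (r.continuous.comp C.cont_x).mul C.cont_dx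
    simp only [eval_add, add_mul]
    rw [intervalIntegral.integral_add ((hc p).intervalIntegrable _ _)
      ((hc q).intervalIntegrable _ _), hp, hq, add_zero]
  | monomial n c =>
    simp only [eval_monomial]
    simp_rw [mul_assoc]
    rw [intervalIntegral.integral_const_mul, C.integral_pow_dx, mul_zero]

set_option linter.unusedSectionVars false

variable {𝔸 : Type*} [NormedRing 𝔸] [NormedAlgebra ℂ 𝔸] [CompleteSpace 𝔸]

lemma integral_mul_left' (a : 𝔸) {f : ℝ → 𝔸} (hf : Continuous f) (α β : ℝ) :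
    ∫ t in α..β, a * f t = a * ∫ t in α..β, f t :=
  (ContinuousLinearMap.mul ℝ 𝔸 a).intervalIntegral_comp_comm (hf.intervalIntegrable _ _)

/-- resolvent along the curve -/
noncomputable def res (a : 𝔸) (t : ℝ) : 𝔸 := Ring.inverse (algebraMap ℂ 𝔸 (C.x t) - a)

lemma res_per (a : 𝔸) (t : ℝ) : C.res a (t + 2 * π) = C.res a t := by
  unfold res; rw [C.x_per]

lemma hasDerivAt_alg_x (a : 𝔸) (t : ℝ) :
    HasDerivAt (fun t => algebraMap ℂ 𝔸 (C.x t) - a) (algebraMap ℂ 𝔸 (C.dx t)) t := by
  have h1 : HasDerivAt (fun t => algebraMap ℂ 𝔸 (C.x t)) (algebraMap ℂ 𝔸 (C.dx t)) t := by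
    exact ((algebraMapCLM ℂ 𝔸).restrictScalars ℝ).hasFDerivAt.comp_hasDerivAt t (C.hasDerivAt_x t)
  exact h1.sub_const a

section units

variable {a : 𝔸} (hU : ∀ t, IsUnit (algebraMap ℂ 𝔸 (C.x t) - a))
include hU

lemma sub_mul_res (t : ℝ) : (algebraMap ℂ 𝔸 (C.x t) - a) * C.res a t = 1 :=
  Ring.mul_inverse_cancel _ (hU t)

lemma res_mul_sub (t : ℝ) : C.res a t * (algebraMap ℂ 𝔸 (C.x t) - a) = 1 :=
  Ring.inverse_mul_cancel _ (hU t)

lemma continuousAt_res (t : ℝ) : ContinuousAt (C.res a) t := by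
  obtain ⟨u, hu⟩ := hU t
  have h1 : ContinuousAt Ring.inverse (algebraMap ℂ 𝔸 (C.x t) - a) := by
    rw [← hu]; exact NormedRing.inverse_continuousAt u
  have h2 : ContinuousAt (fun t => algebraMap ℂ 𝔸 (C.x t) - a) t :=
    (C.hasDerivAt_alg_x a t).continuousAt
  exact ContinuousAt.comp (f := fun t => algebraMap ℂ 𝔸 (C.x t) - a) h1 h2

lemma continuous_res : Continuous (C.res a) :=
  continuous_iff_continuousAt.2 (C.continuousAt_res hU)

lemma hasDerivAt_res (t : ℝ) :
    HasDerivAt (C.res a) (-(C.dx t • (C.res a t * C.res a t))) t := by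
  obtain ⟨u, hu⟩ := hU t
  have h1 : HasFDerivAt (𝕜 := ℝ) Ring.inverse
      (-ContinuousLinearMap.mulLeftRight ℝ 𝔸 (↑u⁻¹ : 𝔸) (↑u⁻¹ : 𝔸)) (algebraMap ℂ 𝔸 (C.x t) - a) := by
    rw [← hu]; exact hasFDerivAt_ringInverse u
  have h2 := h1.comp_hasDerivAt t (C.hasDerivAt_alg_x a t)
  have hres : C.res a t = (↑u⁻¹ : 𝔸) := by
    unfold res; rw [← hu]; exact Ring.inverse_unit u
  refine HasDerivAt.congr_deriv (f := C.res a) h2 ?_
  rw [hres]
  simp only [ContinuousLinearMap.neg_apply, ContinuousLinearMap.mulLeftRight_apply]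
  rw [Algebra.algebraMap_eq_smul_one]
  simp [mul_assoc]

lemma continuous_dx_smul_res : Continuous fun t => C.dx t • C.res a t :=
  C.cont_dx.smul (C.continuous_res hU)

theorem integral_dx_res_sq :
    ∫ t in (0:ℝ)..(2 * π), C.dx t • (C.res a t * C.res a t) = 0 := by
  have hc : Continuous fun t => -(C.dx t • (C.res a t * C.res a t)) :=
    (C.cont_dx.smul ((C.continuous_res hU).mul (C.continuous_res hU))).neg
  have h := intervalIntegral.integral_eq_sub_of_hasDerivAt (f := C.res a)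
    (a := 0) (b := 2 * π) (fun t _ => C.hasDerivAt_res hU t) (hc.intervalIntegrable _ _)
  rw [intervalIntegral.integral_neg] at h
  have h2 : C.res a (2 * π) = C.res a 0 := by
    have := C.res_per a 0
    rwa [zero_add] at this
  rw [h2, sub_self] at h
  exact neg_eq_zero.1 h

/-- from `p = 1` to all polynomials -/
theorem integral_eval_res (hbase : ∫ t in (0:ℝ)..(2 * π), C.dx t • C.res a t =
      (2 * π * I : ℂ) • (1 : 𝔸)) (P : ℂ[X]) :
    ∫ t in (0:ℝ)..(2 * π), (P.eval (C.x t) * C.dx t) • C.res a t =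
      (2 * π * I : ℂ) • Polynomial.aeval a P := by
  have hres := C.continuous_res hU
  have hcn : ∀ n : ℕ, Continuous fun t => (C.x t ^ n * C.dx t) • C.res a t := fun n =>
    ((C.cont_x.pow n).mul C.cont_dx).smul hres
  have hpow : ∀ n : ℕ, ∫ t in (0:ℝ)..(2 * π), (C.x t ^ n * C.dx t) • C.res a t =
      (2 * π * I : ℂ) • a ^ n := by
    intro n
    induction n with
    | zero => simpa using hbase
    | succ n ih =>
      have hstep : ∀ t, (C.x t ^ (n + 1) * C.dx t) • C.res a t =
          (C.x t ^ n * C.dx t) • (1 : 𝔸) + a * ((C.x t ^ n * C.dx t) • C.res a t) := by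
        intro t
        have h1 := C.sub_mul_res hU t
        rw [sub_mul, Algebra.algebraMap_eq_smul_one, smul_mul_assoc, one_mul, sub_eq_iff_eq_add]
          at h1
        rw [mul_smul_comm, pow_succ]
        have : (C.x t ^ n * C.x t * C.dx t) = (C.x t ^ n * C.dx t) * C.x t := by ring
        rw [this, mul_smul, h1, smul_add]
      simp_rw [hstep]
      have hc1 : Continuous fun t => (C.x t ^ n * C.dx t) • (1 : 𝔸) :=
        ((C.cont_x.pow n).mul C.cont_dx).smul continuous_const
      have hc2 : Continuous fun t => a * ((C.x t ^ n * C.dx t) • C.res a t) :=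
        continuous_const.mul (hcn n)
      rw [intervalIntegral.integral_add (hc1.intervalIntegrable _ _) (hc2.intervalIntegrable _ _)]
      rw [intervalIntegral.integral_smul_const, C.integral_pow_dx, zero_smul, zero_add]
      rw [integral_mul_left' a (hcn n), ih, mul_smul_comm, pow_succ']
  induction P using Polynomial.induction_on' with
  | add p q hp hq =>
    have hc : ∀ r : ℂ[X], Continuous fun t => (r.eval (C.x t) * C.dx t) • C.res a t := fun r =>
      ((r.continuous.comp C.cont_x).mul C.cont_dx).smul hres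
    simp only [eval_add, add_mul, add_smul, map_add, smul_add]
    rw [intervalIntegral.integral_add ((hc p).intervalIntegrable _ _)
      ((hc q).intervalIntegrable _ _), hp, hq]
  | monomial n c =>
    simp only [eval_monomial, Polynomial.aeval_monomial]
    have : ∀ t, (c * C.x t ^ n * C.dx t) • C.res a t = c • ((C.x t ^ n * C.dx t) • C.res a t) := by
      intro t; rw [← mul_smul]; ring_nf
    simp_rw [this]
    rw [intervalIntegral.integral_smul, hpow n, Algebra.algebraMap_eq_smul_one, smul_mul_assoc,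
      one_mul, smul_comm]

end units

lemma inverse_eq_of_mul_eq_one {y w : 𝔸} (hy : IsUnit y) (h : y * w = 1) : Ring.inverse y = w := by
  calc Ring.inverse y = Ring.inverse y * (y * w) := by rw [h, mul_one]
    _ = w := by rw [← mul_assoc, Ring.inverse_mul_cancel _ hy, one_mul]

lemma commute_inverse {Q y : 𝔸} (hy : IsUnit y) (h : Q * y = y * Q) :
    Q * Ring.inverse y = Ring.inverse y * Q := by
  have h1 : Ring.inverse y * y = 1 := Ring.inverse_mul_cancel _ hy
  have h2 : y * Ring.inverse y = 1 := Ring.mul_inverse_cancel _ hy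
  calc Q * Ring.inverse y = (Ring.inverse y * y) * (Q * Ring.inverse y) := by rw [h1, one_mul]
    _ = Ring.inverse y * (y * Q) * Ring.inverse y := by noncomm_ring
    _ = Ring.inverse y * (Q * y) * Ring.inverse y := by rw [h]
    _ = Ring.inverse y * Q * (y * Ring.inverse y) := by noncomm_ring
    _ = Ring.inverse y * Q := by rw [h2, mul_one]

/-- telescoping: quadratic modulus implies constancy -/
lemma eq_of_sq_modulus {G : ℝ → 𝔸} {B : ℝ}
    (h : ∀ s ∈ Icc (0:ℝ) 1, ∀ s' ∈ Icc (0:ℝ) 1, ‖G s - G s'‖ ≤ B * (s - s') ^ 2) : G 1 = G 0 := by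
  have hB : 0 ≤ B := by
    by_contra hneg
    push Not at hneg
    have := h 1 ⟨zero_le_one, le_refl _⟩ 0 ⟨le_refl _, zero_le_one⟩
    have h2 := norm_nonneg (G 1 - G 0)
    nlinarith
  have key : ∀ n : ℕ, 0 < n → ‖G 1 - G 0‖ ≤ B / n := by
    intro n hn
    have hn' : (0:ℝ) < n := by exact_mod_cast hn
    have hstep : ∀ k ∈ Finset.range n, ‖G (((k + 1 : ℕ) : ℝ) / n) - G ((k : ℝ) / n)‖ ≤ B / n ^ 2 := by
      intro k hk
      have hk' : ((k : ℝ) + 1) ≤ n := by
        have := Finset.mem_range.1 hk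
        exact_mod_cast this
      have h0 : (k : ℝ) / n ∈ Icc (0:ℝ) 1 := by
        constructor
        · positivity
        · rw [div_le_one hn']; linarith
      have h1 : (((k + 1 : ℕ) : ℝ)) / n ∈ Icc (0:ℝ) 1 := by
        constructor
        · positivity
        · rw [div_le_one hn']; push_cast; linarith
      have := h _ h1 _ h0
      refine this.trans (le_of_eq ?_)
      push_cast
      field_simp
      ring
    have htel : G 1 - G 0 = ∑ k ∈ Finset.range n, (G (((k + 1 : ℕ) : ℝ) / n) - G ((k : ℝ) / n)) := by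
      rw [Finset.sum_range_sub (fun k : ℕ => G ((k : ℝ) / n))]
      simp [hn'.ne']
    rw [htel]
    refine (norm_sum_le _ _).trans ((Finset.sum_le_sum hstep).trans (le_of_eq ?_))
    simp only [Finset.sum_const, Finset.card_range, nsmul_eq_mul]
    field_simp
  have hlim : ‖G 1 - G 0‖ ≤ 0 := by
    refine ge_of_tendsto' (f := fun n : ℕ => B / ((n + 1 : ℕ) : ℝ)) (x := atTop) ?_ fun n => key (n + 1) (Nat.succ_pos n)
    have := tendsto_const_div_atTop_nhds_zero_nat (𝕜 := ℝ) B
    exact (tendsto_add_atTop_iff_nat 1).2 this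
  exact sub_eq_zero.1 (norm_le_zero_iff.1 hlim)

/-- The Cauchy formula by homotopy of `a` inside the domain. -/
theorem cauchy_base {c₀ : ℂ} (hc₀ : c₀ ∈ C.Om) (Q : 𝔸) {G₀ : ℝ}
    (hU : ∀ s ∈ Icc (0:ℝ) 1, ∀ t,
      IsUnit (algebraMap ℂ 𝔸 (C.x t) - (algebraMap ℂ 𝔸 c₀ + (s : ℂ) • Q)))
    (hB : ∀ s ∈ Icc (0:ℝ) 1, ∀ t, ‖C.res (algebraMap ℂ 𝔸 c₀ + (s : ℂ) • Q) t‖ ≤ G₀) :
    ∫ t in (0:ℝ)..(2 * π), C.dx t • C.res (algebraMap ℂ 𝔸 c₀ + Q) t =
      (2 * π * I : ℂ) • (1 : 𝔸) := by
  set b : ℝ → 𝔸 := fun s => algebraMap ℂ 𝔸 c₀ + (s : ℂ) • Q with hb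
  set G : ℝ → 𝔸 := fun s => ∫ t in (0:ℝ)..(2 * π), C.dx t • C.res (b s) t with hG
  have hb1 : b 1 = algebraMap ℂ 𝔸 c₀ + Q := by simp [hb]
  have hG₀ : 0 ≤ G₀ := (norm_nonneg _).trans (hB 0 ⟨le_refl _, zero_le_one⟩ 0)
  -- the value at `s = 0`
  have h0 : G 0 = (2 * π * I : ℂ) • (1 : 𝔸) := by
    have hne : ∀ t, C.x t - c₀ ≠ 0 := by
      intro t h
      have := C.normSq_sub c₀ t
      rw [h, norm_zero] at this
      have hD := hc₀ t
      nlinarith [sq_nonneg (C.T c₀ t), pow_pos hD 2]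
    have hres : ∀ t, C.dx t • C.res (b 0) t = (C.dx t / (C.x t - c₀)) • (1 : 𝔸) := by
      intro t
      have hU0 := hU 0 ⟨le_refl _, zero_le_one⟩ t
      have : C.res (b 0) t = algebraMap ℂ 𝔸 (C.x t - c₀)⁻¹ := by
        unfold res
        apply inverse_eq_of_mul_eq_one hU0
        have e : algebraMap ℂ 𝔸 (C.x t) - (algebraMap ℂ 𝔸 c₀ + ((0:ℝ) : ℂ) • Q) =
            algebraMap ℂ 𝔸 (C.x t - c₀) := by simp
        rw [e, ← map_mul, mul_inv_cancel₀ (hne t), map_one]
      rw [this, Algebra.algebraMap_eq_smul_one, smul_smul, div_eq_mul_inv]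
    simp only [hG]
    simp_rw [hres]
    rw [intervalIntegral.integral_smul_const, C.integral_dx_div hc₀]
  -- resolvent identity and quadratic modulus
  have hstep : ∀ s ∈ Icc (0:ℝ) 1, ∀ s' ∈ Icc (0:ℝ) 1,
      ‖G s - G s'‖ ≤ (2 * π * C.Rb * G₀ ^ 3 * ‖Q‖ ^ 2) * (s - s') ^ 2 := by
    intro s hs s' hs'
    have hUs := hU s hs
    have hUs' := hU s' hs'
    have hcs := C.continuous_res hUs
    have hcs' := C.continuous_res hUs'
    have hid : ∀ t, C.dx t • (C.res (b s) t - C.res (b s') t) =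
        ((s - s' : ℝ) : ℂ) • (Q * (C.dx t • (C.res (b s) t * C.res (b s) t))) +
        (-(((s - s' : ℝ) : ℂ) ^ 2)) • (C.dx t • (C.res (b s) t * Q * C.res (b s') t * Q * C.res (b s) t)) := by
      intro t
      set r := C.res (b s) t with hr
      set r' := C.res (b s') t with hr'
      have h1 : (algebraMap ℂ 𝔸 (C.x t) - b s) * r = 1 := C.sub_mul_res hUs t
      have h2 : r * (algebraMap ℂ 𝔸 (C.x t) - b s) = 1 := C.res_mul_sub hUs t
      have h1' : (algebraMap ℂ 𝔸 (C.x t) - b s') * r' = 1 := C.sub_mul_res hUs' t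
      have h2' : r' * (algebraMap ℂ 𝔸 (C.x t) - b s') = 1 := C.res_mul_sub hUs' t
      have hdiff : (algebraMap ℂ 𝔸 (C.x t) - b s') = (algebraMap ℂ 𝔸 (C.x t) - b s) +
          ((s - s' : ℝ) : ℂ) • Q := by
        simp only [hb]; push_cast; rw [sub_smul]; abel
      have hdiff' : (algebraMap ℂ 𝔸 (C.x t) - b s) = (algebraMap ℂ 𝔸 (C.x t) - b s') -
          ((s - s' : ℝ) : ℂ) • Q := by
        rw [hdiff]; abel
      have hcomm : Q * r = r * Q := by
        apply commute_inverse (hUs t)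
        rw [Algebra.algebraMap_eq_smul_one, Algebra.algebraMap_eq_smul_one]
        simp only [mul_sub, sub_mul, mul_add, add_mul, smul_mul_assoc, mul_smul_comm, one_mul, mul_one]
      have e1 : r - r' = ((s - s' : ℝ) : ℂ) • (r * Q * r') := by
        calc r - r' = r * ((algebraMap ℂ 𝔸 (C.x t) - b s') * r') -
              (r * (algebraMap ℂ 𝔸 (C.x t) - b s)) * r' := by rw [h1', h2]; simp
          _ = r * (((s - s' : ℝ) : ℂ) • Q) * r' := by rw [hdiff]; noncomm_ring
          _ = ((s - s' : ℝ) : ℂ) • (r * Q * r') := by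
              simp only [mul_smul_comm, smul_mul_assoc]
      have e2 : r' - r = (-((s - s' : ℝ) : ℂ)) • (r' * Q * r) := by
        calc r' - r = r' * ((algebraMap ℂ 𝔸 (C.x t) - b s) * r) -
              (r' * (algebraMap ℂ 𝔸 (C.x t) - b s')) * r := by rw [h1, h2']; simp
          _ = r' * ((-((s - s' : ℝ) : ℂ)) • Q) * r := by
              rw [hdiff]; simp only [mul_add, add_mul, smul_mul_assoc, mul_smul_comm, neg_smul,
                mul_neg, neg_mul]; noncomm_ring
          _ = (-((s - s' : ℝ) : ℂ)) • (r' * Q * r) := by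
              simp only [mul_smul_comm, smul_mul_assoc]
      have e3 : r * Q * r' = Q * (r * r) + r * Q * (r' - r) := by
        rw [mul_sub, ← mul_assoc Q, hcomm]; noncomm_ring
      have e4 : r * Q * (r' * Q * r) = r * Q * r' * Q * r := by noncomm_ring
      have main : r - r' = ((s - s' : ℝ) : ℂ) • (Q * (r * r)) +
          (-(((s - s' : ℝ) : ℂ) ^ 2)) • (r * Q * r' * Q * r) := by
        calc r - r' = ((s - s' : ℝ) : ℂ) • (r * Q * r') := e1
          _ = ((s - s' : ℝ) : ℂ) • (Q * (r * r) + r * Q * (r' - r)) := by rw [← e3]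
          _ = _ := by
            rw [e2, mul_smul_comm, e4, smul_add, smul_smul]
            congr 2
            ring
      rw [main, smul_add, mul_smul_comm, smul_comm (C.dx t) _ (Q * (r * r)),
        smul_comm (C.dx t) _ (r * Q * r' * Q * r)]
    have hint1 : Continuous fun t => C.dx t • C.res (b s) t := C.continuous_dx_smul_res hUs
    have hint2 : Continuous fun t => C.dx t • C.res (b s') t := C.continuous_dx_smul_res hUs'
    have hGdiff : G s - G s' = ∫ t in (0:ℝ)..(2 * π), C.dx t • (C.res (b s) t - C.res (b s') t) := by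
      simp only [hG, smul_sub]
      rw [intervalIntegral.integral_sub (hint1.intervalIntegrable _ _) (hint2.intervalIntegrable _ _)]
    have hc1 : Continuous fun t => ((s - s' : ℝ) : ℂ) • (Q * (C.dx t • (C.res (b s) t * C.res (b s) t))) :=
      continuous_const.smul (continuous_const.mul (C.cont_dx.smul (hcs.mul hcs)))
    have hc2 : Continuous fun t => (-(((s - s' : ℝ) : ℂ) ^ 2)) •
        (C.dx t • (C.res (b s) t * Q * C.res (b s') t * Q * C.res (b s) t)) :=
      continuous_const.smul (C.cont_dx.smul (((((hcs.mul continuous_const).mul hcs').mul continuous_const)).mul hcs))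
    rw [hGdiff]
    simp_rw [hid]
    rw [intervalIntegral.integral_add (hc1.intervalIntegrable _ _) (hc2.intervalIntegrable _ _)]
    rw [intervalIntegral.integral_smul]
    have hzero : ∫ t in (0:ℝ)..(2 * π), Q * (C.dx t • (C.res (b s) t * C.res (b s) t)) = 0 := by
      have hcc : Continuous fun t => C.dx t • (C.res (b s) t * C.res (b s) t) :=
        C.cont_dx.smul (hcs.mul hcs)
      rw [integral_mul_left' Q hcc, C.integral_dx_res_sq hUs, mul_zero]
    rw [hzero, smul_zero, zero_add, intervalIntegral.integral_smul, norm_smul]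
    have hsq : ‖(-(((s - s' : ℝ) : ℂ) ^ 2))‖ = (s - s') ^ 2 := by
      rw [norm_neg, norm_pow, Complex.norm_real, Real.norm_eq_abs, sq_abs]
    rw [hsq]
    have hbound : ∀ t ∈ Set.uIoc (0:ℝ) (2 * π),
        ‖C.dx t • (C.res (b s) t * Q * C.res (b s') t * Q * C.res (b s) t)‖ ≤ C.Rb * G₀ ^ 3 * ‖Q‖ ^ 2 := by
      intro t _
      rw [norm_smul, C.norm_dx]
      have h1 := hB s hs t
      have h2 := hB s' hs' t
      have h3 : ‖C.res (b s) t * Q * C.res (b s') t * Q * C.res (b s) t‖ ≤ G₀ * ‖Q‖ * G₀ * ‖Q‖ * G₀ := by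
        refine (norm_mul_le _ _).trans (mul_le_mul ?_ h1 (norm_nonneg _) (by positivity))
        refine (norm_mul_le _ _).trans (mul_le_mul_of_nonneg_right ?_ (norm_nonneg _))
        refine (norm_mul_le _ _).trans (mul_le_mul ?_ h2 (norm_nonneg _) (by positivity))
        refine (norm_mul_le _ _).trans (mul_le_mul_of_nonneg_right h1 (norm_nonneg _))
      calc C.R t * ‖C.res (b s) t * Q * C.res (b s') t * Q * C.res (b s) t‖
          ≤ C.Rb * (G₀ * ‖Q‖ * G₀ * ‖Q‖ * G₀) :=
            mul_le_mul (C.R_le t) h3 (norm_nonneg _) C.Rb_pos.le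
        _ = C.Rb * G₀ ^ 3 * ‖Q‖ ^ 2 := by ring
    have := intervalIntegral.norm_integral_le_of_norm_le_const hbound
    have h2pi : |2 * π - 0| = 2 * π := by
      rw [sub_zero, abs_of_pos (by positivity)]
    rw [h2pi] at this
    have hsq' : 0 ≤ (s - s') ^ 2 := sq_nonneg _
    calc (s - s') ^ 2 * ‖∫ t in (0:ℝ)..(2 * π), C.dx t • (C.res (b s) t * Q * C.res (b s') t * Q * C.res (b s) t)‖
        ≤ (s - s') ^ 2 * (C.Rb * G₀ ^ 3 * ‖Q‖ ^ 2 * (2 * π)) := mul_le_mul_of_nonneg_left this hsq'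
      _ = 2 * π * C.Rb * G₀ ^ 3 * ‖Q‖ ^ 2 * (s - s') ^ 2 := by ring
  have hconst : G 1 = G 0 := eq_of_sq_modulus hstep
  have : ∫ t in (0:ℝ)..(2 * π), C.dx t • C.res (algebraMap ℂ 𝔸 c₀ + Q) t = G 1 := by
    simp only [hG, hb1]
  rw [this, hconst, h0]

end SCurve
end Vale.Agent.Lib.P123.U
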