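import Vale.Agent.Lib.P123.U.Lop

/-!
# Job C: the chain (abstract version: a state `l` on bounded continuous functions and the operator `LC`).

Here `l` is a contractive unital functional on bounded continuous functions on the real line.
The pointwise inequalities are fed through `l` and combined with `star1`, `star2`.
-/

open Complex MeasureTheory Set Filter Topology Polynomial ComplexConjugate
open scoped Real BoundedContinuousFunction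

namespace Vale.Agent.Lib.P123.U
namespace SCurve

set_option linter.unusedVariables false

/-- the final expression of the chain -/
noncomputable def Psi (K F τ : ℝ) : ℝ :=
  let a := K ^ 2 - 2 * F * K
  12 * F ^ 2 - 10 * a - 2 * (K ^ 2 * a - 2 * F ^ 3 * K - F ^ 2 * (3 * F ^ 2 - 1 - 2 * a) - F ^ 3 * τ
    - F ^ 3 / (4 * τ) * (2 * F ^ 2 - 2 * a))

section State

variable {l : (ℝ →ᵇ ℂ) →L[ℂ] ℂ}

/-- A contractive unital functional has nonnegative real part on functions with nonnegative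
real part. -/
lemma state_re_nonneg (hl : ‖l‖ ≤ 1) (hl1 : l 1 = 1) (ψ : ℝ →ᵇ ℂ) (hψ : ∀ t, 0 ≤ (ψ t).re) :
    0 ≤ (l ψ).re := by
  by_contra hneg
  push Not at hneg
  set B := ‖ψ‖ with hB
  have hB0 : 0 ≤ B := norm_nonneg _
  set r := (l ψ).re with hr
  -- choose `M` large
  set M : ℝ := (B ^ 2 + 1) / (2 * (-r)) with hM
  have hr' : 0 < -r := by linarith
  have hMpos : 0 < M := by positivity
  have key : ‖(M : ℂ) - l ψ‖ ^ 2 ≤ M ^ 2 + B ^ 2 := by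
    have e1 : (M : ℂ) - l ψ = l ((M : ℂ) • (1 : ℝ →ᵇ ℂ) - ψ) := by
      rw [map_sub, map_smul, hl1]; simp
    have h1 : ‖(M : ℂ) - l ψ‖ ≤ ‖(M : ℂ) • (1 : ℝ →ᵇ ℂ) - ψ‖ := by
      rw [e1]
      calc ‖l ((M : ℂ) • (1 : ℝ →ᵇ ℂ) - ψ)‖ ≤ ‖l‖ * ‖(M : ℂ) • (1 : ℝ →ᵇ ℂ) - ψ‖ := l.le_opNorm _
        _ ≤ 1 * ‖(M : ℂ) • (1 : ℝ →ᵇ ℂ) - ψ‖ := by gcongr
        _ = _ := one_mul _
    have h2 : ‖(M : ℂ) • (1 : ℝ →ᵇ ℂ) - ψ‖ ≤ Real.sqrt (M ^ 2 + B ^ 2) := by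
      refine (BoundedContinuousFunction.norm_le (Real.sqrt_nonneg _)).2 fun t => ?_
      refine Real.le_sqrt_of_sq_le ?_
      have e2 : ((M : ℂ) • (1 : ℝ →ᵇ ℂ) - ψ) t = (M : ℂ) - ψ t := by simp
      rw [e2, ← Complex.normSq_eq_norm_sq, Complex.normSq_apply]
      have h3 : ‖ψ t‖ ≤ B := ψ.norm_coe_le_norm t
      have h4 : ‖ψ t‖ ^ 2 ≤ B ^ 2 := by gcongr
      rw [← Complex.normSq_eq_norm_sq, Complex.normSq_apply] at h4
      have h5 := hψ t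
      simp only [Complex.sub_re, Complex.ofReal_re, Complex.sub_im, Complex.ofReal_im]
      nlinarith
    have h3 : ‖(M : ℂ) - l ψ‖ ^ 2 ≤ Real.sqrt (M ^ 2 + B ^ 2) ^ 2 := by
      gcongr
      exact h1.trans h2
    rwa [Real.sq_sqrt (by positivity)] at h3
  rw [← Complex.normSq_eq_norm_sq, Complex.normSq_apply] at key
  simp only [Complex.sub_re, Complex.ofReal_re, Complex.sub_im, Complex.ofReal_im] at key
  have hMr : 2 * M * (-r) = B ^ 2 + 1 := by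
    rw [hM]
    have hr0 : r ≠ 0 := hneg.ne
    field_simp
  have h6 : (M - (l ψ).re) * (M - (l ψ).re) ≤ M ^ 2 + B ^ 2 := by
    nlinarith [mul_self_nonneg ((0 : ℝ) - (l ψ).im)]
  rw [← hr] at h6
  nlinarith [sq_nonneg r]

lemma state_re_mono (hl : ‖l‖ ≤ 1) (hl1 : l 1 = 1) {ψ₁ ψ₂ : ℝ →ᵇ ℂ}
    (h : ∀ t, (ψ₁ t).re ≤ (ψ₂ t).re) : (l ψ₁).re ≤ (l ψ₂).re := by
  have := state_re_nonneg hl hl1 (ψ₂ - ψ₁) (fun t => by
    simp only [BoundedContinuousFunction.coe_sub, Pi.sub_apply, Complex.sub_re]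
    linarith [h t])
  rw [map_sub, Complex.sub_re] at this
  linarith

lemma state_const (hl1 : l 1 = 1) (c : ℝ) :
    l ((c : ℂ) • (1 : ℝ →ᵇ ℂ)) = c := by
  rw [map_smul, hl1]; simp

/-- pointwise upper bound by a real constant combination: `Re ψ ≤ c ⇒ Re l ψ ≤ c` -/
lemma state_re_le_const (hl : ‖l‖ ≤ 1) (hl1 : l 1 = 1) {ψ : ℝ →ᵇ ℂ} {c : ℝ}
    (h : ∀ t, (ψ t).re ≤ c) : (l ψ).re ≤ c := by
  have := state_re_mono hl hl1 (ψ₁ := ψ) (ψ₂ := (c : ℂ) • (1 : ℝ →ᵇ ℂ)) (fun t => by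
    simpa using h t)
  rwa [state_const hl1, Complex.ofReal_re] at this

/-- a linear combination of pointwise facts passes through the state -/
lemma state_comb (hl : ‖l‖ ≤ 1) (hl1 : l 1 = 1) (ψ1 ψ2 ψ3 ψ4 : ℝ →ᵇ ℂ) (c0 c1 c2 c3 c4 : ℝ)
    (h : ∀ t, 0 ≤ c0 + c1 * (ψ1 t).re + c2 * (ψ2 t).re + c3 * (ψ3 t).re + c4 * (ψ4 t).re) :
    0 ≤ c0 + c1 * (l ψ1).re + c2 * (l ψ2).re + c3 * (l ψ3).re + c4 * (l ψ4).re := by
  have := state_re_nonneg hl hl1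
    ((c0 : ℂ) • (1 : ℝ →ᵇ ℂ) + (c1 : ℂ) • ψ1 + (c2 : ℂ) • ψ2 + (c3 : ℂ) • ψ3 + (c4 : ℂ) • ψ4)
    (fun t => by
      have h' := h t
      simpa using h')
  simpa [map_add, map_smul, hl1] using this

end State

variable (C : SCurve) (f : ℂ[X])

/-- `f` on the curve -/
noncomputable def fxF (t : ℝ) : ℂ := f.eval (C.x t)
/-- `w = - f conj(Lf)` -/
noncomputable def wF (t : ℝ) : ℂ := -(f.eval (C.x t)) * conj (C.LC (fun s => f.eval (C.x s)) t)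
/-- `Y1 = conj f Lf` -/
noncomputable def Y1F (t : ℝ) : ℂ := conj (f.eval (C.x t)) * C.LC (fun s => f.eval (C.x s)) t
/-- `Lw` -/
noncomputable def LwF (t : ℝ) : ℂ := C.LC (C.wF f) t
/-- `Y2 = conj f L(f w)` -/
noncomputable def Y2F (t : ℝ) : ℂ := conj (f.eval (C.x t)) * C.LC (fun s => f.eval (C.x s) * C.wF f s) t

lemma cont_LF : Continuous (C.LC (fun s => f.eval (C.x s))) := C.continuous_LC (C.cont_eval f)

lemma cont_wF : Continuous (C.wF f) :=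
  ((C.cont_eval f).neg).mul (Complex.continuous_conj.comp (C.cont_LF f))

lemma cont_Y1F : Continuous (C.Y1F f) :=
  (Complex.continuous_conj.comp (C.cont_eval f)).mul (C.cont_LF f)

lemma cont_LwF : Continuous (C.LwF f) := C.continuous_LC (C.cont_wF f)

lemma cont_Y2F : Continuous (C.Y2F f) :=
  (Complex.continuous_conj.comp (C.cont_eval f)).mul
    (C.continuous_LC ((C.cont_eval f).mul (C.cont_wF f)))

lemma reW (t : ℝ) : (C.wF f t).re = -(C.Y1F f t).re := by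
  simp only [wF, Y1F, Complex.mul_re, Complex.neg_re, Complex.neg_im, Complex.conj_re,
    Complex.conj_im]
  ring

variable {C f} {F τ : ℝ}

lemma bLF (hF : ∀ t, ‖f.eval (C.x t)‖ ≤ F) (t : ℝ) :
    ‖C.LC (fun s => f.eval (C.x s)) t‖ ≤ F := C.norm_LC_le (C.cont_eval f) hF t

lemma nmulF (hF0 : 0 ≤ F) (hF : ∀ t, ‖f.eval (C.x t)‖ ≤ F) (t : ℝ) :
    ‖f.eval (C.x t)‖ * ‖C.LC (fun s => f.eval (C.x s)) t‖ ≤ F ^ 2 := by
  rw [sq]; exact mul_le_mul (hF t) (bLF hF t) (norm_nonneg _) hF0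

lemma bwF (hF0 : 0 ≤ F) (hF : ∀ t, ‖f.eval (C.x t)‖ ≤ F) (t : ℝ) : ‖C.wF f t‖ ≤ F ^ 2 := by
  simp only [wF, norm_mul, norm_neg, RCLike.norm_conj]
  exact nmulF hF0 hF t

lemma bY1F (hF0 : 0 ≤ F) (hF : ∀ t, ‖f.eval (C.x t)‖ ≤ F) (t : ℝ) : ‖C.Y1F f t‖ ≤ F ^ 2 := by
  simp only [Y1F, norm_mul, RCLike.norm_conj]
  exact nmulF hF0 hF t

lemma bLwF (hF0 : 0 ≤ F) (hF : ∀ t, ‖f.eval (C.x t)‖ ≤ F) (t : ℝ) : ‖C.LwF f t‖ ≤ F ^ 2 :=
  C.norm_LC_le (C.cont_wF f) (bwF hF0 hF) t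

lemma bY2F (hF0 : 0 ≤ F) (hF : ∀ t, ‖f.eval (C.x t)‖ ≤ F) (t : ℝ) : ‖C.Y2F f t‖ ≤ F ^ 4 := by
  have bg : ∀ t, ‖f.eval (C.x t) * C.wF f t‖ ≤ F ^ 3 := fun t => by
    rw [norm_mul]
    calc ‖f.eval (C.x t)‖ * ‖C.wF f t‖ ≤ F * F ^ 2 :=
          mul_le_mul (hF t) (bwF hF0 hF t) (norm_nonneg _) hF0
      _ = F ^ 3 := by ring
  simp only [Y2F, norm_mul, RCLike.norm_conj]
  calc ‖f.eval (C.x t)‖ * ‖C.LC (fun s => f.eval (C.x s) * C.wF f s) t‖ ≤ F * F ^ 3 :=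
        mul_le_mul (hF t) (C.norm_LC_le ((C.cont_eval f).mul (C.cont_wF f)) bg t) (norm_nonneg _) hF0
    _ = F ^ 4 := by ring

lemma nsqF (hF : ∀ t, ‖f.eval (C.x t)‖ ≤ F) (t : ℝ) : ‖f.eval (C.x t)‖ ^ 2 ≤ F ^ 2 := by
  have := hF t
  gcongr

lemma hA1leF (hF : ∀ t, ‖f.eval (C.x t)‖ ≤ F) (t : ℝ) : C.A1 f t ≤ 4 * F ^ 2 := by
  have cfx := C.cont_eval f
  have h1 := C.LR_mono (g₁ := fun s => ‖f.eval (C.x s) + f.eval (C.x t)‖ ^ 2)
    (g₂ := fun _ => 4 * F ^ 2) ((cfx.add continuous_const).norm.pow 2) continuous_const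
    (fun s => by
      have h2 : ‖f.eval (C.x s) + f.eval (C.x t)‖ ≤ F + F :=
        (norm_add_le _ _).trans (add_le_add (hF s) (hF t))
      have h3 : ‖f.eval (C.x s) + f.eval (C.x t)‖ ^ 2 ≤ (F + F) ^ 2 := by gcongr
      calc ‖f.eval (C.x s) + f.eval (C.x t)‖ ^ 2 ≤ (F + F) ^ 2 := h3
        _ = 4 * F ^ 2 := by ring) t
  rwa [LR_const] at h1

lemma hA2leF (hF : ∀ t, ‖f.eval (C.x t)‖ ≤ F) (t : ℝ) : C.A2 f t ≤ 4 * F ^ 2 := by
  have h1 := C.LR_mono (C.cont_A1 f) (continuous_const (y := 4 * F ^ 2)) (hA1leF hF) t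
  rwa [LR_const] at h1

lemma pA1F (hF : ∀ t, ‖f.eval (C.x t)‖ ≤ F) (t : ℝ) :
    C.A1 f t ≤ 2 * F ^ 2 + 2 * (C.Y1F f t).re := by
  rw [C.A1_formula f t]
  have h2 : C.LR (fun s => ‖f.eval (C.x s)‖ ^ 2) t ≤ F ^ 2 := by
    have h1 := C.LR_mono (g₁ := fun s => ‖f.eval (C.x s)‖ ^ 2) (g₂ := fun _ => F ^ 2)
      ((C.cont_eval f).norm.pow 2) continuous_const (nsqF hF) t
    rwa [LR_const] at h1
  have h3 := nsqF hF t
  have e : (conj (f.eval (C.x t)) * C.LC (fun t => f.eval (C.x t)) t).re = (C.Y1F f t).re := rfl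
  rw [e]
  linarith

lemma pA2F (hF : ∀ t, ‖f.eval (C.x t)‖ ≤ F) (t : ℝ) :
    C.A2 f t ≤ 2 * F ^ 2 - 2 * (C.LwF f t).re := by
  have cwf := C.cont_wF f
  have hmono := C.LR_mono (g₁ := C.A1 f) (g₂ := fun s => 2 * F ^ 2 + (-2) * (C.wF f s).re)
    (C.cont_A1 f) (continuous_const.add (continuous_const.mul (Complex.continuous_re.comp cwf)))
    (fun s => by rw [reW]; linarith [pA1F hF s]) t
  have hc1 : Continuous (fun _ : ℝ => 2 * F ^ 2) := continuous_const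
  have hc2 : Continuous fun s => (-2) * (C.wF f s).re :=
    continuous_const.mul (Complex.continuous_re.comp cwf)
  rw [C.LR_add hc1 hc2, LR_const, C.LR_const_mul, ← C.LC_re cwf] at hmono
  have e : C.A2 f t = C.LR (C.A1 f) t := rfl
  rw [e]
  have e' : (C.LC (C.wF f) t).re = (C.LwF f t).re := rfl
  rw [e'] at hmono
  linarith

lemma pLR1F (hτ : 0 < τ) (t : ℝ) :
    C.LR (fun s => ‖f.eval (C.x s) + f.eval (C.x t)‖) t ≤ τ + C.A1 f t / (4 * τ) := by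
  have cfx := C.cont_eval f
  have hmono := C.LR_mono (g₁ := fun s => ‖f.eval (C.x s) + f.eval (C.x t)‖)
    (g₂ := fun s => τ + (1 / (4 * τ)) * ‖f.eval (C.x s) + f.eval (C.x t)‖ ^ 2)
    (cfx.add continuous_const).norm
    (continuous_const.add (continuous_const.mul ((cfx.add continuous_const).norm.pow 2)))
    (fun s => by
      set u := ‖f.eval (C.x s) + f.eval (C.x t)‖ with hu
      have h5 : 0 ≤ (u - 2 * τ) ^ 2 := sq_nonneg _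
      have h6 : 4 * τ * u ≤ 4 * τ * τ + u ^ 2 := by nlinarith
      have e : τ + (1 / (4 * τ)) * u ^ 2 = (4 * τ * τ + u ^ 2) / (4 * τ) := by
        field_simp
      rw [e, le_div_iff₀ (by positivity)]
      linarith) t
  have hc1 : Continuous (fun _ : ℝ => τ) := continuous_const
  have hc2 : Continuous fun s => (1 / (4 * τ)) * ‖f.eval (C.x s) + f.eval (C.x t)‖ ^ 2 :=
    continuous_const.mul ((cfx.add continuous_const).norm.pow 2)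
  rw [C.LR_add hc1 hc2, LR_const, C.LR_const_mul] at hmono
  have e : C.LR (fun s => ‖f.eval (C.x s) + f.eval (C.x t)‖ ^ 2) t = C.A1 f t := rfl
  rw [e] at hmono
  calc _ ≤ _ := hmono
    _ = τ + C.A1 f t / (4 * τ) := by ring

lemma pXF (hF0 : 0 ≤ F) (hF : ∀ t, ‖f.eval (C.x t)‖ ≤ F) (hτ : 0 < τ) (t : ℝ) :
    ‖C.LC (fun s => (f.eval (C.x s) + f.eval (C.x t)) * C.wF f s) t‖ ≤
      F ^ 2 * (τ + C.A1 f t / (4 * τ)) := by
  have cfx := C.cont_eval f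
  have c1 : Continuous fun s => (f.eval (C.x s) + f.eval (C.x t)) * C.wF f s :=
    (cfx.add continuous_const).mul (C.cont_wF f)
  refine (C.norm_LC_le_LR c1 t).trans ?_
  have hmono := C.LR_mono (g₁ := fun s => ‖(f.eval (C.x s) + f.eval (C.x t)) * C.wF f s‖)
    (g₂ := fun s => F ^ 2 * ‖f.eval (C.x s) + f.eval (C.x t)‖) c1.norm
    (continuous_const.mul (cfx.add continuous_const).norm)
    (fun s => by
      rw [norm_mul, mul_comm]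
      exact mul_le_mul_of_nonneg_right (bwF hF0 hF s) (norm_nonneg _)) t
  rw [C.LR_const_mul] at hmono
  exact hmono.trans (mul_le_mul_of_nonneg_left (pLR1F hτ t) (by positivity))

lemma pY2_re (t : ℝ) :
    (C.Y2F f t).re =
      (conj (f.eval (C.x t)) * C.LC (fun s => (f.eval (C.x s) + f.eval (C.x t)) * C.wF f s) t).re
        - ‖f.eval (C.x t)‖ ^ 2 * (C.LwF f t).re := by
  have cfx := C.cont_eval f
  have cwf := C.cont_wF f
  have c1 : Continuous fun s => (f.eval (C.x s) + f.eval (C.x t)) * C.wF f s :=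
    (cfx.add continuous_const).mul cwf
  have c2 : Continuous fun s => f.eval (C.x t) * C.wF f s := continuous_const.mul cwf
  have e0 : (fun s => f.eval (C.x s) * C.wF f s) =
      fun s => (f.eval (C.x s) + f.eval (C.x t)) * C.wF f s - f.eval (C.x t) * C.wF f s := by
    ext s; ring
  have e1 : C.LC (fun s => f.eval (C.x s) * C.wF f s) t =
      C.LC (fun s => (f.eval (C.x s) + f.eval (C.x t)) * C.wF f s) t
        - f.eval (C.x t) * C.LwF f t := by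
    rw [e0, C.LC_sub c1 c2, C.LC_const_mul]
    rfl
  unfold Y2F
  rw [e1, mul_sub, ← mul_assoc, Complex.sub_re]
  have e3 : conj (f.eval (C.x t)) * f.eval (C.x t) = ((‖f.eval (C.x t)‖ ^ 2 : ℝ) : ℂ) := by
    rw [← Complex.normSq_eq_norm_sq, Complex.normSq_eq_conj_mul_self]
  rw [e3, Complex.re_ofReal_mul]

lemma pY2F (hF1 : 1 ≤ F) (hF : ∀ t, ‖f.eval (C.x t)‖ ≤ F) (hτ : 0 < τ) (t : ℝ) :
    0 ≤ F ^ 2 * (2 * F ^ 2 - 1) + F ^ 3 * τ + (C.Y2F f t).re + (C.LwF f t).re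
      - F ^ 2 * ‖f.eval (C.x t)‖ ^ 2 + F ^ 3 / (4 * τ) * C.A1 f t := by
  have hF0 : 0 ≤ F := by linarith
  set X := C.LC (fun s => (f.eval (C.x s) + f.eval (C.x t)) * C.wF f s) t with hX
  have e2 := pY2_re (C := C) (f := f) t
  rw [← hX] at e2
  have h4 : |(conj (f.eval (C.x t)) * X).re| ≤ F ^ 3 * (τ + C.A1 f t / (4 * τ)) := by
    refine (Complex.abs_re_le_norm _).trans ?_
    rw [norm_mul, RCLike.norm_conj]
    calc ‖f.eval (C.x t)‖ * ‖X‖ ≤ F * (F ^ 2 * (τ + C.A1 f t / (4 * τ))) :=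
          mul_le_mul (hF t) (pXF hF0 hF hτ t) (norm_nonneg _) hF0
      _ = _ := by ring
  have h5 := abs_le.1 h4
  have h6 : |(C.LwF f t).re| ≤ F ^ 2 := (Complex.abs_re_le_norm _).trans (bLwF hF0 hF t)
  have h7 := nsqF hF t
  have h7' : 0 ≤ ‖f.eval (C.x t)‖ ^ 2 := by positivity
  have hF2 : 1 ≤ F ^ 2 := by nlinarith
  have h8 : -((2 * F ^ 2 - 1 - ‖f.eval (C.x t)‖ ^ 2) * F ^ 2) ≤
      (1 - ‖f.eval (C.x t)‖ ^ 2) * (C.LwF f t).re := by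
    have h9 : |1 - ‖f.eval (C.x t)‖ ^ 2| ≤ 2 * F ^ 2 - 1 - ‖f.eval (C.x t)‖ ^ 2 := by
      rw [abs_le]; constructor <;> linarith
    have h10 : |(1 - ‖f.eval (C.x t)‖ ^ 2) * (C.LwF f t).re| ≤
        (2 * F ^ 2 - 1 - ‖f.eval (C.x t)‖ ^ 2) * F ^ 2 := by
      rw [abs_mul]
      exact mul_le_mul h9 h6 (abs_nonneg _) ((abs_nonneg _).trans h9)
    linarith [(abs_le.1 h10).1]
  rw [e2]
  have e4 : F ^ 3 * (τ + C.A1 f t / (4 * τ)) = F ^ 3 * τ + F ^ 3 / (4 * τ) * C.A1 f t := by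
    field_simp
  rw [e4] at h5
  nlinarith [h5.1, h8]

lemma pZF {c₀ : ℝ} (hF1 : 1 ≤ F) (hF : ∀ t, ‖f.eval (C.x t)‖ ≤ F)
    (hZ : ∀ t, 1 / 2 ≤ ‖f.eval (C.x t)‖ → c₀ ≤ C.A1 f t + C.A2 f t) (hc₀ : c₀ ≤ 3) (t : ℝ) :
    0 ≤ 4 * F ^ 2 - c₀ + C.A1 f t + C.A2 f t - 4 * ‖f.eval (C.x t)‖ ^ 2 := by
  by_cases h : 1 / 2 ≤ ‖f.eval (C.x t)‖
  · have := hZ t h
    have := nsqF hF t
    linarith
  · push Not at h
    have h8 : ‖f.eval (C.x t)‖ ^ 2 < 1 / 4 := by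
      have h9 : ‖f.eval (C.x t)‖ ^ 2 < (1 / 2) ^ 2 := by gcongr
      linarith
    have := C.A1_nonneg f t
    have := C.A2_nonneg f t
    have hF2 : 1 ≤ F ^ 2 := by nlinarith
    linarith

/-- The real-number algebra at the end of the chain. -/
lemma chain_algebra {K c₀ a n A A' b y2 q : ℝ} (hF1 : 1 ≤ F) (hK : 1 ≤ K) (hq : 0 ≤ q)
    (h1 : 0 ≤ F ^ 2 / 2 + 1 / 2 * n - a)
    (h2 : A ≤ 2 * F ^ 2 - 2 * a)
    (h5 : 0 ≤ F ^ 2 * (2 * F ^ 2 - 1) + F ^ 3 * τ + y2 + b - F ^ 2 * n + q * A)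
    (h6 : 0 ≤ 2 * F ^ 2 - 2 * b - A')
    (h7 : 0 ≤ 4 * F ^ 2 - c₀ + A + A' - 4 * n)
    (s1 : K ^ 2 - 2 * F * K ≤ a)
    (s2 : K ^ 2 * a + y2 ≤ 2 * F ^ 3 * K) :
    c₀ ≤ 12 * F ^ 2 - 10 * (K ^ 2 - 2 * F * K) - 2 * (K ^ 2 * (K ^ 2 - 2 * F * K) - 2 * F ^ 3 * K
      - F ^ 2 * (3 * F ^ 2 - 1 - 2 * (K ^ 2 - 2 * F * K)) - F ^ 3 * τ
      - q * (2 * F ^ 2 - 2 * (K ^ 2 - 2 * F * K))) := by
  have hn' : 2 * a - F ^ 2 ≤ n := by linarith
  have hb' : K ^ 2 * a - 2 * F ^ 3 * K - F ^ 2 * (3 * F ^ 2 - 1 - 2 * a) - F ^ 3 * τ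
      - q * (2 * F ^ 2 - 2 * a) ≤ b := by
    have h9 : F ^ 2 * (2 * a - F ^ 2) ≤ F ^ 2 * n := mul_le_mul_of_nonneg_left hn' (by positivity)
    have h10 : q * A ≤ q * (2 * F ^ 2 - 2 * a) := mul_le_mul_of_nonneg_left h2 hq
    nlinarith
  have hc : c₀ ≤ 12 * F ^ 2 - 10 * a - 2 * (K ^ 2 * a - 2 * F ^ 3 * K - F ^ 2 * (3 * F ^ 2 - 1 - 2 * a)
      - F ^ 3 * τ - q * (2 * F ^ 2 - 2 * a)) := by
    linarith
  have hdec : 0 ≤ (a - (K ^ 2 - 2 * F * K)) * (10 + 2 * K ^ 2 + 4 * F ^ 2 + 4 * q) :=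
    mul_nonneg (by linarith) (by positivity)
  nlinarith

/-- Real parts of the two norm bounds. -/
lemma star_re {K x y B : ℝ} {u v : ℂ} (hK : 1 ≤ K) (hu : u.re = x) (hv : v.re = y)
    (h : ‖(K : ℂ) * u + (1 / K : ℂ) * v‖ ≤ B) : K ^ 2 * x + y ≤ K * B := by
  have hK0 : 0 < K := by linarith
  have h8 := (Complex.re_le_norm _).trans h
  have e : ((K : ℂ) * u + (1 / K : ℂ) * v).re = K * x + (1 / K) * y := by
    have : (1 / K : ℂ) = ((1 / K : ℝ) : ℂ) := by push_cast; rfl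
    rw [this, Complex.add_re, Complex.re_ofReal_mul, Complex.re_ofReal_mul, hu, hv]
  rw [e] at h8
  have h9 : K * (K * x + (1 / K) * y) ≤ K * B := mul_le_mul_of_nonneg_left h8 hK0.le
  have e' : K * (K * x + (1 / K) * y) = K ^ 2 * x + y := by field_simp
  rwa [e'] at h9

variable (C f)

theorem chain_state (l : (ℝ →ᵇ ℂ) →L[ℂ] ℂ) (hl : ‖l‖ ≤ 1) (hl1 : l 1 = 1) {K F τ c₀ : ℝ}
    (hK : 1 ≤ K) (f : ℂ[X]) (hF1 : 1 ≤ F) (hF : ∀ t, ‖f.eval (C.x t)‖ ≤ F) (hτ : 0 < τ)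
    (star1 : ∀ φ : ℝ →ᵇ ℂ, (∀ t, φ t = conj (f.eval (C.x t)) * C.LC (fun s => f.eval (C.x s)) t) →
      ‖(K : ℂ) + (1 / K : ℂ) * l φ‖ ≤ 2 * F)
    (star2 : ∀ w φ : ℝ →ᵇ ℂ, (∀ t, w t = -(f.eval (C.x t)) * conj (C.LC (fun s => f.eval (C.x s)) t)) →
      (∀ t, φ t = conj (f.eval (C.x t)) * C.LC (fun s => f.eval (C.x s) * w s) t) →
      ‖(K : ℂ) * l w + (1 / K : ℂ) * l φ‖ ≤ 2 * F ^ 3)
    (hZ : ∀ t, 1 / 2 ≤ ‖f.eval (C.x t)‖ → c₀ ≤ C.A1 f t + C.A2 f t) (hc₀ : c₀ ≤ 3) :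
    c₀ ≤ Psi K F τ ∧ K ^ 2 - 2 * F * K ≤ F ^ 2 := by
  have hF0 : 0 ≤ F := by linarith
  have hK0 : 0 < K := by linarith
  have cfx := C.cont_eval f
  have cN : Continuous fun t => ((‖f.eval (C.x t)‖ ^ 2 : ℝ) : ℂ) :=
    Complex.continuous_ofReal.comp (cfx.norm.pow 2)
  have bN : ∀ t, ‖((‖f.eval (C.x t)‖ ^ 2 : ℝ) : ℂ)‖ ≤ F ^ 2 := fun t => by
    rw [Complex.norm_real, Real.norm_of_nonneg (by positivity)]
    exact nsqF hF t
  have cA1 : Continuous fun t => ((C.A1 f t : ℝ) : ℂ) :=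
    Complex.continuous_ofReal.comp (C.cont_A1 f)
  have cA2 : Continuous fun t => ((C.A2 f t : ℝ) : ℂ) :=
    Complex.continuous_ofReal.comp (C.cont_A2 f)
  have bA1 : ∀ t, ‖((C.A1 f t : ℝ) : ℂ)‖ ≤ 4 * F ^ 2 := fun t => by
    rw [Complex.norm_real, Real.norm_of_nonneg (C.A1_nonneg f t)]
    exact hA1leF hF t
  have bA2 : ∀ t, ‖((C.A2 f t : ℝ) : ℂ)‖ ≤ 4 * F ^ 2 := fun t => by
    rw [Complex.norm_real, Real.norm_of_nonneg (C.A2_nonneg f t)]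
    exact hA2leF hF t
  -- the bounded functions
  let Y1b : ℝ →ᵇ ℂ := BoundedContinuousFunction.ofNormedAddCommGroup _ (C.cont_Y1F f) _ (bY1F hF0 hF)
  let wb : ℝ →ᵇ ℂ := BoundedContinuousFunction.ofNormedAddCommGroup _ (C.cont_wF f) _ (bwF hF0 hF)
  let Y2b : ℝ →ᵇ ℂ := BoundedContinuousFunction.ofNormedAddCommGroup _ (C.cont_Y2F f) _ (bY2F hF0 hF)
  let Lwb : ℝ →ᵇ ℂ := BoundedContinuousFunction.ofNormedAddCommGroup _ (C.cont_LwF f) _ (bLwF hF0 hF)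
  let Nb : ℝ →ᵇ ℂ := BoundedContinuousFunction.ofNormedAddCommGroup _ cN _ bN
  let A1b : ℝ →ᵇ ℂ := BoundedContinuousFunction.ofNormedAddCommGroup _ cA1 _ bA1
  let A2b : ℝ →ᵇ ℂ := BoundedContinuousFunction.ofNormedAddCommGroup _ cA2 _ bA2
  have eY1 : ∀ t, (Y1b t).re = (C.Y1F f t).re := fun _ => rfl
  have ew : ∀ t, (wb t).re = (C.wF f t).re := fun _ => rfl
  have eY2 : ∀ t, (Y2b t).re = (C.Y2F f t).re := fun _ => rfl
  have eLw : ∀ t, (Lwb t).re = (C.LwF f t).re := fun _ => rfl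
  have eN : ∀ t, (Nb t).re = ‖f.eval (C.x t)‖ ^ 2 := fun t => Complex.ofReal_re _
  have eA1 : ∀ t, (A1b t).re = C.A1 f t := fun t => Complex.ofReal_re _
  have eA2 : ∀ t, (A2b t).re = C.A2 f t := fun t => Complex.ofReal_re _
  have comb := fun (ψ1 ψ2 ψ3 ψ4 : ℝ →ᵇ ℂ) (c0 c1 c2 c3 c4 : ℝ) => state_comb hl hl1 ψ1 ψ2 ψ3 ψ4 c0 c1 c2 c3 c4
  -- P1
  have h1 : 0 ≤ F ^ 2 / 2 + 1 / 2 * (l Nb).re + (l Y1b).re := by
    have := comb Nb Y1b Y1b Y1b (F ^ 2 / 2) (1 / 2) 1 0 0 (fun t => by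
      rw [eN, eY1]
      have h2 := abs_le.1 ((Complex.abs_re_le_norm _).trans (le_of_eq (by
        simp only [Y1F, norm_mul, RCLike.norm_conj])) :
        |(C.Y1F f t).re| ≤ ‖f.eval (C.x t)‖ * ‖C.LC (fun s => f.eval (C.x s)) t‖)
      have h3 := bLF hF t
      have h4 : ‖C.LC (fun s => f.eval (C.x s)) t‖ ^ 2 ≤ F ^ 2 := by gcongr
      nlinarith [sq_nonneg (‖f.eval (C.x t)‖ - ‖C.LC (fun s => f.eval (C.x s)) t‖)])
    simpa using this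
  -- `a ≤ F²`
  have h1' : 0 ≤ F ^ 2 + (l Y1b).re := by
    have := comb Y1b Y1b Y1b Y1b (F ^ 2) 1 0 0 0 (fun t => by
      rw [eY1]
      have h2 := abs_le.1 ((Complex.abs_re_le_norm _).trans (bY1F hF0 hF t))
      linarith [h2.1])
    simpa using this
  -- P2
  have h2 : 0 ≤ 2 * F ^ 2 + 2 * (l Y1b).re + (-1) * (l A1b).re := by
    have := comb Y1b A1b A1b A1b (2 * F ^ 2) 2 (-1) 0 0 (fun t => by
      rw [eY1, eA1]
      linarith [pA1F hF t])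
    simpa using this
  -- P3
  have h3a : 0 ≤ (l wb).re + (l Y1b).re := by
    have := comb wb Y1b Y1b Y1b 0 1 1 0 0 (fun t => by
      rw [ew, eY1, reW]
      simp)
    simpa using this
  have h3b : 0 ≤ (-1) * (l wb).re + (-1) * (l Y1b).re := by
    have := comb wb Y1b Y1b Y1b 0 (-1) (-1) 0 0 (fun t => by
      rw [ew, eY1, reW]
      simp)
    simpa using this
  have h3 : (l wb).re = -(l Y1b).re := by linarith
  -- P5
  have hq : 0 ≤ F ^ 3 / (4 * τ) := by positivity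
  have h5 : 0 ≤ F ^ 2 * (2 * F ^ 2 - 1) + F ^ 3 * τ + (l Y2b).re + (l Lwb).re - F ^ 2 * (l Nb).re
      + F ^ 3 / (4 * τ) * (l A1b).re := by
    have := comb Y2b Lwb Nb A1b (F ^ 2 * (2 * F ^ 2 - 1) + F ^ 3 * τ) 1 1 (-F ^ 2)
      (F ^ 3 / (4 * τ)) (fun t => by
        rw [eY2, eLw, eN, eA1]
        linarith [pY2F hF1 hF hτ t])
    linarith
  -- P6
  have h6 : 0 ≤ 2 * F ^ 2 + (-2) * (l Lwb).re + (-1) * (l A2b).re := by
    have := comb Lwb A2b A2b A2b (2 * F ^ 2) (-2) (-1) 0 0 (fun t => by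
      rw [eLw, eA2]
      linarith [pA2F hF t])
    simpa using this
  -- P7
  have h7 : 0 ≤ 4 * F ^ 2 - c₀ + (l A1b).re + (l A2b).re + (-4) * (l Nb).re := by
    have := comb A1b A2b Nb Nb (4 * F ^ 2 - c₀) 1 1 (-4) 0 (fun t => by
      rw [eA1, eA2, eN]
      linarith [pZF hF1 hF hZ hc₀ t])
    simpa using this
  -- the two norm inequalities
  have s1 := star1 Y1b (fun _ => rfl)
  have s2 := star2 wb Y2b (fun _ => rfl) (fun _ => rfl)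
  have s1' : K ^ 2 * 1 + (l Y1b).re ≤ K * (2 * F) := by
    refine star_re hK (u := 1) (x := 1) (v := l Y1b) (by simp) rfl ?_
    simpa using s1
  have s2' : K ^ 2 * (-(l Y1b).re) + (l Y2b).re ≤ K * (2 * F ^ 3) :=
    star_re hK (u := l wb) (v := l Y2b) h3 rfl s2
  have haF : -(l Y1b).re ≤ F ^ 2 := by linarith
  have s1'' : K ^ 2 - 2 * F * K ≤ -(l Y1b).re := by linarith
  refine ⟨?_, s1''.trans haF⟩
  have := chain_algebra (F := F) (τ := τ) (K := K) (c₀ := c₀) (a := -(l Y1b).re) (n := (l Nb).re)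
    (A := (l A1b).re) (A' := (l A2b).re) (b := (l Lwb).re) (y2 := (l Y2b).re)
    (q := F ^ 3 / (4 * τ)) hF1 hK hq (by linarith) (by linarith) (by linarith) (by linarith)
    (by linarith) s1'' (by linarith)
  unfold Psi
  simpa using this

end SCurve
end Vale.Agent.Lib.P123.U
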