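import Mathlib

/-!
# Support-function curves and the double-layer kernel

`SCurve` is a smooth closed strictly convex curve given by its support function `h`, with
`h'' + h = R`, `0 < rho ≤ R ≤ Rb`.  The curve is `x t = e^{it} (h t + i h1 t)`, `x' = i e^{it} R`.
For `p : ℂ`, `D p t = h t - Re (e^{-it} p)` and `T p t = h1 t - Im (e^{-it} p)`, so that
`e^{-it} (x t - p) = D + i T`, `D' = T`, `T' = R - D`.
`kap p t = R D / (D^2 + T^2) = Im (x' / (x - p))`.
-/

open Complex MeasureTheory Set Filter Topology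
open scoped Real

namespace Vale.Agent.Lib.P123.U

structure SCurve where
  h : ℝ → ℝ
  h1 : ℝ → ℝ
  R : ℝ → ℝ
  rho : ℝ
  Rb : ℝ
  dh : ∀ t, HasDerivAt h (h1 t) t
  dh1 : ∀ t, HasDerivAt h1 (R t - h t) t
  contR : Continuous R
  perh : ∀ t, h (t + 2 * π) = h t
  perh1 : ∀ t, h1 (t + 2 * π) = h1 t
  perR : ∀ t, R (t + 2 * π) = R t
  rho_pos : 0 < rho
  R_ge : ∀ t, rho ≤ R t
  R_le : ∀ t, R t ≤ Rb

namespace SCurve

variable (C : SCurve)

noncomputable def x (t : ℝ) : ℂ := exp (I * t) * (C.h t + I * C.h1 t)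
noncomputable def dx (t : ℝ) : ℂ := I * exp (I * t) * C.R t
noncomputable def D (p : ℂ) (t : ℝ) : ℝ := C.h t - (exp (-(I * t)) * p).re
noncomputable def T (p : ℂ) (t : ℝ) : ℝ := C.h1 t - (exp (-(I * t)) * p).im
noncomputable def kap (p : ℂ) (t : ℝ) : ℝ := C.R t * C.D p t / (C.D p t ^ 2 + C.T p t ^ 2)
noncomputable def kar (p : ℂ) (t : ℝ) : ℝ := C.R t * C.T p t / (C.D p t ^ 2 + C.T p t ^ 2)

/-- closed domain -/
def K : Set ℂ := {p | ∀ t, 0 ≤ C.D p t}
/-- open domain -/
def Om : Set ℂ := {p | ∀ t, 0 < C.D p t}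

lemma Rb_pos : 0 < C.Rb := lt_of_lt_of_le C.rho_pos ((C.R_ge 0).trans (C.R_le 0))
lemma R_pos (t : ℝ) : 0 < C.R t := lt_of_lt_of_le C.rho_pos (C.R_ge t)
lemma rho_le_Rb : C.rho ≤ C.Rb := (C.R_ge 0).trans (C.R_le 0)

lemma cont_h : Continuous C.h := continuous_iff_continuousAt.2 fun t => (C.dh t).continuousAt
lemma cont_h1 : Continuous C.h1 := continuous_iff_continuousAt.2 fun t => (C.dh1 t).continuousAt

lemma exp_neg_mul_exp (t : ℝ) : exp (-(I * t)) * exp (I * t) = 1 := by
  rw [← Complex.exp_add]; simp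

lemma exp_mul_exp_neg (t : ℝ) : exp (I * t) * exp (-(I * t)) = 1 := by
  rw [← Complex.exp_add]; simp

lemma exp_I_per (t : ℝ) : exp (I * ((t + 2 * π : ℝ) : ℂ)) = exp (I * t) := by
  have : I * ((t + 2 * π : ℝ) : ℂ) = I * t + 2 * π * I := by push_cast; ring
  rw [this, Complex.exp_add, Complex.exp_two_pi_mul_I, mul_one]

lemma exp_neg_I_per (t : ℝ) : exp (-(I * ((t + 2 * π : ℝ) : ℂ))) = exp (-(I * t)) := by
  have : -(I * ((t + 2 * π : ℝ) : ℂ)) = -(I * t) + (-(2 * π * I)) := by push_cast; ring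
  rw [this, Complex.exp_add, Complex.exp_neg (2 * π * I), Complex.exp_two_pi_mul_I]; simp

lemma x_per (t : ℝ) : C.x (t + 2 * π) = C.x t := by
  unfold x; rw [exp_I_per, C.perh, C.perh1]

lemma dx_per (t : ℝ) : C.dx (t + 2 * π) = C.dx t := by
  unfold dx; rw [exp_I_per, C.perR]

lemma D_per (p : ℂ) (t : ℝ) : C.D p (t + 2 * π) = C.D p t := by
  unfold D; rw [exp_neg_I_per, C.perh]

lemma T_per (p : ℂ) (t : ℝ) : C.T p (t + 2 * π) = C.T p t := by
  unfold T; rw [exp_neg_I_per, C.perh1]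

lemma kap_per (p : ℂ) (t : ℝ) : C.kap p (t + 2 * π) = C.kap p t := by
  unfold kap; rw [C.D_per, C.T_per, C.perR]

lemma kar_per (p : ℂ) (t : ℝ) : C.kar p (t + 2 * π) = C.kar p t := by
  unfold kar; rw [C.D_per, C.T_per, C.perR]

/-- `e^{-it}(x t - p) = D + i T` -/
lemma w_eq (p : ℂ) (t : ℝ) :
    exp (-(I * t)) * (C.x t - p) = (C.D p t : ℂ) + I * (C.T p t : ℂ) := by
  have h1 : exp (-(I * t)) * C.x t = (C.h t : ℂ) + I * C.h1 t := by
    unfold x; rw [← mul_assoc, exp_neg_mul_exp, one_mul]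
  apply Complex.ext
  · simp [D, T, mul_sub, h1]
  · simp [D, T, mul_sub, h1]

lemma x_sub_eq (p : ℂ) (t : ℝ) :
    C.x t - p = exp (I * t) * ((C.D p t : ℂ) + I * (C.T p t : ℂ)) := by
  rw [← C.w_eq, ← mul_assoc, exp_mul_exp_neg, one_mul]

lemma norm_exp_I (t : ℝ) : ‖exp (I * t)‖ = 1 := by
  rw [mul_comm]; exact Complex.norm_exp_ofReal_mul_I t

lemma norm_exp_neg_I (t : ℝ) : ‖exp (-(I * t))‖ = 1 := by
  have : -(I * (t : ℂ)) = ((-t : ℝ) : ℂ) * I := by push_cast; ring
  rw [this]; exact Complex.norm_exp_ofReal_mul_I (-t)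

lemma normSq_sub (p : ℂ) (t : ℝ) : ‖C.x t - p‖ ^ 2 = C.D p t ^ 2 + C.T p t ^ 2 := by
  rw [C.x_sub_eq, norm_mul, norm_exp_I, one_mul]
  rw [← Complex.normSq_eq_norm_sq, Complex.normSq_apply]
  simp; ring

lemma D_le_norm (p : ℂ) (t : ℝ) : C.D p t ≤ ‖C.x t - p‖ := by
  have h1 := C.normSq_sub p t
  have h2 : C.D p t ^ 2 ≤ ‖C.x t - p‖ ^ 2 := by rw [h1]; nlinarith [sq_nonneg (C.T p t)]
  exact (le_abs_self _).trans (abs_le_of_sq_le_sq h2 (norm_nonneg _))

lemma abs_T_le_norm (p : ℂ) (t : ℝ) : |C.T p t| ≤ ‖C.x t - p‖ := by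
  have h1 := C.normSq_sub p t
  have h2 : C.T p t ^ 2 ≤ ‖C.x t - p‖ ^ 2 := by rw [h1]; nlinarith [sq_nonneg (C.D p t)]
  exact abs_le_of_sq_le_sq h2 (norm_nonneg _)

lemma hasDerivAt_E (p : ℂ) (t : ℝ) :
    HasDerivAt (fun t : ℝ => exp (-(I * t)) * p) (-I * (exp (-(I * t)) * p)) t := by
  have h1 : HasDerivAt (fun t : ℝ => -(I * (t : ℂ))) (-I) t := by
    have := ((Complex.ofRealCLM.hasDerivAt (x := t)).const_mul I).fun_neg
    simpa using this
  have h2 := (h1.cexp).mul_const p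
  refine h2.congr_deriv ?_
  ring

lemma hasDerivAt_re {f : ℝ → ℂ} {f' : ℂ} {t : ℝ} (h : HasDerivAt f f' t) :
    HasDerivAt (fun t => (f t).re) f'.re t :=
  Complex.reCLM.hasFDerivAt.comp_hasDerivAt t h

lemma hasDerivAt_im {f : ℝ → ℂ} {f' : ℂ} {t : ℝ} (h : HasDerivAt f f' t) :
    HasDerivAt (fun t => (f t).im) f'.im t :=
  Complex.imCLM.hasFDerivAt.comp_hasDerivAt t h

lemma hasDerivAt_D (p : ℂ) (t : ℝ) : HasDerivAt (C.D p) (C.T p t) t := by
  have h2 := (C.dh t).fun_sub (hasDerivAt_re (hasDerivAt_E p t))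
  refine HasDerivAt.congr_deriv h2 ?_
  simp [T]

lemma hasDerivAt_T (p : ℂ) (t : ℝ) : HasDerivAt (C.T p) (C.R t - C.D p t) t := by
  have h2 := (C.dh1 t).fun_sub (hasDerivAt_im (hasDerivAt_E p t))
  refine HasDerivAt.congr_deriv h2 ?_
  simp [D]
  ring

lemma cont_D (p : ℂ) : Continuous (C.D p) :=
  continuous_iff_continuousAt.2 fun t => (C.hasDerivAt_D p t).continuousAt

lemma cont_T (p : ℂ) : Continuous (C.T p) :=
  continuous_iff_continuousAt.2 fun t => (C.hasDerivAt_T p t).continuousAt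

lemma hasDerivAt_x (t : ℝ) : HasDerivAt C.x (C.dx t) t := by
  have h1 : HasDerivAt (fun t : ℝ => exp (I * t)) (I * exp (I * t)) t := by
    have h0 : HasDerivAt (fun t : ℝ => (I * (t : ℂ))) I t := by
      have := (Complex.ofRealCLM.hasDerivAt (x := t)).const_mul I
      simpa using this
    have := h0.cexp
    convert this using 1
    ring
  have h2 : HasDerivAt (fun t : ℝ => ((C.h t : ℂ) + I * (C.h1 t : ℂ)))
      ((C.h1 t : ℂ) + I * ((C.R t - C.h t : ℝ) : ℂ)) t := by
    have a1 : HasDerivAt (fun t : ℝ => (C.h t : ℂ)) ((C.h1 t : ℝ) : ℂ) t :=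
      (C.dh t).ofReal_comp
    have a2 : HasDerivAt (fun t : ℝ => (C.h1 t : ℂ)) ((C.R t - C.h t : ℝ) : ℂ) t :=
      (C.dh1 t).ofReal_comp
    exact a1.add (a2.const_mul I)
  have h3 := h1.mul h2
  have : C.dx t = I * exp (I * t) * ((C.h t : ℂ) + I * (C.h1 t : ℂ)) +
      exp (I * t) * ((C.h1 t : ℂ) + I * ((C.R t - C.h t : ℝ) : ℂ)) := by
    unfold dx
    push_cast
    have hI : I * I = -1 := Complex.I_mul_I
    linear_combination (-(exp (I * t) * (C.h1 t : ℂ))) * hI
  rw [this]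
  exact h3

lemma cont_x : Continuous C.x :=
  continuous_iff_continuousAt.2 fun t => (C.hasDerivAt_x t).continuousAt

lemma cont_dx : Continuous C.dx := by
  unfold dx
  have := C.contR
  fun_prop

lemma norm_dx (t : ℝ) : ‖C.dx t‖ = C.R t := by
  unfold dx
  rw [norm_mul, norm_mul, norm_I, norm_exp_I, one_mul, one_mul, Complex.norm_real,
    Real.norm_of_nonneg (C.R_pos t).le]

lemma D_x_self (t : ℝ) : C.D (C.x t) t = 0 := by
  have := C.w_eq (C.x t) t
  rw [sub_self, mul_zero] at this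
  have h := congrArg Complex.re this
  simpa using h.symm

lemma T_x_self (t : ℝ) : C.T (C.x t) t = 0 := by
  have := C.w_eq (C.x t) t
  rw [sub_self, mul_zero] at this
  have h := congrArg Complex.im this
  simpa using h.symm

/-- Sturm comparison: a solution of `g' = g1`, `g1' = S - g`, `S ≥ 0` with zero data at `t0`
is nonnegative on `[t0 - π, t0 + π]`. -/
lemma sturm_nonneg {g g1 S : ℝ → ℝ} {t0 t : ℝ}
    (hg : ∀ u, HasDerivAt g (g1 u) u) (hg1 : ∀ u, HasDerivAt g1 (S u - g u) u)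
    (hS : ∀ u, 0 ≤ S u) (h0 : g t0 = 0) (h1 : g1 t0 = 0)
    (ht1 : t0 - π ≤ t) (ht2 : t ≤ t0 + π) : 0 ≤ g t := by
  set phi : ℝ → ℝ := fun u => g1 u * Real.sin (t - u) + g u * Real.cos (t - u) with hphi
  have hd : ∀ u, HasDerivAt phi (S u * Real.sin (t - u)) u := by
    intro u
    have a1 : HasDerivAt (fun u => Real.sin (t - u)) (-Real.cos (t - u)) u := by
      have := ((hasDerivAt_id' u).const_sub t).sin
      simpa using this
    have a2 : HasDerivAt (fun u => Real.cos (t - u)) (Real.sin (t - u)) u := by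
      have := ((hasDerivAt_id' u).const_sub t).cos
      simpa using this
    have := ((hg1 u).fun_mul a1).fun_add ((hg u).fun_mul a2)
    refine this.congr_deriv ?_
    ring
  have hphit : phi t = g t := by simp [hphi]
  have hphi0 : phi t0 = 0 := by simp [hphi, h0, h1]
  rcases le_total t0 t with hle | hle
  · have hmono : MonotoneOn phi (Icc t0 t) := by
      apply monotoneOn_of_deriv_nonneg (convex_Icc _ _)
      · exact fun u _ => (hd u).continuousAt.continuousWithinAt
      · exact fun u _ => (hd u).differentiableAt.differentiableWithinAt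
      · intro u hu
        rw [interior_Icc] at hu
        rw [(hd u).deriv]
        apply mul_nonneg (hS u)
        apply Real.sin_nonneg_of_nonneg_of_le_pi <;> linarith [hu.1, hu.2]
    have := hmono (left_mem_Icc.2 hle) (right_mem_Icc.2 hle) hle
    rw [hphit, hphi0] at this
    exact this
  · have hanti : AntitoneOn phi (Icc t t0) := by
      apply antitoneOn_of_deriv_nonpos (convex_Icc _ _)
      · exact fun u _ => (hd u).continuousAt.continuousWithinAt
      · exact fun u _ => (hd u).differentiableAt.differentiableWithinAt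
      · intro u hu
        rw [interior_Icc] at hu
        rw [(hd u).deriv]
        apply mul_nonpos_of_nonneg_of_nonpos (hS u)
        apply Real.sin_nonpos_of_nonpos_of_neg_pi_le <;> linarith [hu.1, hu.2]
    have := hanti (left_mem_Icc.2 hle) (right_mem_Icc.2 hle) hle
    rw [hphit, hphi0] at this
    exact this

/-- reduction to one period -/
lemma exists_period_rep (t0 t : ℝ) {f : ℝ → ℝ} (hf : ∀ u, f (u + 2 * π) = f u) :
    ∃ y, t0 - π < y ∧ y ≤ t0 + π ∧ f t = f y := by
  have hper : Function.Periodic f (2 * π) := hf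
  obtain ⟨y, hy, hfy⟩ := hper.exists_mem_Ioc (by positivity) t (t0 - π)
  refine ⟨y, hy.1, ?_, hfy⟩
  have := hy.2
  linarith

lemma D_lower (t0 t : ℝ) : C.rho * (1 - Real.cos (t - t0)) ≤ C.D (C.x t0) t := by
  set f : ℝ → ℝ := fun u => C.D (C.x t0) u - C.rho * (1 - Real.cos (u - t0)) with hf
  have hper : ∀ u, f (u + 2 * π) = f u := by
    intro u
    have : Real.cos (u + 2 * π - t0) = Real.cos (u - t0) := by
      rw [show u + 2 * π - t0 = (u - t0) + 2 * π by ring, Real.cos_add_two_pi]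
    simp only [hf, C.D_per, this]
  obtain ⟨y, hy1, hy2, hy⟩ := exists_period_rep t0 t hper
  have key : 0 ≤ f y := by
    refine sturm_nonneg (g := f)
      (g1 := fun u => C.T (C.x t0) u - C.rho * Real.sin (u - t0))
      (S := fun u => C.R u - C.rho) (t0 := t0) ?_ ?_ ?_ ?_ ?_ hy1.le hy2
    · intro u
      have a1 : HasDerivAt (fun u => Real.cos (u - t0)) (-Real.sin (u - t0)) u := by
        have := ((hasDerivAt_id' u).sub_const t0).cos
        simpa using this
      have a2 := (C.hasDerivAt_D (C.x t0) u).fun_sub ((a1.const_sub 1).const_mul C.rho)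
      refine HasDerivAt.congr_deriv a2 ?_
      ring
    · intro u
      have a1 : HasDerivAt (fun u => Real.sin (u - t0)) (Real.cos (u - t0)) u := by
        have := ((hasDerivAt_id' u).sub_const t0).sin
        simpa using this
      have a2 := (C.hasDerivAt_T (C.x t0) u).fun_sub (a1.const_mul C.rho)
      refine HasDerivAt.congr_deriv a2 ?_
      simp only [hf]
      ring
    · intro u; linarith [C.R_ge u]
    · simp [hf, D_x_self]
    · simp [T_x_self]
  have : 0 ≤ f t := by rw [hy]; exact key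
  simp only [hf] at this
  linarith

lemma D_upper (t0 t : ℝ) : C.D (C.x t0) t ≤ C.Rb * (1 - Real.cos (t - t0)) := by
  set f : ℝ → ℝ := fun u => C.Rb * (1 - Real.cos (u - t0)) - C.D (C.x t0) u with hf
  have hper : ∀ u, f (u + 2 * π) = f u := by
    intro u
    have : Real.cos (u + 2 * π - t0) = Real.cos (u - t0) := by
      rw [show u + 2 * π - t0 = (u - t0) + 2 * π by ring, Real.cos_add_two_pi]
    simp only [hf, C.D_per, this]
  obtain ⟨y, hy1, hy2, hy⟩ := exists_period_rep t0 t hper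
  have key : 0 ≤ f y := by
    refine sturm_nonneg (g := f)
      (g1 := fun u => C.Rb * Real.sin (u - t0) - C.T (C.x t0) u)
      (S := fun u => C.Rb - C.R u) (t0 := t0) ?_ ?_ ?_ ?_ ?_ hy1.le hy2
    · intro u
      have a1 : HasDerivAt (fun u => Real.cos (u - t0)) (-Real.sin (u - t0)) u := by
        have := ((hasDerivAt_id' u).sub_const t0).cos
        simpa using this
      have a2 := ((a1.const_sub 1).const_mul C.Rb).fun_sub (C.hasDerivAt_D (C.x t0) u)
      refine HasDerivAt.congr_deriv a2 ?_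
      ring
    · intro u
      have a1 : HasDerivAt (fun u => Real.sin (u - t0)) (Real.cos (u - t0)) u := by
        have := ((hasDerivAt_id' u).sub_const t0).sin
        simpa using this
      have a2 := (a1.const_mul C.Rb).fun_sub (C.hasDerivAt_T (C.x t0) u)
      refine HasDerivAt.congr_deriv a2 ?_
      simp only [hf]
      ring
    · intro u; linarith [C.R_le u]
    · simp [hf, D_x_self]
    · simp [T_x_self]
  have : 0 ≤ f t := by rw [hy]; exact key
  simp only [hf] at this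
  linarith

lemma x_mem_K (t0 : ℝ) : C.x t0 ∈ C.K := by
  intro t
  have h := C.D_lower t0 t
  have h2 : 0 ≤ C.rho * (1 - Real.cos (t - t0)) :=
    mul_nonneg C.rho_pos.le (by linarith [Real.cos_le_one (t - t0)])
  linarith

end SCurve
end Vale.Agent.Lib.P123.U
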