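import Vale.Agent.Lib.P123.U.Hilbert

/-! Boundary double layer operator and the functionals `A1`, `A2`. -/

open Complex MeasureTheory Set Filter Topology Polynomial ComplexConjugate
open scoped Real

namespace Vale.Agent.Lib.P123.U
namespace SCurve

variable (C : SCurve)

/-- the boundary double layer operator on real functions: `(1/π) ∫ g(t) kap(x t0, t) dt` -/
noncomputable def LR (g : ℝ → ℝ) (t0 : ℝ) : ℝ :=
  (1 / π) * ∫ t in (0:ℝ)..(2 * π), g t * C.kap (C.x t0) t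

/-- the boundary double layer operator on complex functions -/
noncomputable def LC (g : ℝ → ℂ) (t0 : ℝ) : ℂ :=
  ((1 / π : ℝ) : ℂ) * ∫ t in (0:ℝ)..(2 * π), g t * (C.kap (C.x t0) t : ℂ)

/-- `A1 f t0 = ∫ |f(ξ) + f(z)|² dλ_z(ξ)`, `z = x t0`. -/
noncomputable def A1 (f : ℂ[X]) (t0 : ℝ) : ℝ :=
  C.LR (fun s => ‖f.eval (C.x s) + f.eval (C.x t0)‖ ^ 2) t0

/-- `A2 f t0 = ∫ A1 f dλ_z`. -/
noncomputable def A2 (f : ℂ[X]) (t0 : ℝ) : ℝ := C.LR (C.A1 f) t0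

/-- fatness of the chord from `z` to `ζ` with side witnesses `u`, `v` -/
structure Fat (β Λ : ℝ) (z ζ u v : ℂ) : Prop where
  ne : z ≠ ζ
  u1 : β * ‖ζ - z‖ ^ 2 ≤ ((u - z) * conj (ζ - z)).im
  v1 : ((v - z) * conj (ζ - z)).im ≤ -(β * ‖ζ - z‖ ^ 2)
  u2 : |((u - z) * conj (ζ - z)).re| ≤ Λ * ‖ζ - z‖ ^ 2
  v2 : |((v - z) * conj (ζ - z)).re| ≤ Λ * ‖ζ - z‖ ^ 2

end SCurve
end Vale.Agent.Lib.P123.U
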