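import Vale.Agent.Lib.P123.U.Defs

/-!
# Job E: the extremal operator, the state, and Hahn-Banach.
-/

open Complex MeasureTheory Set Filter Topology Polynomial ComplexConjugate
open scoped Real BoundedContinuousFunction

namespace Vale.Agent.Lib.P123.U
namespace SCurve

variable (C : SCurve)

lemma poly_cont (p : ℂ[X]) : Continuous (fun t : ℝ => p.eval (C.x t)) :=
  p.continuous.comp C.cont_x

lemma poly_bdd (p : ℂ[X]) : ∃ B : ℝ, ∀ t : ℝ, ‖p.eval (C.x t)‖ ≤ B := by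
  have hper : Function.Periodic (fun t : ℝ => p.eval (C.x t)) (2 * π) := fun t => by
    simp only [C.x_per]
  have h2 : (2 * π : ℝ) ≠ 0 := by positivity
  have hb := hper.isBounded_of_continuous h2 (C.poly_cont p)
  obtain ⟨B, hB⟩ := isBounded_iff_forall_norm_le.mp hb
  exact ⟨B, fun t => hB _ ⟨t, rfl⟩⟩

/-- a polynomial on the curve, as a bounded continuous function -/
noncomputable def curvePoly (p : ℂ[X]) : ℝ →ᵇ ℂ :=
  BoundedContinuousFunction.ofNormedAddCommGroup (fun t : ℝ => p.eval (C.x t)) (C.poly_cont p)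
    (C.poly_bdd p).choose (C.poly_bdd p).choose_spec

lemma curvePoly_apply (p : ℂ[X]) (t : ℝ) : C.curvePoly p t = p.eval (C.x t) := rfl

/-- the linear map `p ↦ p ∘ x` -/
noncomputable def piL : ℂ[X] →ₗ[ℂ] (ℝ →ᵇ ℂ) where
  toFun := C.curvePoly
  map_add' p q := by
    ext t
    simp [curvePoly_apply]
  map_smul' c p := by
    ext t
    simp [curvePoly_apply]

lemma piL_apply (p : ℂ[X]) (t : ℝ) : C.piL p t = p.eval (C.x t) := rfl

lemma norm_piL_le {p : ℂ[X]} {M : ℝ} (hM : 0 ≤ M) (h : ∀ t, ‖p.eval (C.x t)‖ ≤ M) : ‖C.piL p‖ ≤ M :=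
  (BoundedContinuousFunction.norm_le hM).2 h

lemma norm_eval_le_piL (p : ℂ[X]) (t : ℝ) : ‖p.eval (C.x t)‖ ≤ ‖C.piL p‖ :=
  (C.piL p).norm_coe_le_norm t

variable {E : Type} [NormedAddCommGroup E] [InnerProductSpace ℂ E] [FiniteDimensional ℂ E]

/-- the operators `p(A)` with `|p| ≤ 1` on the curve -/
def opSet (A : E →L[ℂ] E) : Set (E →L[ℂ] E) :=
  {T | ∃ p : ℂ[X], (∀ t, ‖p.eval (C.x t)‖ ≤ 1) ∧ Polynomial.aeval A p = T}

lemma exists_max (A : E →L[ℂ] E) {G : ℝ}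
    (hbd : ∀ (P : ℂ[X]) (M : ℝ), (∀ t, ‖P.eval (C.x t)‖ ≤ M) → ‖Polynomial.aeval A P‖ ≤ G * M) :
    ∃ T₀ ∈ closure (C.opSet A), ∀ T ∈ closure (C.opSet A), ‖T‖ ≤ ‖T₀‖ := by
  have : ProperSpace (E →L[ℂ] E) := FiniteDimensional.proper ℂ _
  have hbdd : Bornology.IsBounded (C.opSet A) := by
    refine isBounded_iff_forall_norm_le.mpr ⟨G * 1, ?_⟩
    rintro T ⟨p, hp, rfl⟩
    exact hbd p 1 hp
  have hcomp : IsCompact (closure (C.opSet A)) :=
    Metric.isCompact_of_isClosed_isBounded isClosed_closure hbdd.closure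
  have hne : (closure (C.opSet A)).Nonempty := by
    refine Set.Nonempty.closure ⟨Polynomial.aeval A 1, 1, fun t => by simp, rfl⟩
  obtain ⟨T₀, h1, h2⟩ := hcomp.exists_isMaxOn hne (continuous_norm.continuousOn)
  exact ⟨T₀, h1, fun T hT => h2 hT⟩

lemma exists_unit_max (T₀ : E →L[ℂ] E) (v₀ : E) (hv₀ : ‖v₀‖ = 1) :
    ∃ a : E, ‖a‖ = 1 ∧ ‖T₀ a‖ = ‖T₀‖ := by
  have hcomp : IsCompact (Metric.sphere (0 : E) 1) := isCompact_sphere 0 1
  have hne : (Metric.sphere (0 : E) 1).Nonempty := ⟨v₀, by simpa using hv₀⟩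
  obtain ⟨a, ha, hmax⟩ := hcomp.exists_isMaxOn hne (f := fun v => ‖T₀ v‖) (by fun_prop)
  have ha1 : ‖a‖ = 1 := by simpa using ha
  refine ⟨a, ha1, le_antisymm ?_ ?_⟩
  · simpa [ha1] using T₀.le_opNorm a
  · refine T₀.opNorm_le_bound (norm_nonneg _) fun x => ?_
    by_cases hx : x = 0
    · simp [hx]
    · have hx' : ‖x‖ ≠ 0 := norm_ne_zero_iff.mpr hx
      set u : E := ((‖x‖ : ℂ)⁻¹) • x with hu
      have hu1 : ‖u‖ = 1 := by
        rw [hu, norm_smul, norm_inv, Complex.norm_real, norm_norm]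
        field_simp
      have h2 : ‖T₀ u‖ ≤ ‖T₀ a‖ := hmax (by simpa using hu1)
      have h3 : x = (‖x‖ : ℂ) • u := by
        rw [hu, smul_smul, mul_inv_cancel₀ (by exact_mod_cast hx'), one_smul]
      calc ‖T₀ x‖ = ‖T₀ ((‖x‖ : ℂ) • u)‖ := by rw [← h3]
        _ = ‖x‖ * ‖T₀ u‖ := by
            rw [map_smul, norm_smul, Complex.norm_real, norm_norm]
        _ ≤ ‖T₀ a‖ * ‖x‖ := by
            rw [mul_comm]
            exact mul_le_mul_of_nonneg_right h2 (norm_nonneg _)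

/-- `T₀† b = Kc a` in inner product form -/
lemma inner_T_eq (T₀ : E →L[ℂ] E) {a b : E} (ha : ‖a‖ = 1) (hb : ‖b‖ = 1) (hKc : 0 ≤ ‖T₀‖)
    (hT : T₀ a = (‖T₀‖ : ℂ) • b) (y : E) :
    inner ℂ b (T₀ y) = (‖T₀‖ : ℂ) * inner ℂ a y := by
  have : CompleteSpace E := FiniteDimensional.complete ℂ E
  set w := ContinuousLinearMap.adjoint T₀ b with hw
  have hwn : ‖w‖ ≤ ‖T₀‖ := by
    have h1 := (ContinuousLinearMap.adjoint T₀).le_opNorm b
    rw [hb, mul_one] at h1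
    have h2 : ‖ContinuousLinearMap.adjoint T₀‖ = ‖T₀‖ := LinearIsometryEquiv.norm_map _ _
    rwa [h2] at h1
  have hin : inner ℂ w a = (‖T₀‖ : ℂ) := by
    rw [hw, ContinuousLinearMap.adjoint_inner_left, hT, inner_smul_right]
    rw [inner_self_eq_norm_sq_to_K, hb]
    simp
  have hzero : ‖w - (‖T₀‖ : ℂ) • a‖ ^ 2 ≤ 0 := by
    have h1 := norm_sub_sq (𝕜 := ℂ) w ((‖T₀‖ : ℂ) • a)
    rw [h1, inner_smul_right, hin, norm_smul, Complex.norm_real, norm_norm, ha, mul_one]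
    have h2 : RCLike.re ((‖T₀‖ : ℂ) * (‖T₀‖ : ℂ)) = ‖T₀‖ * ‖T₀‖ := by
      rw [← Complex.ofReal_mul]
      exact Complex.ofReal_re _
    rw [h2]
    nlinarith [norm_nonneg w]
  have h0 : w = (‖T₀‖ : ℂ) • a := by
    have h3 : ‖w - (‖T₀‖ : ℂ) • a‖ = 0 := by
      have := sq_nonneg ‖w - (‖T₀‖ : ℂ) • a‖
      nlinarith [pow_eq_zero_iff (n := 2) (by norm_num) |>.mp (le_antisymm hzero this)]
    exact sub_eq_zero.mp (norm_eq_zero.mp h3)
  have h5 : inner ℂ b (T₀ y) = inner ℂ w y := by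
    rw [hw, ContinuousLinearMap.adjoint_inner_left]
  rw [h5, h0, inner_smul_left]
  simp

/-- Job E. -/
theorem exists_extremal (A : E →L[ℂ] E) {G : ℝ} (v₀ : E) (hv₀ : ‖v₀‖ = 1)
    (hbd : ∀ (P : ℂ[X]) (M : ℝ), (∀ t, ‖P.eval (C.x t)‖ ≤ M) → ‖Polynomial.aeval A P‖ ≤ G * M) :
    ∃ (Kc : ℝ) (T₀ : E →L[ℂ] E) (a b : E) (l : (ℝ →ᵇ ℂ) →L[ℂ] ℂ),
      1 ≤ Kc ∧ ‖a‖ = 1 ∧ ‖b‖ = 1 ∧ T₀ a = (Kc : ℂ) • b ∧ ‖l‖ ≤ 1 ∧ l 1 = 1 ∧
      (∀ (P : ℂ[X]) (M : ℝ), (∀ t, ‖P.eval (C.x t)‖ ≤ M) → ‖Polynomial.aeval A P‖ ≤ Kc * M) ∧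
      (∀ η > 0, ∃ f : ℂ[X], Polynomial.aeval A f = T₀ ∧ ∀ t, ‖f.eval (C.x t)‖ ≤ 1 + η) ∧
      (∀ (p : ℂ[X]) (φ : ℝ →ᵇ ℂ), (∀ t, φ t = p.eval (C.x t)) →
        l φ = inner ℂ a (Polynomial.aeval A p a) ∧ l φ = inner ℂ b (Polynomial.aeval A p b)) ∧
      (∀ (g h : ℂ[X]), Polynomial.aeval A h = T₀ →
        (Kc : ℂ) * inner ℂ a (Polynomial.aeval A g b) = inner ℂ b (Polynomial.aeval A (h * g) b)) := by
  obtain ⟨T₀, hT₀, hmax⟩ := C.exists_max A hbd
  set Kc := ‖T₀‖ with hKc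
  -- `1 ≤ Kc`
  have hone : (1 : ℝ) ≤ Kc := by
    have h1 : (1 : E →L[ℂ] E) ∈ closure (C.opSet A) :=
      subset_closure ⟨1, fun t => by simp, by simp⟩
    have h2 := hmax _ h1
    have h3 : ‖v₀‖ ≤ ‖(1 : E →L[ℂ] E)‖ * ‖v₀‖ := (1 : E →L[ℂ] E).le_opNorm v₀
    rw [hv₀, mul_one] at h3
    exact h3.trans h2
  have hKc0 : 0 < Kc := by linarith
  -- the bound for all polynomials
  have hbound : ∀ (P : ℂ[X]) (M : ℝ), (∀ t, ‖P.eval (C.x t)‖ ≤ M) → ‖Polynomial.aeval A P‖ ≤ Kc * M := by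
    intro P M hP
    have hM0 : 0 ≤ M := (norm_nonneg _).trans (hP 0)
    rcases hM0.lt_or_eq with hM | hM
    · have h1 : (M : ℂ) ≠ 0 := by exact_mod_cast hM.ne'
      have h2 : ((M : ℂ)⁻¹ • P) ∈ {q : ℂ[X] | ∀ t, ‖q.eval (C.x t)‖ ≤ 1} := by
        intro t
        rw [Polynomial.eval_smul, norm_smul, norm_inv, Complex.norm_real, Real.norm_of_nonneg hM.le]
        rw [inv_mul_le_iff₀ hM, mul_one]
        exact hP t
      have h3 : Polynomial.aeval A ((M : ℂ)⁻¹ • P) ∈ closure (C.opSet A) :=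
        subset_closure ⟨_, h2, rfl⟩
      have h4 := hmax _ h3
      rw [map_smul, norm_smul, norm_inv, Complex.norm_real, Real.norm_of_nonneg hM.le, inv_mul_le_iff₀ hM] at h4
      rw [mul_comm]
      exact h4
    · have h := hbd P M hP
      rw [← hM] at h ⊢
      simpa using h
  -- the range of `aeval A`
  let ev : ℂ[X] →ₗ[ℂ] (E →L[ℂ] E) := (Polynomial.aeval A).toLinearMap
  have hev : ∀ p, ev p = Polynomial.aeval A p := fun p => rfl
  let Q : Submodule ℂ (E →L[ℂ] E) := LinearMap.range ev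
  have hQclosed : IsClosed (Q : Set (E →L[ℂ] E)) := Submodule.closed_of_finiteDimensional Q
  have hT₀Q : T₀ ∈ Q := by
    have hsub : C.opSet A ⊆ (Q : Set (E →L[ℂ] E)) := by
      rintro T ⟨p, -, rfl⟩
      exact ⟨p, rfl⟩
    exact closure_minimal hsub hQclosed hT₀
  -- the linear section
  obtain ⟨σ, hσ⟩ := LinearMap.exists_rightInverse_of_surjective ev.rangeRestrict (LinearMap.range_rangeRestrict ev)
  have hσ' : ∀ T : Q, Polynomial.aeval A (σ T) = (T : E →L[ℂ] E) := by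
    intro T
    have := congrArg (fun F : Q →ₗ[ℂ] Q => ((F T : Q) : E →L[ℂ] E)) hσ
    exact this
  -- the bound of the section
  let τ : Q →ₗ[ℂ] (ℝ →ᵇ ℂ) := C.piL.comp σ
  have hτc : Continuous τ := LinearMap.continuous_of_finiteDimensional τ
  have hτb : ∀ η > 0, ∃ δ > 0, ∀ T : Q, ‖(T : E →L[ℂ] E)‖ < δ → ‖C.piL (σ T)‖ < η := by
    intro η hη
    obtain ⟨δ, hδ, h⟩ := (Metric.continuous_iff.mp hτc) 0 η hη
    refine ⟨δ, hδ, fun T hT => ?_⟩
    have h1 := h T (by simpa [dist_zero_right] using hT)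
    show ‖τ T‖ < η
    simpa [dist_zero_right] using h1
  -- approximate `T₀` exactly
  have hf : ∀ η > 0, ∃ f : ℂ[X], Polynomial.aeval A f = T₀ ∧ ∀ t, ‖f.eval (C.x t)‖ ≤ 1 + η := by
    intro η hη
    obtain ⟨δ, hδ, hτδ⟩ := hτb η hη
    obtain ⟨S, ⟨p₁, hp₁, rfl⟩, hdist⟩ := Metric.mem_closure_iff.mp hT₀ _ hδ
    have hmem : T₀ - Polynomial.aeval A p₁ ∈ Q := Q.sub_mem hT₀Q ⟨p₁, rfl⟩
    let U : Q := ⟨T₀ - Polynomial.aeval A p₁, hmem⟩
    refine ⟨p₁ + σ U, ?_, ?_⟩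
    · rw [map_add, hσ' U]
      simp [U]
    · intro t
      rw [Polynomial.eval_add]
      refine (norm_add_le _ _).trans (add_le_add (hp₁ t) ?_)
      refine (C.norm_eval_le_piL (σ U) t).trans (hτδ U ?_).le
      show ‖T₀ - Polynomial.aeval A p₁‖ < _
      rw [← dist_eq_norm]
      exact hdist
  -- the vectors
  obtain ⟨a, ha, haT⟩ := exists_unit_max T₀ v₀ hv₀
  have hKcC : (Kc : ℂ) ≠ 0 := by exact_mod_cast hKc0.ne'
  set b : E := (Kc : ℂ)⁻¹ • T₀ a with hbdef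
  have hb : ‖b‖ = 1 := by
    rw [hbdef, norm_smul, norm_inv, Complex.norm_real, Real.norm_of_nonneg hKc0.le, haT, ← hKc]
    field_simp
  have hTa : T₀ a = (Kc : ℂ) • b := by
    rw [hbdef, smul_smul, mul_inv_cancel₀ hKcC, one_smul]
  have hinner := inner_T_eq T₀ ha hb (norm_nonneg _) hTa
  -- commutation
  have hcomm : ∀ (p : ℂ[X]) (y : E), T₀ (Polynomial.aeval A p y) = Polynomial.aeval A p (T₀ y) := by
    intro p y
    obtain ⟨f, hf1, -⟩ := hf 1 one_pos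
    have h1 : T₀ * Polynomial.aeval A p = Polynomial.aeval A p * T₀ := by
      rw [← hf1, ← map_mul, ← map_mul, mul_comm]
    exact congrArg (fun F : E →L[ℂ] E => F y) h1
  -- the state
  have hstate : ∀ p : ℂ[X], inner ℂ a (Polynomial.aeval A p a) = inner ℂ b (Polynomial.aeval A p b) := by
    intro p
    have h1 := hinner (Polynomial.aeval A p a)
    rw [hcomm, hTa, map_smul, inner_smul_right] at h1
    exact (mul_left_cancel₀ hKcC h1).symm
  -- the bound of the state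
  have hcbd : ∀ p : ℂ[X], ‖inner ℂ a (Polynomial.aeval A p a)‖ ≤ ‖C.piL p‖ := by
    intro p
    refine le_of_forall_pos_le_add fun ε hε => ?_
    -- choose `η`
    have hN : 0 ≤ ‖C.piL p‖ := norm_nonneg _
    set η : ℝ := ε / (‖C.piL p‖ + 1) with hη
    have hηpos : 0 < η := by positivity
    obtain ⟨f, hf1, hf2⟩ := hf η hηpos
    have h1 := hinner (Polynomial.aeval A p a)
    have h2 : T₀ (Polynomial.aeval A p a) = Polynomial.aeval A (f * p) a := by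
      rw [map_mul, hf1]
      rfl
    rw [h2] at h1
    have h3 : ‖inner ℂ b (Polynomial.aeval A (f * p) a)‖ ≤ ‖Polynomial.aeval A (f * p)‖ := by
      refine (norm_inner_le_norm _ _).trans ?_
      rw [hb, one_mul]
      refine ((Polynomial.aeval A (f * p)).le_opNorm a).trans ?_
      rw [ha, mul_one]
    have h4 : ‖Polynomial.aeval A (f * p)‖ ≤ Kc * ((1 + η) * ‖C.piL p‖) := by
      refine hbound _ _ fun t => ?_
      rw [Polynomial.eval_mul, norm_mul]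
      exact mul_le_mul (hf2 t) (C.norm_eval_le_piL p t) (norm_nonneg _) (by positivity)
    have h5 : Kc * ‖inner ℂ a (Polynomial.aeval A p a)‖ ≤ Kc * ((1 + η) * ‖C.piL p‖) := by
      have : ‖(Kc : ℂ) * inner ℂ a (Polynomial.aeval A p a)‖ = Kc * ‖inner ℂ a (Polynomial.aeval A p a)‖ := by
        rw [norm_mul, Complex.norm_real, Real.norm_of_nonneg hKc0.le]
      rw [← this, ← h1]
      exact h3.trans h4
    have h6 := le_of_mul_le_mul_left h5 hKc0
    refine h6.trans ?_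
    have h7 : η * ‖C.piL p‖ ≤ ε := by
      rw [hη, div_mul_eq_mul_div, div_le_iff₀ (by positivity)]
      nlinarith
    nlinarith
  -- factorization through the image
  have hfac : ∀ p q : ℂ[X], C.piL p = C.piL q → inner ℂ a (Polynomial.aeval A p a) = inner ℂ a (Polynomial.aeval A q a) := by
    intro p q hpq
    have h1 := hcbd (p - q)
    rw [show C.piL (p - q) = 0 by rw [map_sub, hpq, sub_self], norm_zero] at h1
    have h2 := norm_le_zero_iff.mp h1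
    rw [map_sub, ContinuousLinearMap.sub_apply, inner_sub_right] at h2
    exact sub_eq_zero.mp h2
  -- Hahn-Banach
  let Y : Submodule ℂ (ℝ →ᵇ ℂ) := LinearMap.range C.piL
  obtain ⟨s, hs⟩ := LinearMap.exists_rightInverse_of_surjective C.piL.rangeRestrict (LinearMap.range_rangeRestrict C.piL)
  have hs' : ∀ y : Y, C.piL (s y) = (y : ℝ →ᵇ ℂ) := by
    intro y
    have := congrArg (fun F : Y →ₗ[ℂ] Y => ((F y : Y) : ℝ →ᵇ ℂ)) hs
    exact this
  let c₀ : Y →ₗ[ℂ] ℂ :=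
    { toFun := fun y => inner ℂ a (Polynomial.aeval A (s y) a)
      map_add' := by
        intro y y'
        simp only [map_add, ContinuousLinearMap.add_apply, inner_add_right]
      map_smul' := by
        intro r y
        simp only [map_smul, ContinuousLinearMap.smul_apply, inner_smul_right, RingHom.id_apply, smul_eq_mul] }
  have hc₀b : ∀ y : Y, ‖c₀ y‖ ≤ 1 * ‖y‖ := by
    intro y
    rw [one_mul]
    have h1 := hcbd (s y)
    rw [hs' y] at h1
    exact h1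
  let c₁ : Y →L[ℂ] ℂ := c₀.mkContinuous 1 hc₀b
  obtain ⟨l, hl1, hl2⟩ := exists_extension_norm_eq Y c₁
  have hc₁norm : ‖c₁‖ ≤ 1 := LinearMap.mkContinuous_norm_le _ zero_le_one _
  have hl : ∀ (p : ℂ[X]) (φ : ℝ →ᵇ ℂ), (∀ t, φ t = p.eval (C.x t)) → l φ = inner ℂ a (Polynomial.aeval A p a) := by
    intro p φ hφ
    have h1 : φ = C.piL p := by
      ext t
      rw [hφ t]
      rfl
    subst h1
    have h2 := hl1 ⟨C.piL p, p, rfl⟩
    rw [h2]
    show inner ℂ a (Polynomial.aeval A (s ⟨C.piL p, p, rfl⟩) a) = _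
    exact hfac _ _ (hs' _)
  refine ⟨Kc, T₀, a, b, l, hone, ha, hb, hTa, hl2.le.trans hc₁norm, ?_, hbound, hf, ?_, ?_⟩
  · have h1 := hl 1 (1 : ℝ →ᵇ ℂ) (fun t => by simp)
    rw [h1]
    rw [map_one]
    show inner ℂ a a = 1
    rw [inner_self_eq_norm_sq_to_K, ha]
    simp
  · intro p φ hφ
    have h1 := hl p φ hφ
    exact ⟨h1, h1.trans (hstate p)⟩
  · intro g h hh
    have h1 := hinner (Polynomial.aeval A g b)
    rw [map_mul, hh]
    exact h1.symm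

end SCurve
end Vale.Agent.Lib.P123.U
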