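import Vale.Agent.Lib.P123.U.Defs

/-!
# The fat chord lemma

`YPrimeStatement C` is the statement of `YPrime` (the comparison of an analytic function with the double layer potential of the modulus of its boundary values), proved separately.
-/

open Complex MeasureTheory Set Filter Topology Polynomial ComplexConjugate
open scoped Real

namespace Vale.Agent.Lib.P123.U
namespace SCurve

variable (C : SCurve)

/-- the statement of `YPrime` -/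
def YPrimeStatement : Prop :=
  ∀ (G : ℂ → ℂ) (_ : DiffContOnCl ℂ G C.Om) (Lg : ℝ)
    (_ : ∀ u ∈ C.K, ∀ v ∈ C.K, ‖G u - G v‖ ≤ Lg * ‖u - v‖) (p : ℂ) (_ : p ∈ C.Om),
    ‖G p‖ ≤ (1 / π) * ∫ t in (0:ℝ)..(2 * π), ‖G (C.x t)‖ * C.kap p t

lemma D_sub (p w : ℂ) (t : ℝ) : C.D p t = C.D w t + (exp (-(I * t)) * (w - p)).re := by
  unfold D
  rw [mul_sub, Complex.sub_re]
  ring

lemma re_le_D_of_mem {w : ℂ} (hw : w ∈ C.K) (p : ℂ) (t : ℝ) :
    (exp (-(I * t)) * (w - p)).re ≤ C.D p t := by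
  rw [C.D_sub p w t]
  linarith [hw t]

lemma re_decomp (E e y : ℂ) :
    ‖e‖ ^ 2 * (E * y).re = (E * e).re * (y * conj e).re - (E * e).im * (y * conj e).im := by
  rw [← Complex.normSq_eq_norm_sq, Complex.normSq_apply]
  simp only [Complex.mul_re, Complex.mul_im, Complex.conj_re, Complex.conj_im]
  ring

lemma normSq_E (t : ℝ) (e : ℂ) :
    (exp (-(I * t)) * e).re ^ 2 + (exp (-(I * t)) * e).im ^ 2 = ‖e‖ ^ 2 := by
  have h : ‖exp (-(I * t)) * e‖ = ‖e‖ := by rw [norm_mul, norm_exp_neg_I, one_mul]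
  rw [← h, ← Complex.normSq_eq_norm_sq, Complex.normSq_apply]
  ring

lemma chord_form_re (w z e : ℂ) (σ : ℝ) :
    ((w - (z + σ * e)) * conj e).re = ((w - z) * conj e).re - σ * ‖e‖ ^ 2 := by
  rw [← Complex.normSq_eq_norm_sq, Complex.normSq_apply]
  simp only [Complex.mul_re, Complex.mul_im, Complex.conj_re, Complex.conj_im, Complex.sub_re,
    Complex.sub_im, Complex.add_re, Complex.add_im, Complex.ofReal_re, Complex.ofReal_im]
  ring

lemma chord_form_im (w z e : ℂ) (σ : ℝ) :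
    ((w - (z + σ * e)) * conj e).im = ((w - z) * conj e).im := by
  simp only [Complex.mul_re, Complex.mul_im, Complex.conj_re, Complex.conj_im, Complex.sub_re,
    Complex.sub_im, Complex.add_re, Complex.add_im, Complex.ofReal_re, Complex.ofReal_im]
  ring

lemma real_step {a b d β₃ L β A B r : ℝ} (hd : 0 < d) (h30 : 0 ≤ β₃)
    (ha : |a| ≤ β₃ * d)
    (hL : L * β₃ ≤ β / 2) (hA : |A| ≤ L * d ^ 2) (hbB : (4 / 5) * d * (β * d ^ 2) ≤ -b * B)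
    (hr : d ^ 2 * r = a * A - b * B) : (3 / 10) * β * d ≤ r := by
  have h1 : |a * A| ≤ (β₃ * d) * (L * d ^ 2) := by
    rw [abs_mul]
    exact mul_le_mul ha hA (abs_nonneg _) (by positivity)
  have h2 : -((β₃ * d) * (L * d ^ 2)) ≤ a * A := by
    have := (abs_le.1 h1).1
    linarith
  have h3 : (β₃ * d) * (L * d ^ 2) = (L * β₃) * d ^ 3 := by ring
  have h4 : (L * β₃) * d ^ 3 ≤ (β / 2) * d ^ 3 := by
    apply mul_le_mul_of_nonneg_right hL (by positivity)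
  have h5 : d ^ 2 * ((3 / 10) * β * d) ≤ d ^ 2 * r := by
    rw [hr]
    nlinarith
  exact le_of_mul_le_mul_left h5 (by positivity)

lemma abs_b_ge {a b d β₃ : ℝ} (hd : 0 < d) (h30 : 0 ≤ β₃) (h3 : β₃ ≤ 1 / 2)
    (ha : |a| ≤ β₃ * d) (hab : a ^ 2 + b ^ 2 = d ^ 2) : (4 / 5) * d ≤ |b| := by
  have h1 : a ^ 2 ≤ (β₃ * d) ^ 2 := by
    rw [← sq_abs a]
    exact pow_le_pow_left₀ (abs_nonneg _) ha 2
  have h2 : (β₃ * d) ^ 2 ≤ (1 / 2 * d) ^ 2 :=
    pow_le_pow_left₀ (by positivity) (by gcongr) 2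
  have h3 : ((4 / 5) * d) ^ 2 ≤ b ^ 2 := by nlinarith [sq_nonneg d]
  have h4 := sq_le_sq.1 h3
  rwa [abs_of_nonneg (by positivity : (0:ℝ) ≤ (4 / 5) * d)] at h4

/-- Depth at a chord point when the chord direction is nearly tangent at `t`. -/
lemma fat_mid {β L β₃ : ℝ} (h30 : 0 ≤ β₃) (h3 : β₃ ≤ 1 / 2) (hL : (L + 1) * β₃ ≤ β / 2)
    {z ζ u v : ℂ} (hu : u ∈ C.K) (hv : v ∈ C.K) (hF : Fat β L z ζ u v) {σ : ℝ} (h0 : 0 ≤ σ)
    (h1 : σ ≤ 1) (hβ : 0 ≤ β) (t : ℝ)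
    (ha : |(exp (-(I * t)) * (ζ - z)).re| ≤ β₃ * ‖ζ - z‖) :
    (3 / 10) * β * ‖ζ - z‖ ≤ C.D (z + σ * (ζ - z)) t := by
  have hdpos : 0 < ‖ζ - z‖ := norm_pos_iff.2 (sub_ne_zero.2 hF.ne.symm)
  have hab := normSq_E t (ζ - z)
  have hb := abs_b_ge hdpos h30 h3 ha hab
  have hd2 : 0 < ‖ζ - z‖ ^ 2 := by positivity
  have hL0 : 0 ≤ L := by
    have := (abs_nonneg _).trans hF.u2
    by_contra hneg
    push Not at hneg
    nlinarith
  have hAbound : ∀ w : ℂ, |((w - z) * conj (ζ - z)).re| ≤ L * ‖ζ - z‖ ^ 2 →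
      |((w - (z + σ * (ζ - z))) * conj (ζ - z)).re| ≤ (L + 1) * ‖ζ - z‖ ^ 2 := by
    intro w hw
    rw [chord_form_re]
    have h2 : |σ * ‖ζ - z‖ ^ 2| ≤ 1 * ‖ζ - z‖ ^ 2 := by
      rw [abs_of_nonneg (by positivity)]
      exact mul_le_mul_of_nonneg_right h1 hd2.le
    calc _ ≤ |((w - z) * conj (ζ - z)).re| + |σ * ‖ζ - z‖ ^ 2| := abs_sub _ _
      _ ≤ L * ‖ζ - z‖ ^ 2 + 1 * ‖ζ - z‖ ^ 2 := add_le_add hw h2
      _ = _ := by ring
  rcases le_or_gt 0 (exp (-(I * t)) * (ζ - z)).im with hbs | hbs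
  · -- use `v`
    rw [abs_of_nonneg hbs] at hb
    refine le_trans ?_ (C.re_le_D_of_mem hv _ t)
    refine real_step (L := L + 1) (A := ((v - (z + σ * (ζ - z))) * conj (ζ - z)).re)
      (B := ((v - (z + σ * (ζ - z))) * conj (ζ - z)).im)
      (a := (exp (-(I * t)) * (ζ - z)).re) (b := (exp (-(I * t)) * (ζ - z)).im)
      hdpos h30 ha hL (hAbound v hF.v2) ?_ (re_decomp _ _ _)
    rw [chord_form_im]
    have hv1 := hF.v1
    have h5 : (4 / 5) * ‖ζ - z‖ * (β * ‖ζ - z‖ ^ 2) ≤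
        (exp (-(I * t)) * (ζ - z)).im * (-((v - z) * conj (ζ - z)).im) :=
      mul_le_mul hb (by linarith) (by positivity) hbs
    linarith
  · -- use `u`
    rw [abs_of_neg hbs] at hb
    refine le_trans ?_ (C.re_le_D_of_mem hu _ t)
    refine real_step (L := L + 1) (A := ((u - (z + σ * (ζ - z))) * conj (ζ - z)).re)
      (B := ((u - (z + σ * (ζ - z))) * conj (ζ - z)).im)
      (a := (exp (-(I * t)) * (ζ - z)).re) (b := (exp (-(I * t)) * (ζ - z)).im)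
      hdpos h30 ha hL (hAbound u hF.u2) ?_ (re_decomp _ _ _)
    rw [chord_form_im]
    have hu1 := hF.u1
    have h5 : (4 / 5) * ‖ζ - z‖ * (β * ‖ζ - z‖ ^ 2) ≤
        (-(exp (-(I * t)) * (ζ - z)).im) * ((u - z) * conj (ζ - z)).im :=
      mul_le_mul hb hu1 (by positivity) (by linarith)
    linarith

/-- Depth of the chord points. -/
lemma chord_depth {β L β₃ s₀ : ℝ} (h30 : 0 ≤ β₃) (h3 : β₃ ≤ 1 / 2) (hL : (L + 1) * β₃ ≤ β / 2)
    (hβ : 0 ≤ β) {z ζ u v : ℂ} (hz : z ∈ C.K) (hζ : ζ ∈ C.K) (hu : u ∈ C.K) (hv : v ∈ C.K)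
    (hF : Fat β L z ζ u v) {σ : ℝ} (hs0 : 0 ≤ s₀) (h0 : s₀ ≤ σ) (h1 : σ ≤ 1 - s₀)
    (hs : s₀ * β₃ ≤ (3 / 10) * β) (t : ℝ) :
    s₀ * β₃ * ‖ζ - z‖ ≤ C.D (z + σ * (ζ - z)) t := by
  have hdpos : 0 < ‖ζ - z‖ := norm_pos_iff.2 (sub_ne_zero.2 hF.ne.symm)
  rcases le_total (β₃ * ‖ζ - z‖) (exp (-(I * t)) * (ζ - z)).re with ha | ha
  · refine le_trans ?_ (C.re_le_D_of_mem hζ _ t)
    have e : exp (-(I * t)) * (ζ - (z + σ * (ζ - z))) =
        ((1 - σ : ℝ) : ℂ) * (exp (-(I * t)) * (ζ - z)) := by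
      push_cast; ring
    rw [e, Complex.re_ofReal_mul]
    have : s₀ * (β₃ * ‖ζ - z‖) ≤ (1 - σ) * (exp (-(I * t)) * (ζ - z)).re :=
      mul_le_mul (by linarith) ha (by positivity) (by linarith)
    linarith
  rcases le_total (exp (-(I * t)) * (ζ - z)).re (-(β₃ * ‖ζ - z‖)) with ha' | ha'
  · refine le_trans ?_ (C.re_le_D_of_mem hz _ t)
    have e : exp (-(I * t)) * (z - (z + σ * (ζ - z))) =
        ((-σ : ℝ) : ℂ) * (exp (-(I * t)) * (ζ - z)) := by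
      push_cast; ring
    rw [e, Complex.re_ofReal_mul]
    have : s₀ * (β₃ * ‖ζ - z‖) ≤ σ * (-(exp (-(I * t)) * (ζ - z)).re) :=
      mul_le_mul h0 (by linarith) (by positivity) (by linarith)
    linarith
  · have h5 := C.fat_mid h30 h3 hL hu hv hF (by linarith : 0 ≤ σ) (by linarith : σ ≤ 1) hβ t
      (abs_le.2 ⟨ha', ha⟩)
    refine le_trans ?_ h5
    exact mul_le_mul_of_nonneg_right hs hdpos.le

/-- If `x t` is near `z` in the normal direction, then it is deep seen from `ζ`. -/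
lemma chord_near {β L β₃ : ℝ} (h30 : 0 ≤ β₃) (h3 : β₃ ≤ 1 / 2) (hL : (L + 1) * β₃ ≤ β / 2)
    (hβ : 0 ≤ β) {z ζ u v : ℂ} (hz : z ∈ C.K) (hζ : ζ ∈ C.K) (hu : u ∈ C.K) (hv : v ∈ C.K)
    (hF : Fat β L z ζ u v) (hs : β₃ < (3 / 10) * β) {t : ℝ} (hD : C.D z t ≤ β₃ * ‖ζ - z‖) :
    β₃ * ‖ζ - z‖ ≤ C.D ζ t := by
  have hdpos : 0 < ‖ζ - z‖ := norm_pos_iff.2 (sub_ne_zero.2 hF.ne.symm)
  have h1 := C.D_sub ζ z t
  have h2 : (exp (-(I * t)) * (z - ζ)).re = -(exp (-(I * t)) * (ζ - z)).re := by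
    rw [← neg_sub ζ z, mul_neg, Complex.neg_re]
  rw [h2] at h1
  have hz0 := hz t
  rcases le_total (exp (-(I * t)) * (ζ - z)).re (-(β₃ * ‖ζ - z‖)) with ha | ha
  · linarith
  · exfalso
    have h4 := C.re_le_D_of_mem hζ z t
    have h5 := C.fat_mid h30 h3 hL hu hv hF (le_refl (0:ℝ)) zero_le_one hβ t
      (abs_le.2 ⟨ha, by linarith⟩)
    have e : z + ((0:ℝ):ℂ) * (ζ - z) = z := by simp
    rw [e] at h5
    have : β₃ * ‖ζ - z‖ < (3 / 10) * β * ‖ζ - z‖ := mul_lt_mul_of_pos_right hs hdpos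
    linarith

lemma kap_eq (p : ℂ) (t : ℝ) : C.kap p t = C.R t * C.D p t / ‖C.x t - p‖ ^ 2 := by
  rw [C.normSq_sub]; rfl

/-- Comparison of denominators. -/
lemma kap_comp_aux {p w : ℂ} {t M : ℝ} (hw : w ∈ C.K) (hp : 0 < ‖C.x t - p‖)
    (h : ‖C.x t - w‖ ≤ M * ‖C.x t - p‖) :
    C.R t * C.D w t / ‖C.x t - p‖ ^ 2 ≤ M ^ 2 * C.kap w t := by
  have hR := C.R_pos t
  have hD := hw t
  rw [C.kap_eq w t]
  rcases eq_or_lt_of_le (norm_nonneg (C.x t - w)) with h0 | h0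
  · have hx : C.x t = w := by
      have := norm_eq_zero.1 h0.symm
      exact sub_eq_zero.1 this
    have hD0 : C.D w t = 0 := by rw [← hx]; exact C.D_x_self t
    simp [hD0]
  · have hM : 0 ≤ M := by
      by_contra hneg
      push Not at hneg
      nlinarith
    rw [← mul_div_assoc, div_le_div_iff₀ (by positivity) (by positivity)]
    have h2 : ‖C.x t - w‖ ^ 2 ≤ M ^ 2 * ‖C.x t - p‖ ^ 2 := by
      rw [← mul_pow]
      exact pow_le_pow_left₀ h0.le h 2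
    have h3 : 0 ≤ C.R t * C.D w t := mul_nonneg hR.le hD
    calc C.R t * C.D w t * ‖C.x t - w‖ ^ 2
        ≤ C.R t * C.D w t * (M ^ 2 * ‖C.x t - p‖ ^ 2) := mul_le_mul_of_nonneg_left h2 h3
      _ = M ^ 2 * (C.R t * C.D w t) * ‖C.x t - p‖ ^ 2 := by ring

/-- the chord point -/
noncomputable def pt (z ζ : ℂ) (s : ℝ) : ℂ := ((1 - s : ℝ) : ℂ) * z + (s : ℂ) * ζ

lemma pt_eq (z ζ : ℂ) (s : ℝ) : pt z ζ s = z + s * (ζ - z) := by
  unfold pt; push_cast; ring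

lemma pt_symm (z ζ : ℂ) (s : ℝ) : pt ζ z (1 - s) = pt z ζ s := by
  unfold pt; push_cast; ring

lemma norm_pt_sub_left (z ζ : ℂ) {s : ℝ} (h0 : 0 ≤ s) (h1 : s ≤ 1) : ‖pt z ζ s - z‖ ≤ ‖ζ - z‖ := by
  rw [pt_eq, add_sub_cancel_left, norm_mul, Complex.norm_real, Real.norm_of_nonneg h0]
  nlinarith [norm_nonneg (ζ - z)]

lemma norm_pt_sub_right (z ζ : ℂ) {s : ℝ} (h0 : 0 ≤ s) (h1 : s ≤ 1) : ‖pt z ζ s - ζ‖ ≤ ‖ζ - z‖ := by
  rw [← pt_symm, norm_sub_rev ζ z]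
  exact norm_pt_sub_left ζ z (by linarith) (by linarith)

/-- Kernel comparison. -/
lemma kap_chord {z ζ : ℂ} (hz : z ∈ C.K) (hζ : ζ ∈ C.K) {s δ : ℝ} (h0 : 0 ≤ s) (h1 : s ≤ 1)
    (hδ : 0 < δ) (hdep : ∀ t, δ ≤ C.D (pt z ζ s) t) (t : ℝ) :
    C.kap (pt z ζ s) t ≤ (1 + ‖ζ - z‖ / δ) ^ 2 * ((1 - s) * C.kap z t + s * C.kap ζ t) := by
  have hn : δ ≤ ‖C.x t - pt z ζ s‖ := (hdep t).trans (C.D_le_norm _ t)
  have hpos : 0 < ‖C.x t - pt z ζ s‖ := lt_of_lt_of_le hδ hn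
  have hcomp : ∀ w : ℂ, ‖pt z ζ s - w‖ ≤ ‖ζ - z‖ →
      ‖C.x t - w‖ ≤ (1 + ‖ζ - z‖ / δ) * ‖C.x t - pt z ζ s‖ := by
    intro w hw
    have h2 : ‖C.x t - w‖ ≤ ‖C.x t - pt z ζ s‖ + ‖pt z ζ s - w‖ := norm_sub_le_norm_sub_add_norm_sub _ _ _
    have h3 : ‖ζ - z‖ ≤ ‖ζ - z‖ / δ * ‖C.x t - pt z ζ s‖ := by
      rw [div_mul_eq_mul_div, le_div_iff₀ hδ]
      exact mul_le_mul_of_nonneg_left hn (norm_nonneg _)
    nlinarith
  have hz1 := C.kap_comp_aux hz hpos (hcomp z (norm_pt_sub_left z ζ h0 h1))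
  have hζ1 := C.kap_comp_aux hζ hpos (hcomp ζ (norm_pt_sub_right z ζ h0 h1))
  rw [C.kap_eq (pt z ζ s) t]
  have e : C.D (pt z ζ s) t = (1 - s) * C.D z t + s * C.D ζ t := C.D_affine z ζ s t
  rw [e]
  have e2 : C.R t * ((1 - s) * C.D z t + s * C.D ζ t) / ‖C.x t - pt z ζ s‖ ^ 2
      = (1 - s) * (C.R t * C.D z t / ‖C.x t - pt z ζ s‖ ^ 2)
        + s * (C.R t * C.D ζ t / ‖C.x t - pt z ζ s‖ ^ 2) := by
    field_simp
  rw [e2]
  have h5 := mul_le_mul_of_nonneg_left hz1 (by linarith : 0 ≤ 1 - s)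
  have h6 := mul_le_mul_of_nonneg_left hζ1 h0
  nlinarith

/-- From an `L²` bound for the boundary measure at a point of the curve, to an `L¹` bound. -/
lemma l1_bound (t0 : ℝ) {φ : ℝ → ℝ} (hφ : Continuous φ) {e : ℝ} (he : 0 < e)
    (h : C.LR (fun s => φ s ^ 2) t0 ≤ e ^ 2) :
    (1 / π) * ∫ t in (0:ℝ)..(2 * π), φ t * C.kap (C.x t0) t ≤ e := by
  have hk := C.intervalIntegrable_kap_x t0 0 (2 * π)
  have hi1 : IntervalIntegrable (fun t => φ t * C.kap (C.x t0) t) volume 0 (2 * π) :=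
    hk.continuousOn_mul hφ.continuousOn
  have hi2 : IntervalIntegrable (fun t => φ t ^ 2 * C.kap (C.x t0) t) volume 0 (2 * π) :=
    hk.continuousOn_mul (hφ.pow 2).continuousOn
  have hπ := Real.pi_pos
  have hmono : ∫ t in (0:ℝ)..(2 * π), φ t * C.kap (C.x t0) t
      ≤ ∫ t in (0:ℝ)..(2 * π), (e / 2 * C.kap (C.x t0) t + 1 / (2 * e) * (φ t ^ 2 * C.kap (C.x t0) t)) := by
    refine intervalIntegral.integral_mono_on (by positivity) hi1
      ((hk.const_mul _).add (hi2.const_mul _)) (fun t _ => ?_)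
    have hk0 := C.kap_nonneg (C.x_mem_K t0) t
    have h1 : φ t ≤ e / 2 + 1 / (2 * e) * φ t ^ 2 := by
      have h2 : 0 ≤ (φ t - e) ^ 2 / (2 * e) := by positivity
      have h3 : (φ t - e) ^ 2 / (2 * e) = e / 2 + 1 / (2 * e) * φ t ^ 2 - φ t := by
        field_simp
        ring
      linarith
    nlinarith [mul_le_mul_of_nonneg_right h1 hk0]
  rw [intervalIntegral.integral_add (hk.const_mul _) (hi2.const_mul _),
    intervalIntegral.integral_const_mul, intervalIntegral.integral_const_mul,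
    C.integral_kap_x'] at hmono
  have h1 : ∫ t in (0:ℝ)..(2 * π), φ t ^ 2 * C.kap (C.x t0) t ≤ π * e ^ 2 := by
    unfold LR at h
    rw [div_mul_eq_mul_div, one_mul, div_le_iff₀ hπ] at h
    linarith
  have h2 : (1 / (2 * e)) * ∫ t in (0:ℝ)..(2 * π), φ t ^ 2 * C.kap (C.x t0) t
      ≤ (1 / (2 * e)) * (π * e ^ 2) := mul_le_mul_of_nonneg_left h1 (by positivity)
  have h3 : (1 / (2 * e)) * (π * e ^ 2) = π * e / 2 := by
    field_simp
  rw [div_mul_eq_mul_div, one_mul, div_le_iff₀ hπ]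
  nlinarith

lemma isClosed_K : IsClosed C.K := by
  have h : C.K = ⋂ t : ℝ, {p : ℂ | 0 ≤ C.D p t} := by
    ext p
    simp [K]
  rw [h]
  refine isClosed_iInter (fun t => isClosed_le continuous_const ?_)
  unfold D
  fun_prop

lemma Om_subset_K : C.Om ⊆ C.K := fun _ hp t => (hp t).le

lemma closure_Om_subset : closure C.Om ⊆ C.K :=
  closure_minimal C.Om_subset_K C.isClosed_K

lemma exists_bound_K : ∃ r : ℝ, ∀ w ∈ C.K, ‖w‖ ≤ r := by
  obtain ⟨t1, -, ht1⟩ := (isCompact_Icc (a := (0:ℝ)) (b := 2 * π)).exists_isMaxOn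
    (nonempty_Icc.2 (by positivity)) C.cont_h.continuousOn
  refine ⟨C.h t1, fun w hw => ?_⟩
  have hper : Function.Periodic C.h (2 * π) := C.perh
  obtain ⟨y, hy, hfy⟩ := hper.exists_mem_Ico₀ (by positivity) (arg w)
  have h1 : C.h (arg w) ≤ C.h t1 := by
    rw [hfy]
    exact ht1 ⟨hy.1, hy.2.le⟩
  have h2 := hw (arg w)
  unfold D at h2
  have h3 : exp (-(I * (arg w : ℝ))) * w = (‖w‖ : ℂ) := by
    have hw' := Complex.norm_mul_exp_arg_mul_I w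
    calc exp (-(I * ((arg w : ℝ) : ℂ))) * w
        = exp (-(I * ((arg w : ℝ) : ℂ))) * ((‖w‖ : ℂ) * exp (((arg w : ℝ) : ℂ) * I)) := by rw [hw']
      _ = (‖w‖ : ℂ) * (exp (-(I * ((arg w : ℝ) : ℂ))) * exp (I * ((arg w : ℝ) : ℂ))) := by
        rw [mul_comm (((arg w : ℝ) : ℂ)) I]; ring
      _ = (‖w‖ : ℂ) := by rw [exp_neg_mul_exp, mul_one]
  rw [h3] at h2
  simp only [Complex.ofReal_re] at h2
  linarith

lemma poly_lip (P : ℂ[X]) : ∃ Lg : ℝ, ∀ u ∈ C.K, ∀ v ∈ C.K, ‖P.eval u - P.eval v‖ ≤ Lg * ‖u - v‖ := by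
  obtain ⟨r, hr⟩ := C.exists_bound_K
  obtain ⟨Lg, hLg⟩ := (isCompact_closedBall (0:ℂ) r).exists_bound_of_continuousOn
    (f := fun w => (Polynomial.derivative P).eval w) (Polynomial.continuous _).continuousOn
  refine ⟨Lg, fun u hu v hv => ?_⟩
  refine Convex.norm_image_sub_le_of_norm_deriv_le (f := fun w => P.eval w) (s := Metric.closedBall (0:ℂ) r)
    (fun w _ => P.differentiable.differentiableAt) (fun w hw => ?_) (convex_closedBall _ _)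
    (mem_closedBall_zero_iff.2 (hr v hv)) (mem_closedBall_zero_iff.2 (hr u hu))
  rw [Polynomial.deriv]
  exact hLg w hw

/-- the estimate in the middle of the chord -/
lemma mid_estimate (hY : C.YPrimeStatement) (f : ℂ[X]) (hf : ∀ p ∈ C.K, ‖f.eval p‖ ≤ 2)
    {tz tζ : ℝ} {a₀ : ℂ} (ha₀' : ‖a₀‖ ≤ 2) {e : ℝ} (he : 0 < e)
    (h1 : C.LR (fun s => ‖f.eval (C.x s) + a₀‖ ^ 2) tz ≤ e ^ 2)
    (h2 : C.LR (fun s => ‖f.eval (C.x s) - a₀‖ ^ 2) tζ ≤ e ^ 2)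
    {s δ : ℝ} (h0 : 0 ≤ s) (h1' : s ≤ 1) (hδ : 0 < δ)
    (hdep : ∀ t, δ ≤ C.D (pt (C.x tz) (C.x tζ) s) t) :
    ‖(f.eval (pt (C.x tz) (C.x tζ) s) - a₀) * (f.eval (pt (C.x tz) (C.x tζ) s) + a₀)‖
      ≤ 4 * (1 + ‖C.x tζ - C.x tz‖ / δ) ^ 2 * e := by
  set z := C.x tz with hz
  set ζ := C.x tζ with hζ
  set p := pt z ζ s with hp
  have hpOm : p ∈ C.Om := fun t => lt_of_lt_of_le hδ (hdep t)
  set P : ℂ[X] := (f - Polynomial.C a₀) * (f + Polynomial.C a₀) with hP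
  have hPe : ∀ w, P.eval w = (f.eval w - a₀) * (f.eval w + a₀) := by
    intro w; simp [hP]
  obtain ⟨Lg, hLg⟩ := C.poly_lip P
  have hmain := hY (fun w => P.eval w) P.differentiable.diffContOnCl Lg hLg p hpOm
  simp only [hPe] at hmain
  set φ₁ : ℝ → ℝ := fun t => ‖f.eval (C.x t) + a₀‖ with hφ₁
  set φ₂ : ℝ → ℝ := fun t => ‖f.eval (C.x t) - a₀‖ with hφ₂
  have hcx : Continuous fun t => f.eval (C.x t) := f.continuous.comp C.cont_x
  have hc₁ : Continuous φ₁ := (hcx.add continuous_const).norm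
  have hc₂ : Continuous φ₂ := (hcx.sub continuous_const).norm
  have hb₁ : ∀ t, φ₁ t ≤ 4 := fun t => by
    have := hf _ (C.x_mem_K t)
    have h3 := norm_add_le (f.eval (C.x t)) a₀
    simp only [hφ₁]; linarith
  have hb₂ : ∀ t, φ₂ t ≤ 4 := fun t => by
    have := hf _ (C.x_mem_K t)
    have h3 := norm_sub_le (f.eval (C.x t)) a₀
    simp only [hφ₂]; linarith
  have hn1 : ∀ t, 0 ≤ φ₁ t := fun t => norm_nonneg _
  have hn2 : ∀ t, 0 ≤ φ₂ t := fun t => norm_nonneg _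
  have hl1 := C.l1_bound tz hc₁ he h1
  have hl2 := C.l1_bound tζ hc₂ he h2
  set Cd : ℝ := (1 + ‖ζ - z‖ / δ) ^ 2 with hCd
  have hCd0 : 0 ≤ Cd := by positivity
  have hkz := C.intervalIntegrable_kap_x tz 0 (2 * π)
  have hkζ := C.intervalIntegrable_kap_x tζ 0 (2 * π)
  have hi1 : IntervalIntegrable (fun t => φ₁ t * C.kap (C.x tz) t) volume 0 (2 * π) :=
    hkz.continuousOn_mul hc₁.continuousOn
  have hi2 : IntervalIntegrable (fun t => φ₂ t * C.kap (C.x tζ) t) volume 0 (2 * π) :=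
    hkζ.continuousOn_mul hc₂.continuousOn
  have hL : IntervalIntegrable (fun t => ‖(f.eval (C.x t) - a₀) * (f.eval (C.x t) + a₀)‖ * C.kap p t)
      volume 0 (2 * π) :=
    (C.intervalIntegrable_kap_Om hpOm _ _).continuousOn_mul
      ((hcx.sub continuous_const).mul (hcx.add continuous_const)).norm.continuousOn
  have hπ := Real.pi_pos
  have hmono : ∫ t in (0:ℝ)..(2 * π), ‖(f.eval (C.x t) - a₀) * (f.eval (C.x t) + a₀)‖ * C.kap p t
      ≤ ∫ t in (0:ℝ)..(2 * π), (Cd * (1 - s) * 4 * (φ₁ t * C.kap (C.x tz) t)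
          + Cd * s * 4 * (φ₂ t * C.kap (C.x tζ) t)) := by
    refine intervalIntegral.integral_mono_on (by positivity) hL
      ((hi1.const_mul _).add (hi2.const_mul _)) (fun t _ => ?_)
    have hkp := C.kap_chord (C.x_mem_K tz) (C.x_mem_K tζ) h0 h1' hδ hdep t
    have hkz0 := C.kap_nonneg (C.x_mem_K tz) t
    have hkζ0 := C.kap_nonneg (C.x_mem_K tζ) t
    rw [norm_mul]
    change φ₂ t * φ₁ t * C.kap p t ≤ _
    have hs1 : 0 ≤ 1 - s := by linarith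
    have a1 : φ₂ t * φ₁ t * C.kap p t ≤ φ₂ t * φ₁ t * (Cd * ((1 - s) * C.kap (C.x tz) t + s * C.kap (C.x tζ) t)) :=
      mul_le_mul_of_nonneg_left hkp (mul_nonneg (hn2 t) (hn1 t))
    refine a1.trans ?_
    have a2 : φ₂ t * φ₁ t * (Cd * (1 - s) * C.kap (C.x tz) t) ≤ 4 * φ₁ t * (Cd * (1 - s) * C.kap (C.x tz) t) := by
      refine mul_le_mul_of_nonneg_right ?_ (by positivity)
      exact mul_le_mul_of_nonneg_right (hb₂ t) (hn1 t)
    have a3 : φ₂ t * φ₁ t * (Cd * s * C.kap (C.x tζ) t) ≤ φ₂ t * 4 * (Cd * s * C.kap (C.x tζ) t) := by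
      refine mul_le_mul_of_nonneg_right ?_ (by positivity)
      exact mul_le_mul_of_nonneg_left (hb₁ t) (hn2 t)
    nlinarith
  rw [intervalIntegral.integral_add (hi1.const_mul _) (hi2.const_mul _),
    intervalIntegral.integral_const_mul, intervalIntegral.integral_const_mul] at hmono
  refine hmain.trans ?_
  have h5 : (1 / π) * ∫ t in (0:ℝ)..(2 * π), ‖(f.eval (C.x t) - a₀) * (f.eval (C.x t) + a₀)‖ * C.kap p t
      ≤ (1 / π) * (Cd * (1 - s) * 4 * (∫ t in (0:ℝ)..(2 * π), φ₁ t * C.kap (C.x tz) t)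
          + Cd * s * 4 * ∫ t in (0:ℝ)..(2 * π), φ₂ t * C.kap (C.x tζ) t) :=
    mul_le_mul_of_nonneg_left hmono (by positivity)
  refine h5.trans ?_
  have e1 : (1 / π) * (Cd * (1 - s) * 4 * (∫ t in (0:ℝ)..(2 * π), φ₁ t * C.kap (C.x tz) t)
          + Cd * s * 4 * ∫ t in (0:ℝ)..(2 * π), φ₂ t * C.kap (C.x tζ) t)
      = Cd * (1 - s) * 4 * ((1 / π) * ∫ t in (0:ℝ)..(2 * π), φ₁ t * C.kap (C.x tz) t)
          + Cd * s * 4 * ((1 / π) * ∫ t in (0:ℝ)..(2 * π), φ₂ t * C.kap (C.x tζ) t) := by ring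
  rw [e1]
  have h6 : Cd * (1 - s) * 4 * ((1 / π) * ∫ t in (0:ℝ)..(2 * π), φ₁ t * C.kap (C.x tz) t)
      ≤ Cd * (1 - s) * 4 * e :=
    mul_le_mul_of_nonneg_left hl1 (by have : 0 ≤ 1 - s := by linarith
                                      positivity)
  have h7 : Cd * s * 4 * ((1 / π) * ∫ t in (0:ℝ)..(2 * π), φ₂ t * C.kap (C.x tζ) t)
      ≤ Cd * s * 4 * e :=
    mul_le_mul_of_nonneg_left hl2 (by positivity)
  nlinarith

/-- the end estimate -/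
lemma end_estimate (hY : C.YPrimeStatement) (f : ℂ[X]) (hf : ∀ p ∈ C.K, ‖f.eval p‖ ≤ 2)
    {tz tζ : ℝ} {a₀ u v : ℂ} (ha₀' : ‖a₀‖ ≤ 2) {e : ℝ} (he : 0 < e)
    (h2 : C.LR (fun s => ‖f.eval (C.x s) - a₀‖ ^ 2) tζ ≤ e ^ 2)
    {β L β₃ s₀ : ℝ} (h30 : 0 < β₃) (h3 : β₃ ≤ 1 / 2) (hL : (L + 1) * β₃ ≤ β / 2)
    (hβ : 0 ≤ β) (hu : u ∈ C.K) (hv : v ∈ C.K) (hF : Fat β L (C.x tz) (C.x tζ) u v)
    (hs : β₃ < (3 / 10) * β) (hs0 : s₀ = β₃ / 64)
    (hdep : ∀ t, s₀ * β₃ * ‖C.x tζ - C.x tz‖ ≤ C.D (pt (C.x tz) (C.x tζ) s₀) t) :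
    ‖f.eval (pt (C.x tz) (C.x tζ) s₀) - a₀‖ ≤ 2 * (4 / (s₀ * β₃ ^ 2) * e) + 16 / 63 := by
  set z := C.x tz with hz
  set ζ := C.x tζ with hζ
  set d := ‖ζ - z‖ with hd
  have hdpos : 0 < d := norm_pos_iff.2 (sub_ne_zero.2 hF.ne.symm)
  have hs0pos : 0 < s₀ := by rw [hs0]; positivity
  have hs01 : s₀ ≤ 1 := by rw [hs0]; linarith
  set p := pt z ζ s₀ with hp
  set a' : ℝ := s₀ * d with ha'
  have ha'pos : 0 < a' := by positivity
  set q : ℂ := z + (a' : ℂ) * exp (I * tz) with hq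
  have hzK : z ∈ C.K := C.x_mem_K tz
  have hζK : ζ ∈ C.K := C.x_mem_K tζ
  have hqz : ‖q - z‖ = a' := by
    rw [hq, add_sub_cancel_left, norm_mul, norm_exp_I, mul_one, Complex.norm_real,
      Real.norm_of_nonneg ha'pos.le]
  -- `q` is at distance at least `a'` from the domain
  have hF1 : ∀ w ∈ C.K, a' ≤ ‖w - q‖ := by
    intro w hw
    have h1 := C.re_le_D_of_mem hw z tz
    rw [hz, C.D_x_self tz, ← hz] at h1
    have h4 : exp (-(I * tz)) * (w - q) = exp (-(I * tz)) * (w - z) - (a' : ℂ) := by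
      have h5 := exp_neg_mul_exp tz
      rw [hq]
      linear_combination (-(a' : ℂ)) * h5
    have h6 : (exp (-(I * tz)) * (w - q)).re = (exp (-(I * tz)) * (w - z)).re - a' := by
      rw [h4, Complex.sub_re, Complex.ofReal_re]
    have h7 : -(exp (-(I * tz)) * (w - q)).re ≤ ‖w - q‖ := by
      have h8 := Complex.abs_re_le_norm (exp (-(I * tz)) * (w - q))
      rw [norm_mul, norm_exp_neg_I, one_mul] at h8
      exact (neg_le_abs _).trans h8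
    linarith
  have hne : ∀ w ∈ C.K, w - q ≠ 0 := fun w hw h0 => by
    have := hF1 w hw
    rw [h0, norm_zero] at this
    linarith
  set B : ℂ → ℂ := fun w => (a' : ℂ) / (w - q) with hB
  have hBnorm : ∀ w, ‖B w‖ = a' / ‖w - q‖ := by
    intro w
    simp only [hB]
    rw [norm_div, Complex.norm_real, Real.norm_of_nonneg ha'pos.le]
  have hB1 : ∀ w ∈ C.K, ‖B w‖ ≤ 1 := by
    intro w hw
    rw [hBnorm, div_le_one (norm_pos_iff.2 (hne w hw))]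
    exact hF1 w hw
  have hδpos : 0 < s₀ * β₃ * d := by positivity
  have hpOm : p ∈ C.Om := fun t => lt_of_lt_of_le hδpos (hdep t)
  have hpK : p ∈ C.K := C.Om_subset_K hpOm
  -- value at `p`
  have hBp : 1 / 2 ≤ ‖B p‖ := by
    rw [hBnorm]
    have hn : ‖p - q‖ ≤ 2 * a' := by
      have h4 : ‖p - z‖ = a' := by
        rw [hp, pt_eq, add_sub_cancel_left, norm_mul, Complex.norm_real,
          Real.norm_of_nonneg hs0pos.le]
      have h5 : ‖p - q‖ ≤ ‖p - z‖ + ‖z - q‖ := norm_sub_le_norm_sub_add_norm_sub _ _ _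
      rw [norm_sub_rev z q, hqz, h4] at h5
      linarith
    have hpos := norm_pos_iff.2 (hne p hpK)
    rw [le_div_iff₀ hpos]
    linarith
  set CN : ℝ := 4 / (s₀ * β₃ ^ 2) with hCN
  have hCNpos : 0 < CN := by positivity
  -- the pointwise bound
  have hF6 : ∀ t, ‖B (C.x t)‖ * C.kap p t ≤ CN * C.kap ζ t + (1 / 63) * C.kap p t := by
    intro t
    have hkp0 := C.kap_nonneg hpK t
    have hkζ0 := C.kap_nonneg hζK t
    rcases le_total (64 * a') ‖C.x t - z‖ with hfar | hnear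
    · have h4 : 63 * a' ≤ ‖C.x t - q‖ := by
        have h5 : ‖C.x t - z‖ ≤ ‖C.x t - q‖ + ‖q - z‖ := norm_sub_le_norm_sub_add_norm_sub _ _ _
        rw [hqz] at h5
        linarith
      have h6 : ‖B (C.x t)‖ ≤ 1 / 63 := by
        rw [hBnorm, div_le_div_iff₀ (by linarith) (by norm_num)]
        linarith
      have h7 := mul_le_mul_of_nonneg_right h6 hkp0
      have h8 : 0 ≤ CN * C.kap ζ t := by positivity
      linarith
    · have hR := C.R_pos t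
      have hDz : C.D z t ≤ β₃ * d := by
        have h4 := C.D_le_norm z t
        have h5 : 64 * a' = β₃ * d := by
          rw [ha', hs0]; ring
        linarith
      have hDζ := C.chord_near h30.le h3 hL hβ hzK hζK hu hv hF hs hDz
      have hnζ : ‖C.x t - ζ‖ ≤ 2 * d := by
        have h5 : ‖C.x t - ζ‖ ≤ ‖C.x t - z‖ + ‖z - ζ‖ := norm_sub_le_norm_sub_add_norm_sub _ _ _
        rw [norm_sub_rev z ζ] at h5
        have h6 : 64 * a' = β₃ * d := by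
          rw [ha', hs0]; ring
        nlinarith
      have hnζpos : 0 < ‖C.x t - ζ‖ :=
        lt_of_lt_of_le (by positivity) (hDζ.trans (C.D_le_norm ζ t))
      -- lower bound of the kernel from `ζ`
      have hkζ : C.R t * β₃ / (4 * d) ≤ C.kap ζ t := by
        rw [C.kap_eq ζ t, div_le_div_iff₀ (by positivity) (by positivity)]
        have h5 : ‖C.x t - ζ‖ ^ 2 ≤ (2 * d) ^ 2 := pow_le_pow_left₀ (norm_nonneg _) hnζ 2
        have h6 : β₃ * d * (4 * d) ≤ C.D ζ t * (4 * d) := by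
          exact mul_le_mul_of_nonneg_right hDζ (by positivity)
        calc C.R t * β₃ * ‖C.x t - ζ‖ ^ 2 ≤ C.R t * β₃ * (2 * d) ^ 2 :=
              mul_le_mul_of_nonneg_left h5 (by positivity)
          _ = C.R t * (β₃ * d * (4 * d)) := by ring
          _ ≤ C.R t * (C.D ζ t * (4 * d)) := mul_le_mul_of_nonneg_left h6 hR.le
          _ = C.R t * C.D ζ t * (4 * d) := by ring
      -- upper bound of the kernel from `p`
      have hnp : s₀ * β₃ * d ≤ ‖C.x t - p‖ := (hdep t).trans (C.D_le_norm p t)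
      have hnppos : 0 < ‖C.x t - p‖ := lt_of_lt_of_le hδpos hnp
      have hkp : C.kap p t ≤ C.R t / (s₀ * β₃ * d) := by
        rw [C.kap_eq p t, div_le_div_iff₀ (by positivity) hδpos]
        have h5 := C.D_le_norm p t
        have h6 : C.D p t * (s₀ * β₃ * d) ≤ ‖C.x t - p‖ * ‖C.x t - p‖ :=
          mul_le_mul h5 hnp hδpos.le (norm_nonneg _)
        calc C.R t * C.D p t * (s₀ * β₃ * d) = C.R t * (C.D p t * (s₀ * β₃ * d)) := by ring
          _ ≤ C.R t * (‖C.x t - p‖ * ‖C.x t - p‖) := mul_le_mul_of_nonneg_left h6 hR.le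
          _ = C.R t * ‖C.x t - p‖ ^ 2 := by ring
      have h7 : C.R t / (s₀ * β₃ * d) = CN * (C.R t * β₃ / (4 * d)) := by
        rw [hCN]
        field_simp
      have h8 : C.kap p t ≤ CN * C.kap ζ t := by
        rw [h7] at hkp
        exact hkp.trans (mul_le_mul_of_nonneg_left hkζ hCNpos.le)
      have h9 : ‖B (C.x t)‖ * C.kap p t ≤ 1 * C.kap p t :=
        mul_le_mul_of_nonneg_right (hB1 _ (C.x_mem_K t)) hkp0
      have h10 : 0 ≤ (1 / 63) * C.kap p t := by positivity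
      linarith
  -- regularity
  set P : ℂ[X] := f - Polynomial.C a₀ with hP
  have hPe : ∀ w, P.eval w = f.eval w - a₀ := by
    intro w; simp [hP]
  obtain ⟨L₀, hL₀⟩ := C.poly_lip P
  have hP4 : ∀ w ∈ C.K, ‖P.eval w‖ ≤ 4 := by
    intro w hw
    rw [hPe]
    have h4 := hf w hw
    have h5 := norm_sub_le (f.eval w) a₀
    linarith
  set G : ℂ → ℂ := fun w => P.eval w * B w with hG
  have hdiff : DiffContOnCl ℂ G C.Om := by
    apply DifferentiableOn.diffContOnCl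
    intro w hw
    have hwK := C.closure_Om_subset hw
    refine DifferentiableAt.differentiableWithinAt ?_
    refine (P.differentiable.differentiableAt).mul ?_
    exact (differentiableAt_const _).div (differentiableAt_id.sub_const q) (hne w hwK)
  have hBlip : ∀ x₁ ∈ C.K, ∀ x₂ ∈ C.K, ‖B x₁ - B x₂‖ ≤ (1 / a') * ‖x₁ - x₂‖ := by
    intro x₁ hx₁ x₂ hx₂
    have h4 : B x₁ - B x₂ = (a' : ℂ) * (x₂ - x₁) / ((x₁ - q) * (x₂ - q)) := by
      simp only [hB]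
      rw [div_sub_div _ _ (hne x₁ hx₁) (hne x₂ hx₂)]
      congr 1
      ring
    rw [h4, norm_div, norm_mul, norm_mul, Complex.norm_real, Real.norm_of_nonneg ha'pos.le,
      norm_sub_rev x₂ x₁]
    have h5 := hF1 x₁ hx₁
    have h6 := hF1 x₂ hx₂
    rw [div_le_iff₀ (mul_pos (lt_of_lt_of_le ha'pos h5) (lt_of_lt_of_le ha'pos h6))]
    have h7 : a' * a' ≤ ‖x₁ - q‖ * ‖x₂ - q‖ := mul_le_mul h5 h6 ha'pos.le (norm_nonneg _)
    have h8 : a' = (1 / a') * ‖x₁ - x₂‖ * (a' * a') / ‖x₁ - x₂‖ ∨ ‖x₁ - x₂‖ = 0 := by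
      by_cases h9 : ‖x₁ - x₂‖ = 0
      · exact Or.inr h9
      · left; field_simp
    have h9 : a' * ‖x₁ - x₂‖ = (1 / a') * ‖x₁ - x₂‖ * (a' * a') := by
      field_simp
    rw [h9]
    exact mul_le_mul_of_nonneg_left h7 (by positivity)
  have hGlip : ∀ x₁ ∈ C.K, ∀ x₂ ∈ C.K, ‖G x₁ - G x₂‖ ≤ (L₀ + 4 * (1 / a')) * ‖x₁ - x₂‖ := by
    intro x₁ hx₁ x₂ hx₂
    have h4 : G x₁ - G x₂ = (P.eval x₁ - P.eval x₂) * B x₁ + P.eval x₂ * (B x₁ - B x₂) := by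
      simp only [hG]; ring
    rw [h4]
    refine (norm_add_le _ _).trans ?_
    rw [norm_mul, norm_mul]
    have h5 : ‖P.eval x₁ - P.eval x₂‖ * ‖B x₁‖ ≤ L₀ * ‖x₁ - x₂‖ := by
      calc ‖P.eval x₁ - P.eval x₂‖ * ‖B x₁‖ ≤ ‖P.eval x₁ - P.eval x₂‖ * 1 :=
            mul_le_mul_of_nonneg_left (hB1 x₁ hx₁) (norm_nonneg _)
        _ ≤ L₀ * ‖x₁ - x₂‖ := by rw [mul_one]; exact hL₀ x₁ hx₁ x₂ hx₂
    have h6 : ‖P.eval x₂‖ * ‖B x₁ - B x₂‖ ≤ 4 * ((1 / a') * ‖x₁ - x₂‖) :=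
      mul_le_mul (hP4 x₂ hx₂) (hBlip x₁ hx₁ x₂ hx₂) (norm_nonneg _) (by norm_num)
    nlinarith
  have hmain := hY G hdiff _ hGlip p hpOm
  -- integrate
  set φ₂ : ℝ → ℝ := fun t => ‖f.eval (C.x t) - a₀‖ with hφ₂
  have hcx : Continuous fun t => f.eval (C.x t) := f.continuous.comp C.cont_x
  have hc₂ : Continuous φ₂ := (hcx.sub continuous_const).norm
  have hl2 := C.l1_bound tζ hc₂ he h2
  have hkζ := C.intervalIntegrable_kap_x tζ 0 (2 * π)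
  have hkp := C.intervalIntegrable_kap_Om hpOm 0 (2 * π)
  have hi2 : IntervalIntegrable (fun t => φ₂ t * C.kap ζ t) volume 0 (2 * π) :=
    hkζ.continuousOn_mul hc₂.continuousOn
  have hGc : Continuous fun t => ‖G (C.x t)‖ := by
    have : ContinuousOn B (C.K) := by
      intro w hw
      refine ContinuousAt.continuousWithinAt ?_
      exact continuousAt_const.div (continuousAt_id.sub continuousAt_const) (hne w hw)
    have h4 : Continuous fun t => B (C.x t) :=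
      this.comp_continuous C.cont_x C.x_mem_K
    exact (((P.continuous.comp C.cont_x).mul h4)).norm
  have hL' : IntervalIntegrable (fun t => ‖G (C.x t)‖ * C.kap p t) volume 0 (2 * π) :=
    hkp.continuousOn_mul hGc.continuousOn
  have hπ := Real.pi_pos
  have hmono : ∫ t in (0:ℝ)..(2 * π), ‖G (C.x t)‖ * C.kap p t
      ≤ ∫ t in (0:ℝ)..(2 * π), (CN * (φ₂ t * C.kap ζ t) + (4 / 63) * C.kap p t) := by
    refine intervalIntegral.integral_mono_on (by positivity) hL'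
      ((hi2.const_mul _).add (hkp.const_mul _)) (fun t _ => ?_)
    have h4 := hF6 t
    have h5 := hP4 _ (C.x_mem_K t)
    have h6 : ‖G (C.x t)‖ * C.kap p t = φ₂ t * (‖B (C.x t)‖ * C.kap p t) := by
      simp only [hG, hφ₂]
      rw [norm_mul, hPe]
      ring
    rw [h6]
    have h7 : φ₂ t * (‖B (C.x t)‖ * C.kap p t) ≤ φ₂ t * (CN * C.kap ζ t + (1 / 63) * C.kap p t) :=
      mul_le_mul_of_nonneg_left h4 (norm_nonneg _)
    refine h7.trans ?_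
    have h8 : φ₂ t ≤ 4 := by
      simp only [hφ₂]
      rw [← hPe]
      exact h5
    have h9 := C.kap_nonneg hpK t
    nlinarith
  rw [intervalIntegral.integral_add (hi2.const_mul _) (hkp.const_mul _),
    intervalIntegral.integral_const_mul, intervalIntegral.integral_const_mul,
    C.integral_kap_Om hpOm] at hmono
  have h10 : ‖G p‖ ≤ CN * e + 8 / 63 := by
    refine hmain.trans ?_
    have h11 := mul_le_mul_of_nonneg_left hmono (by positivity : 0 ≤ 1 / π)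
    refine h11.trans ?_
    have h12 : (1 / π) * (CN * (∫ t in (0:ℝ)..(2 * π), φ₂ t * C.kap ζ t) + 4 / 63 * (2 * π))
        = CN * ((1 / π) * ∫ t in (0:ℝ)..(2 * π), φ₂ t * C.kap ζ t) + 8 / 63 := by
      field_simp
      ring
    rw [h12]
    have h13 := mul_le_mul_of_nonneg_left hl2 hCNpos.le
    linarith
  have h14 : ‖G p‖ = ‖f.eval p - a₀‖ * ‖B p‖ := by
    simp only [hG]
    rw [norm_mul, hPe]
  rw [h14] at h10
  have h15 : ‖f.eval p - a₀‖ * (1 / 2) ≤ ‖f.eval p - a₀‖ * ‖B p‖ :=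
    mul_le_mul_of_nonneg_left hBp (norm_nonneg _)
  linarith

lemma fat_symm {β L : ℝ} {z ζ u v : ℂ} (hF : Fat β L z ζ u v) : Fat β (L + 1) ζ z v u := by
  have hd : ‖z - ζ‖ = ‖ζ - z‖ := norm_sub_rev _ _
  have hre : ∀ w : ℂ, ((w - ζ) * conj (z - ζ)).re = -((w - z) * conj (ζ - z)).re + ‖ζ - z‖ ^ 2 := by
    intro w
    rw [← Complex.normSq_eq_norm_sq, Complex.normSq_apply]
    simp only [Complex.mul_re, Complex.conj_re, Complex.conj_im, Complex.sub_re,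
      Complex.sub_im]
    ring
  have him : ∀ w : ℂ, ((w - ζ) * conj (z - ζ)).im = -((w - z) * conj (ζ - z)).im := by
    intro w
    simp only [Complex.mul_im, Complex.conj_re, Complex.conj_im, Complex.sub_re,
      Complex.sub_im]
    ring
  have hre2 : ∀ w : ℂ, |((w - z) * conj (ζ - z)).re| ≤ L * ‖ζ - z‖ ^ 2 →
      |((w - ζ) * conj (z - ζ)).re| ≤ (L + 1) * ‖z - ζ‖ ^ 2 := by
    intro w hw
    rw [hre, hd]
    have h1 := abs_le.1 hw
    have h2 : 0 ≤ ‖ζ - z‖ ^ 2 := by positivity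
    rw [abs_le]
    constructor <;> nlinarith
  refine ⟨hF.ne.symm, ?_, ?_, hre2 v hF.v2, hre2 u hF.u2⟩
  · rw [him, hd]; linarith [hF.v1]
  · rw [him, hd]; linarith [hF.u1]

/-- **The fat chord lemma.**  (`YPrime` is taken as a hypothesis.) -/
theorem lemmaW (hY : C.YPrimeStatement) (f : ℂ[X]) (hf : ∀ p ∈ C.K, ‖f.eval p‖ ≤ 2) {tz tζ : ℝ} {u v a₀ : ℂ}
    (hu : u ∈ C.K) (hv : v ∈ C.K)
    (hfat : SCurve.Fat ((9 / 8 : ℝ) * (10:ℝ) ^ (-6 : ℤ)) 80000 (C.x tz) (C.x tζ) u v)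
    (ha₀ : 1 / 2 ≤ ‖a₀‖) (ha₀' : ‖a₀‖ ≤ 2)
    (h1 : C.LR (fun s => ‖f.eval (C.x s) + a₀‖ ^ 2) tz ≤ (10:ℝ) ^ (-104 : ℤ))
    (h2 : C.LR (fun s => ‖f.eval (C.x s) - a₀‖ ^ 2) tζ ≤ (10:ℝ) ^ (-104 : ℤ)) : False := by
  set β : ℝ := (9 / 8 : ℝ) * (10:ℝ) ^ (-6 : ℤ) with hβdef
  have hβval : β = 9 / 8000000 := by rw [hβdef]; norm_num
  obtain ⟨β₃, hβ₃⟩ : ∃ β₃ : ℝ, β₃ = 9 / (8000000 * 320004) := ⟨_, rfl⟩
  obtain ⟨s₀, hs₀⟩ : ∃ s₀ : ℝ, s₀ = β₃ / 64 := ⟨_, rfl⟩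
  obtain ⟨e, he⟩ : ∃ e : ℝ, e = (10:ℝ) ^ (-52 : ℤ) := ⟨_, rfl⟩
  have hepos : 0 < e := by rw [he]; positivity
  have he2 : e ^ 2 = (10:ℝ) ^ (-104 : ℤ) := by
    rw [he, ← zpow_natCast, ← zpow_mul]
    norm_num
  rw [← he2] at h1 h2
  have h30 : 0 < β₃ := by rw [hβ₃]; norm_num
  have h3 : β₃ ≤ 1 / 2 := by rw [hβ₃]; norm_num
  have hβ0 : 0 ≤ β := by rw [hβval]; norm_num
  have hL1 : ((80000:ℝ) + 1) * β₃ ≤ β / 2 := by rw [hβ₃, hβval]; norm_num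
  have hL2 : ((80000:ℝ) + 1 + 1) * β₃ ≤ β / 2 := by rw [hβ₃, hβval]; norm_num
  have hs : β₃ < (3 / 10) * β := by rw [hβ₃, hβval]; norm_num
  have hs0pos : 0 < s₀ := by rw [hs₀]; positivity
  have hs1 : s₀ ≤ 1 - s₀ := by rw [hs₀, hβ₃]; norm_num
  have hs2 : s₀ * β₃ ≤ (3 / 10) * β := by rw [hs₀, hβ₃, hβval]; norm_num
  set z := C.x tz with hz
  set ζ := C.x tζ with hζ
  have hzK : z ∈ C.K := C.x_mem_K tz
  have hζK : ζ ∈ C.K := C.x_mem_K tζ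
  have hdpos : 0 < ‖ζ - z‖ := norm_pos_iff.2 (sub_ne_zero.2 hfat.ne.symm)
  have hF' := fat_symm hfat
  have hdep : ∀ σ, s₀ ≤ σ → σ ≤ 1 - s₀ → ∀ t, s₀ * β₃ * ‖ζ - z‖ ≤ C.D (pt z ζ σ) t := by
    intro σ h4 h5 t
    rw [pt_eq]
    exact C.chord_depth h30.le h3 hL1 hβ0 hzK hζK hu hv hfat hs0pos.le h4 h5 hs2 t
  have hdep' : ∀ t, s₀ * β₃ * ‖z - ζ‖ ≤ C.D (pt ζ z s₀) t := by
    intro t
    rw [pt_eq]
    exact C.chord_depth h30.le h3 hL2 hβ0 hζK hzK hv hu hF' hs0pos.le le_rfl hs1 hs2 t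
  have hE1 := C.end_estimate hY f hf ha₀' hepos h2 h30 h3 hL1 hβ0 hu hv hfat hs hs₀
    (hdep s₀ le_rfl hs1)
  have h1' : C.LR (fun s => ‖f.eval (C.x s) - (-a₀)‖ ^ 2) tz ≤ e ^ 2 := by
    simpa only [sub_neg_eq_add] using h1
  have hE2 := C.end_estimate (a₀ := -a₀) hY f hf (by rwa [norm_neg]) hepos h1' h30 h3 hL2 hβ0 hv hu hF' hs hs₀
    hdep'
  have hpsym : pt ζ z s₀ = pt z ζ (1 - s₀) := by
    have := pt_symm z ζ (1 - s₀)
    rwa [sub_sub_cancel] at this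
  rw [hpsym, sub_neg_eq_add] at hE2
  have hnum : 2 * (4 / (s₀ * β₃ ^ 2) * e) + 16 / 63 < 1 / 2 := by
    rw [hs₀, hβ₃, he]
    norm_num
  -- intermediate value
  set ψ : ℝ → ℝ := fun s => ‖f.eval (pt z ζ s) - a₀‖ - ‖f.eval (pt z ζ s) + a₀‖ with hψ
  have hptc : Continuous fun s : ℝ => pt z ζ s := by
    unfold pt
    fun_prop
  have hψc : Continuous ψ := by
    have h4 : Continuous fun s : ℝ => f.eval (pt z ζ s) := f.continuous.comp hptc
    exact ((h4.sub continuous_const).norm).sub ((h4.add continuous_const).norm)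
  have htri : ∀ w : ℂ, 2 * ‖a₀‖ ≤ ‖w - a₀‖ + ‖w + a₀‖ := by
    intro w
    have h4 : ‖(w + a₀) - (w - a₀)‖ ≤ ‖w + a₀‖ + ‖w - a₀‖ := norm_sub_le _ _
    have h5 : (w + a₀) - (w - a₀) = (2 : ℂ) * a₀ := by ring
    rw [h5, norm_mul] at h4
    simp only [Complex.norm_ofNat] at h4
    linarith
  have hψ1 : ψ s₀ ≤ 0 := by
    have := htri (f.eval (pt z ζ s₀))
    simp only [hψ]
    linarith
  have hψ2 : 0 ≤ ψ (1 - s₀) := by
    have := htri (f.eval (pt z ζ (1 - s₀)))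
    simp only [hψ]
    linarith
  obtain ⟨s, ⟨hs3, hs4⟩, hs5⟩ := intermediate_value_Icc hs1 hψc.continuousOn ⟨hψ1, hψ2⟩
  have hδ : 0 < s₀ * β₃ * ‖ζ - z‖ := by positivity
  have hmid := C.mid_estimate hY f hf ha₀' hepos h1 h2 (by linarith : 0 ≤ s) (by linarith : s ≤ 1) hδ
    (hdep s hs3 hs4)
  have hr : ‖f.eval (pt z ζ s) - a₀‖ = ‖f.eval (pt z ζ s) + a₀‖ := by
    simp only [hψ] at hs5
    linarith
  have hr2 := htri (f.eval (pt z ζ s))
  rw [norm_mul, ← hr] at hmid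
  have hr3 : 1 / 2 ≤ ‖f.eval (pt z ζ s) - a₀‖ := by linarith
  have hr4 : 1 / 4 ≤ ‖f.eval (pt z ζ s) - a₀‖ * ‖f.eval (pt z ζ s) - a₀‖ := by nlinarith
  have hq : ‖ζ - z‖ / (s₀ * β₃ * ‖ζ - z‖) = 1 / (s₀ * β₃) := by
    field_simp
  rw [hq] at hmid
  have hnum2 : 4 * (1 + 1 / (s₀ * β₃)) ^ 2 * e < 1 / 4 := by
    rw [hs₀, hβ₃, he]
    norm_num
  linarith

end SCurve
end Vale.Agent.Lib.P123.U
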