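import Vale.Agent.Lib.P123.U.Defs

/-!
# Pointwise lower bound for `A1 + A2`, with the fat chord lemma as a hypothesis.

All on `J = (t0, t0 + 2π)`, `z = x t0`, `r t = ‖x t - z‖`.
-/

open Complex MeasureTheory Set Filter Topology Polynomial ComplexConjugate
open scoped Real

namespace Vale.Agent.Lib.P123.U
namespace SCurve

variable (C : SCurve)

/-- distance to the base point -/
noncomputable def rr (t0 t : ℝ) : ℝ := ‖C.x t - C.x t0‖

lemma rr_nonneg (t0 t : ℝ) : 0 ≤ C.rr t0 t := norm_nonneg _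

lemma cont_rr (t0 : ℝ) : Continuous (C.rr t0) := by
  unfold rr
  exact (C.cont_x.sub continuous_const).norm

lemma rr_sq (t0 t : ℝ) : C.rr t0 t ^ 2 = C.D (C.x t0) t ^ 2 + C.T (C.x t0) t ^ 2 :=
  C.normSq_sub _ _

lemma D_le_rr (t0 t : ℝ) : C.D (C.x t0) t ≤ C.rr t0 t := C.D_le_norm _ _

lemma rr_pos {t0 t : ℝ} (h0 : t0 < t) (h1 : t < t0 + 2 * π) : 0 < C.rr t0 t :=
  lt_of_lt_of_le (C.D_x_pos h0 h1) (C.D_le_rr t0 t)

/-- polar form of a complex number in the right half plane -/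
lemma polar_aux {D T r : ℝ} (hD : 0 < D) (hr : 0 ≤ r) (h : r ^ 2 = D ^ 2 + T ^ 2) :
    (D : ℂ) + I * (T : ℂ) = (r : ℂ) * exp (I * (Real.arctan (T / D) : ℝ)) := by
  set w := T / D with hw
  have hT : T = D * w := by rw [hw]; field_simp
  have hs : 0 < Real.sqrt (1 + w ^ 2) := Real.sqrt_pos.2 (by positivity)
  have hr2 : r = D * Real.sqrt (1 + w ^ 2) := by
    have h1 : r ^ 2 = (D * Real.sqrt (1 + w ^ 2)) ^ 2 := by
      rw [mul_pow, Real.sq_sqrt (by positivity), h, hT]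
      ring
    exact (pow_left_inj₀ hr (by positivity) (by norm_num)).1 h1
  have e1 : exp (I * (Real.arctan w : ℝ)) =
      ((Real.cos (Real.arctan w) : ℝ) : ℂ) + ((Real.sin (Real.arctan w) : ℝ) : ℂ) * I := by
    rw [mul_comm, Complex.exp_mul_I]
    push_cast
    rfl
  rw [e1, Real.cos_arctan, Real.sin_arctan]
  apply Complex.ext
  · simp only [Complex.add_re, Complex.mul_re, Complex.ofReal_re, Complex.I_re, Complex.ofReal_im,
      Complex.I_im, Complex.mul_im, Complex.add_im]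
    rw [hr2]
    field_simp
    ring
  · simp only [Complex.add_re, Complex.mul_re, Complex.ofReal_re, Complex.I_re, Complex.ofReal_im,
      Complex.I_im, Complex.mul_im, Complex.add_im]
    rw [hr2, hT]
    field_simp
    ring

/-- polar form of a chord from the base point -/
lemma polar {t0 t : ℝ} (h0 : t0 < t) (h1 : t < t0 + 2 * π) :
    C.x t - C.x t0 = (C.rr t0 t : ℂ) * exp (I * (C.phi (C.x t0) t : ℝ)) := by
  have hD := C.D_x_pos h0 h1
  have h2 := polar_aux hD (C.rr_nonneg t0 t) (C.rr_sq t0 t)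
  rw [C.x_sub_eq, h2]
  have e : I * ((C.phi (C.x t0) t : ℝ) : ℂ) = I * t + I * (Real.arctan (C.T (C.x t0) t / C.D (C.x t0) t) : ℝ) := by
    simp only [phi, ang]
    push_cast
    ring
  rw [e, Complex.exp_add]
  ring

/-- product of a chord with the conjugate of another chord -/
lemma polar_pair {t0 a b : ℝ} (ha0 : t0 < a) (ha1 : a < t0 + 2 * π) (hb0 : t0 < b) (hb1 : b < t0 + 2 * π) :
    (C.x b - C.x t0) * conj (C.x a - C.x t0) =
      ((C.rr t0 a * C.rr t0 b : ℝ) : ℂ) * exp (((C.phi (C.x t0) b - C.phi (C.x t0) a : ℝ) : ℂ) * I) := by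
  rw [C.polar hb0 hb1, C.polar ha0 ha1]
  have e1 : conj (exp (I * ((C.phi (C.x t0) a : ℝ) : ℂ))) = exp (-(I * ((C.phi (C.x t0) a : ℝ) : ℂ))) := by
    rw [← Complex.exp_conj]
    congr 1
    simp
  rw [map_mul, e1, Complex.conj_ofReal]
  have e2 : ((C.phi (C.x t0) b - C.phi (C.x t0) a : ℝ) : ℂ) * I =
      I * ((C.phi (C.x t0) b : ℝ) : ℂ) + -(I * ((C.phi (C.x t0) a : ℝ) : ℂ)) := by
    push_cast
    ring
  rw [e2, Complex.exp_add]
  push_cast
  ring

lemma polar_im {t0 a b : ℝ} (ha0 : t0 < a) (ha1 : a < t0 + 2 * π) (hb0 : t0 < b) (hb1 : b < t0 + 2 * π) :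
    ((C.x b - C.x t0) * conj (C.x a - C.x t0)).im =
      C.rr t0 a * C.rr t0 b * Real.sin (C.phi (C.x t0) b - C.phi (C.x t0) a) := by
  rw [C.polar_pair ha0 ha1 hb0 hb1, Complex.im_ofReal_mul, Complex.exp_ofReal_mul_I_im]

lemma polar_re {t0 a b : ℝ} (ha0 : t0 < a) (ha1 : a < t0 + 2 * π) (hb0 : t0 < b) (hb1 : b < t0 + 2 * π) :
    ((C.x b - C.x t0) * conj (C.x a - C.x t0)).re =
      C.rr t0 a * C.rr t0 b * Real.cos (C.phi (C.x t0) b - C.phi (C.x t0) a) := by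
  rw [C.polar_pair ha0 ha1 hb0 hb1, Complex.re_ofReal_mul, Complex.exp_ofReal_mul_I_re]

/-! ### `phi` and the kernel -/

lemma phi_sub_eq {t0 a b : ℝ} (ha0 : t0 < a) (hab : a ≤ b) (hb1 : b < t0 + 2 * π) :
    ∫ t in a..b, C.kap (C.x t0) t = C.phi (C.x t0) b - C.phi (C.x t0) a := by
  apply intervalIntegral.integral_eq_sub_of_hasDerivAt
  · intro t ht
    rw [uIcc_of_le hab] at ht
    exact C.hasDerivAt_phi (C.D_x_pos (by linarith [ht.1]) (by linarith [ht.2]))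
  · exact C.intervalIntegrable_kap_x t0 a b

lemma kap_x_nonneg (t0 t : ℝ) : 0 ≤ C.kap (C.x t0) t := C.kap_nonneg (C.x_mem_K t0) t

lemma phi_mono {t0 a b : ℝ} (ha0 : t0 < a) (hab : a ≤ b) (hb1 : b < t0 + 2 * π) :
    C.phi (C.x t0) a ≤ C.phi (C.x t0) b := by
  have h := C.phi_sub_eq ha0 hab hb1
  have h2 : 0 ≤ ∫ t in a..b, C.kap (C.x t0) t :=
    intervalIntegral.integral_nonneg hab fun t _ => C.kap_x_nonneg t0 t
  linarith

lemma phi_sub_le_pi {t0 a b : ℝ} (ha0 : t0 < a) (hab : a ≤ b) (hb1 : b < t0 + 2 * π) :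
    C.phi (C.x t0) b - C.phi (C.x t0) a ≤ π := by
  rw [← C.phi_sub_eq ha0 hab hb1, ← C.integral_kap_x t0]
  apply intervalIntegral.integral_mono_interval ha0.le hab hb1.le
  · exact Eventually.of_forall fun t => C.kap_x_nonneg t0 t
  · exact C.intervalIntegrable_kap_x t0 _ _

/-! ### levels -/

/-- the mass of `F` on `(t0, t)`, in angle units -/
noncomputable def Gp (t0 : ℝ) (F : Set ℝ) (t : ℝ) : ℝ := ∫ τ in t0..t, F.indicator (C.kap (C.x t0)) τ

/-- the total mass of `F`, in angle units -/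
noncomputable def massZ (t0 : ℝ) (F : Set ℝ) : ℝ := C.Gp t0 F (t0 + 2 * π)

lemma abs_indicator_le (t0 : ℝ) (F : Set ℝ) (t : ℝ) : |F.indicator (C.kap (C.x t0)) t| ≤ C.kb := by
  by_cases h : t ∈ F
  · rw [indicator_of_mem h]; exact C.abs_kap_x_le t0 t
  · rw [indicator_of_notMem h, abs_zero]; exact C.kb_pos.le

lemma intervalIntegrable_ind (t0 : ℝ) {F : Set ℝ} (hF : MeasurableSet F) (a b : ℝ) :
    IntervalIntegrable (F.indicator (C.kap (C.x t0))) volume a b :=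
  intervalIntegrable_of_bdd ((C.measurable_kap _).indicator hF) (C.abs_indicator_le t0 F) a b

lemma ind_nonneg (t0 : ℝ) (F : Set ℝ) (t : ℝ) : 0 ≤ F.indicator (C.kap (C.x t0)) t :=
  indicator_nonneg (fun t _ => C.kap_x_nonneg t0 t) t

lemma ind_le (t0 : ℝ) (F : Set ℝ) (t : ℝ) : F.indicator (C.kap (C.x t0)) t ≤ C.kap (C.x t0) t := by
  by_cases h : t ∈ F
  · rw [indicator_of_mem h]
  · rw [indicator_of_notMem h]; exact C.kap_x_nonneg t0 t

lemma cont_Gp (t0 : ℝ) {F : Set ℝ} (hF : MeasurableSet F) : Continuous (C.Gp t0 F) :=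
  intervalIntegral.continuous_primitive (fun a b => C.intervalIntegrable_ind t0 hF a b) t0

lemma Gp_self (t0 : ℝ) (F : Set ℝ) : C.Gp t0 F t0 = 0 := by simp [Gp]

lemma Gp_sub (t0 : ℝ) {F : Set ℝ} (hF : MeasurableSet F) (a b : ℝ) :
    C.Gp t0 F b - C.Gp t0 F a = ∫ τ in a..b, F.indicator (C.kap (C.x t0)) τ := by
  unfold Gp
  rw [intervalIntegral.integral_interval_sub_left (C.intervalIntegrable_ind t0 hF _ _)
    (C.intervalIntegrable_ind t0 hF _ _)]

lemma Gp_mono (t0 : ℝ) {F : Set ℝ} (hF : MeasurableSet F) {a b : ℝ} (hab : a ≤ b) :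
    C.Gp t0 F a ≤ C.Gp t0 F b := by
  have h := C.Gp_sub t0 hF a b
  have h2 : 0 ≤ ∫ τ in a..b, F.indicator (C.kap (C.x t0)) τ :=
    intervalIntegral.integral_nonneg hab fun t _ => C.ind_nonneg t0 F t
  linarith

lemma Gp_lt_imp (t0 : ℝ) {F : Set ℝ} (hF : MeasurableSet F) {a b : ℝ}
    (h : C.Gp t0 F a < C.Gp t0 F b) : a < b := by
  by_contra hcon
  exact absurd (C.Gp_mono t0 hF (not_lt.mp hcon)) (not_le.mpr h)

/-- the mass of a piece is bounded by the angle increment -/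
lemma Gp_gap {t0 a b : ℝ} {F : Set ℝ} (hF : MeasurableSet F) (ha0 : t0 < a) (hab : a ≤ b)
    (hb1 : b < t0 + 2 * π) :
    C.Gp t0 F b - C.Gp t0 F a ≤ C.phi (C.x t0) b - C.phi (C.x t0) a := by
  rw [C.Gp_sub t0 hF, ← C.phi_sub_eq ha0 hab hb1]
  exact intervalIntegral.integral_mono_on hab (C.intervalIntegrable_ind t0 hF _ _)
    (C.intervalIntegrable_kap_x t0 _ _) fun t _ => C.ind_le t0 F t

lemma two_pi_pos' : (0:ℝ) < 2 * π := by positivity

/-- existence of a level -/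
lemma exists_level (t0 : ℝ) {F : Set ℝ} (hF : MeasurableSet F) {α : ℝ} (h0 : 0 ≤ α)
    (h1 : α ≤ C.massZ t0 F) : ∃ τ ∈ Icc t0 (t0 + 2 * π), C.Gp t0 F τ = α := by
  have hle : t0 ≤ t0 + 2 * π := by linarith [two_pi_pos']
  have := intermediate_value_Icc hle (C.cont_Gp t0 hF).continuousOn
  have hm : α ∈ Icc (C.Gp t0 F t0) (C.Gp t0 F (t0 + 2 * π)) := by
    rw [C.Gp_self]
    exact ⟨h0, h1⟩
  obtain ⟨τ, hτ, hτ2⟩ := this hm
  exact ⟨τ, hτ, hτ2⟩

/-- a set of positive mass on an interval has a point in the open interval -/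
lemma exists_mem_of_integral_pos (t0 : ℝ) {F : Set ℝ} (hF : MeasurableSet F) {u v : ℝ}
    (huv : u ≤ v) (h : 0 < ∫ τ in u..v, F.indicator (C.kap (C.x t0)) τ) :
    ∃ y ∈ F, y ∈ Ioo u v := by
  by_contra hcon
  push Not at hcon
  have h0 : ∫ τ in u..v, F.indicator (C.kap (C.x t0)) τ ≤ ∫ τ in u..v, (0:ℝ) := by
    apply intervalIntegral.integral_mono_on_of_le_Ioo huv (C.intervalIntegrable_ind t0 hF _ _)
      intervalIntegrable_const
    intro t ht
    have : t ∉ F := fun hm => by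
      have := hcon t hm
      exact this ht
    rw [indicator_of_notMem this]
  simp at h0
  linarith

/-- a point of `F` with a prescribed level -/
lemma exists_mem_level (t0 : ℝ) {F : Set ℝ} (hF : MeasurableSet F) {α β : ℝ} (h0 : 0 ≤ α)
    (hlt : α < β) (h1 : β ≤ C.massZ t0 F) :
    ∃ y ∈ F, t0 < y ∧ y < t0 + 2 * π ∧ α ≤ C.Gp t0 F y ∧ C.Gp t0 F y ≤ β := by
  obtain ⟨u, hu, hu2⟩ := C.exists_level t0 hF h0 (hlt.le.trans h1)
  obtain ⟨v, hv, hv2⟩ := C.exists_level t0 hF (h0.trans hlt.le) h1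
  have huv : u ≤ v := by
    have : C.Gp t0 F u < C.Gp t0 F v := by rw [hu2, hv2]; exact hlt
    exact (C.Gp_lt_imp t0 hF this).le
  have hpos : 0 < ∫ τ in u..v, F.indicator (C.kap (C.x t0)) τ := by
    rw [← C.Gp_sub t0 hF, hu2, hv2]
    linarith
  obtain ⟨y, hy, hy2⟩ := C.exists_mem_of_integral_pos t0 hF huv hpos
  refine ⟨y, hy, by linarith [hu.1, hy2.1], by linarith [hv.2, hy2.2], ?_, ?_⟩
  · rw [← hu2]; exact C.Gp_mono t0 hF hy2.1.le
  · rw [← hv2]; exact C.Gp_mono t0 hF hy2.2.le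


/-! ### masses -/

lemma sin_ge_of_mem {δ θ : ℝ} (h0 : 0 ≤ δ) (h1 : δ ≤ π / 2) (h2 : δ ≤ θ) (h3 : θ ≤ π - δ) :
    Real.sin δ ≤ Real.sin θ := by
  by_cases h : θ ≤ π / 2
  · exact Real.sin_le_sin_of_le_of_le_pi_div_two (by linarith) h h2
  · push Not at h
    rw [← Real.sin_pi_sub θ]
    exact Real.sin_le_sin_of_le_of_le_pi_div_two (by linarith) (by linarith) (by linarith)

lemma massZ_mono (t0 : ℝ) {F F' : Set ℝ} (hF : MeasurableSet F) (hF' : MeasurableSet F')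
    (h : F ⊆ F') : C.massZ t0 F ≤ C.massZ t0 F' := by
  unfold massZ Gp
  have hle : t0 ≤ t0 + 2 * π := by linarith [two_pi_pos']
  refine intervalIntegral.integral_mono_on hle (C.intervalIntegrable_ind t0 hF _ _)
    (C.intervalIntegrable_ind t0 hF' _ _) fun t _ => ?_
  exact indicator_le_indicator_of_subset h (fun t => C.kap_x_nonneg t0 t) t

lemma massZ_le_pi (t0 : ℝ) {F : Set ℝ} (hF : MeasurableSet F) : C.massZ t0 F ≤ π := by
  rw [← C.integral_kap_x t0]
  unfold massZ Gp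
  have hle : t0 ≤ t0 + 2 * π := by linarith [two_pi_pos']
  exact intervalIntegral.integral_mono_on hle (C.intervalIntegrable_ind t0 hF _ _)
    (C.intervalIntegrable_kap_x t0 _ _) fun t _ => C.ind_le t0 F t

/-- for small `l₁` the set `{r ≤ l₁}` has mass less than half -/
lemma exists_small_scale (t0 : ℝ) : ∃ l₁ : ℝ, 0 < l₁ ∧ C.massZ t0 {t | C.rr t0 t ≤ l₁} < π / 2 := by
  have hkb := C.kb_pos
  have hpi := Real.pi_pos
  set η : ℝ := min 1 (π / (8 * C.kb)) with hη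
  have hη0 : 0 < η := lt_min one_pos (by positivity)
  have hη1 : η ≤ 1 := min_le_left _ _
  have hη2 : η * C.kb ≤ π / 8 := by
    have : η ≤ π / (8 * C.kb) := min_le_right _ _
    calc η * C.kb ≤ π / (8 * C.kb) * C.kb := mul_le_mul_of_nonneg_right this hkb.le
      _ = π / 8 := by field_simp
  have hpi3 := Real.pi_gt_three
  have hsin : 0 < Real.sin (η / 2) := Real.sin_pos_of_pos_of_lt_pi (by linarith) (by linarith)
  refine ⟨C.rho * Real.sin (η / 2), mul_pos C.rho_pos hsin, ?_⟩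
  set F : Set ℝ := {t | C.rr t0 t ≤ C.rho * Real.sin (η / 2)} with hF
  have hFm : MeasurableSet F := (isClosed_le (C.cont_rr t0) continuous_const).measurableSet
  have hsplit : C.massZ t0 F = (∫ τ in t0..(t0 + η), F.indicator (C.kap (C.x t0)) τ) +
      (∫ τ in (t0 + η)..(t0 + 2 * π - η), F.indicator (C.kap (C.x t0)) τ) +
      (∫ τ in (t0 + 2 * π - η)..(t0 + 2 * π), F.indicator (C.kap (C.x t0)) τ) := by
    unfold massZ Gp
    rw [intervalIntegral.integral_add_adjacent_intervals (C.intervalIntegrable_ind t0 hFm _ _)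
      (C.intervalIntegrable_ind t0 hFm _ _),
      intervalIntegral.integral_add_adjacent_intervals (C.intervalIntegrable_ind t0 hFm _ _)
      (C.intervalIntegrable_ind t0 hFm _ _)]
  have h1 : ∫ τ in t0..(t0 + η), F.indicator (C.kap (C.x t0)) τ ≤ η * C.kb := by
    have := intervalIntegral.integral_mono_on (a := t0) (b := t0 + η) (by linarith)
      (C.intervalIntegrable_ind t0 hFm _ _) (intervalIntegrable_const (c := C.kb))
      (fun t _ => (C.ind_le t0 F t).trans (C.kap_x_le t0 t))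
    simpa using this
  have h3 : ∫ τ in (t0 + 2 * π - η)..(t0 + 2 * π), F.indicator (C.kap (C.x t0)) τ ≤ η * C.kb := by
    have := intervalIntegral.integral_mono_on (a := t0 + 2 * π - η) (b := t0 + 2 * π) (by linarith)
      (C.intervalIntegrable_ind t0 hFm _ _) (intervalIntegrable_const (c := C.kb))
      (fun t _ => (C.ind_le t0 F t).trans (C.kap_x_le t0 t))
    simpa using this
  have h2 : ∫ τ in (t0 + η)..(t0 + 2 * π - η), F.indicator (C.kap (C.x t0)) τ ≤ 0 := by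
    have := intervalIntegral.integral_mono_on_of_le_Ioo (a := t0 + η) (b := t0 + 2 * π - η)
      (by linarith) (C.intervalIntegrable_ind t0 hFm _ _) (intervalIntegrable_const (c := (0:ℝ)))
      (fun t ht => by
        have hnot : t ∉ F := by
          intro hm
          have ha := C.norm_x_sub_ge t0 t
          have hb : Real.sin (η / 2) ≤ Real.sin ((t - t0) / 2) :=
            sin_ge_of_mem (by linarith) (by linarith) (by linarith [ht.1]) (by linarith [ht.2])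
          have hc : Real.sin ((t - t0) / 2) ≤ |Real.sin ((t - t0) / 2)| := le_abs_self _
          have hm' : ‖C.x t - C.x t0‖ ≤ C.rho * Real.sin (η / 2) := hm
          have hrho := C.rho_pos
          nlinarith
        rw [indicator_of_notMem hnot])
    simpa using this
  rw [hsplit]
  linarith

/-- for large `l` the set `{r ≤ l}` is everything -/
lemma exists_large_scale (t0 : ℝ) : ∃ l₂ : ℝ, 0 < l₂ ∧ C.massZ t0 {t | C.rr t0 t ≤ l₂} = π := by
  obtain ⟨B, hB⟩ := (isCompact_Icc (a := t0) (b := t0 + 2 * π)).exists_bound_of_continuousOn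
    (C.cont_rr t0).continuousOn
  refine ⟨max B 1, lt_max_of_lt_right one_pos, ?_⟩
  rw [← C.integral_kap_x t0]
  unfold massZ Gp
  have hle : t0 ≤ t0 + 2 * π := by linarith [two_pi_pos']
  apply intervalIntegral.integral_congr
  intro t ht
  rw [uIcc_of_le hle] at ht
  have hm : t ∈ {t | C.rr t0 t ≤ max B 1} := by
    have := hB t ht
    rw [Real.norm_of_nonneg (C.rr_nonneg t0 t)] at this
    exact this.trans (le_max_left _ _)
  simp only [indicator_of_mem hm]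

lemma measurable_rr_le (t0 l : ℝ) : MeasurableSet {t | C.rr t0 t ≤ l} :=
  (isClosed_le (C.cont_rr t0) continuous_const).measurableSet

/-- the dyadic scale -/
lemma exists_scale (t0 : ℝ) : ∃ l₀ : ℝ, 0 < l₀ ∧ π / 2 ≤ C.massZ t0 {t | C.rr t0 t ≤ l₀} ∧
    C.massZ t0 {t | C.rr t0 t ≤ l₀ / 2} < π / 2 := by
  classical
  obtain ⟨l₁, hl₁, hsmall⟩ := C.exists_small_scale t0
  obtain ⟨l₂, hl₂, hlarge⟩ := C.exists_large_scale t0
  have hex : ∃ j : ℕ, π / 2 ≤ C.massZ t0 {t | C.rr t0 t ≤ l₁ * 2 ^ j} := by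
    obtain ⟨j, hj⟩ := pow_unbounded_of_one_lt (l₂ / l₁) (by norm_num : (1:ℝ) < 2)
    refine ⟨j, ?_⟩
    have h1 : l₂ ≤ l₁ * 2 ^ j := by
      rw [div_lt_iff₀ hl₁] at hj
      nlinarith
    have h2 := C.massZ_mono t0 (C.measurable_rr_le t0 l₂) (C.measurable_rr_le t0 (l₁ * 2 ^ j))
      (fun t (ht : C.rr t0 t ≤ l₂) => ht.trans h1)
    rw [hlarge] at h2
    linarith [Real.pi_pos]
  set j := Nat.find hex with hj
  have hj1 := Nat.find_spec hex
  have hj0 : j ≠ 0 := by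
    intro h0
    have : π / 2 ≤ C.massZ t0 {t | C.rr t0 t ≤ l₁ * 2 ^ j} := hj1
    rw [h0, pow_zero, mul_one] at this
    linarith
  obtain ⟨i, hi⟩ := Nat.exists_eq_succ_of_ne_zero hj0
  refine ⟨l₁ * 2 ^ j, by positivity, hj1, ?_⟩
  have hlt : i < j := by omega
  have hnot := Nat.find_min hex hlt
  push Not at hnot
  have e : l₁ * 2 ^ j / 2 = l₁ * 2 ^ i := by
    rw [hi, pow_succ]
    ring
  rw [e]
  exact hnot

/-- Markov selection -/
lemma markov_sel (t0 : ℝ) {S : Set ℝ} (hS : MeasurableSet S) {g : ℝ → ℝ} (hg : ∀ t, 0 ≤ g t)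
    (hgi : IntervalIntegrable (fun t => g t * C.kap (C.x t0) t) volume t0 (t0 + 2 * π))
    {c m : ℝ} (hm : 0 < m)
    (hc : (1 / π) * ∫ t in t0..(t0 + 2 * π), g t * C.kap (C.x t0) t < c)
    (hmass : m * π ≤ C.massZ t0 S) :
    ∃ s ∈ S, t0 < s ∧ s < t0 + 2 * π ∧ g s < c / m := by
  by_contra hcon
  push Not at hcon
  have hpi := Real.pi_pos
  have hle : t0 ≤ t0 + 2 * π := by linarith [two_pi_pos']
  have hI0 : 0 ≤ ∫ t in t0..(t0 + 2 * π), g t * C.kap (C.x t0) t :=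
    intervalIntegral.integral_nonneg hle fun t _ => mul_nonneg (hg t) (C.kap_x_nonneg t0 t)
  have hc0 : 0 < c := lt_of_le_of_lt (by positivity) hc
  have h1 : ∫ t in t0..(t0 + 2 * π), (c / m) * S.indicator (C.kap (C.x t0)) t ≤
      ∫ t in t0..(t0 + 2 * π), g t * C.kap (C.x t0) t := by
    refine intervalIntegral.integral_mono_on_of_le_Ioo hle
      ((C.intervalIntegrable_ind t0 hS _ _).const_mul _) hgi fun t ht => ?_
    by_cases hts : t ∈ S
    · rw [indicator_of_mem hts]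
      exact mul_le_mul_of_nonneg_right (hcon t hts ht.1 ht.2) (C.kap_x_nonneg t0 t)
    · rw [indicator_of_notMem hts, mul_zero]
      exact mul_nonneg (hg t) (C.kap_x_nonneg t0 t)
  rw [intervalIntegral.integral_const_mul] at h1
  have h2 : c * π ≤ (c / m) * C.massZ t0 S := by
    calc c * π = (c / m) * (m * π) := by field_simp
      _ ≤ _ := mul_le_mul_of_nonneg_left hmass (by positivity)
  have h3 : c * π ≤ ∫ t in t0..(t0 + 2 * π), g t * C.kap (C.x t0) t := h2.trans h1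
  have h4 : c ≤ (1 / π) * ∫ t in t0..(t0 + 2 * π), g t * C.kap (C.x t0) t := by
    rw [one_div, ← div_eq_inv_mul, le_div_iff₀ hpi]
    exact h3
  linarith

/-! ### the arc between two directions stays far from the base point -/

/-- linear relation between three planar vectors -/
lemma three_vec (A B Q : ℂ) :
    Q * ((B * conj A).im : ℝ) = A * ((B * conj Q).im : ℝ) + B * ((Q * conj A).im : ℝ) := by
  apply Complex.ext
  · simp
    ring
  · simp
    ring

/-- the arc is far from the base point -/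
lemma arc_lower {t0 a t b : ℝ} (ha0 : t0 < a) (hat : a ≤ t) (htb : t ≤ b) (hb1 : b < t0 + 2 * π) :
    C.rr t0 a * C.rr t0 b * Real.sin (C.phi (C.x t0) b - C.phi (C.x t0) a) ≤
      C.rr t0 t * (C.rr t0 a + C.rr t0 b) := by
  have ht0 : t0 < t := by linarith
  have ht1 : t < t0 + 2 * π := by linarith
  have hb0 : t0 < b := by linarith
  have ha1 : a < t0 + 2 * π := by linarith
  set z := C.x t0 with hz
  set A := C.x a - z with hA
  set B := C.x b - z with hB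
  set Q := C.x t - z with hQ
  set e := exp (-(I * (t : ℂ))) with he
  have hX : (B * conj A).im = C.rr t0 a * C.rr t0 b * Real.sin (C.phi z b - C.phi z a) :=
    C.polar_im ha0 ha1 hb0 hb1
  have hU : (B * conj Q).im = C.rr t0 t * C.rr t0 b * Real.sin (C.phi z b - C.phi z t) :=
    C.polar_im ht0 ht1 hb0 hb1
  have hV : (Q * conj A).im = C.rr t0 a * C.rr t0 t * Real.sin (C.phi z t - C.phi z a) :=
    C.polar_im ha0 ha1 ht0 ht1
  have hq : (e * Q).re = C.D z t := C.D_sub_re z t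
  have hgen : ∀ {w : ℝ}, (e * (C.x w - z)).re ≤ C.D z t := by
    intro w
    have h1 : e * (C.x w - z) = e * (C.x t - z) - e * (C.x t - C.x w) := by ring
    rw [h1, Complex.sub_re, C.D_sub_re z t, C.D_sub_re (C.x w) t]
    linarith [C.x_mem_K w t]
  have hsU : 0 ≤ Real.sin (C.phi z b - C.phi z t) :=
    Real.sin_nonneg_of_nonneg_of_le_pi (by linarith [C.phi_mono ht0 htb hb1])
      (C.phi_sub_le_pi ht0 htb hb1)
  have hsV : 0 ≤ Real.sin (C.phi z t - C.phi z a) :=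
    Real.sin_nonneg_of_nonneg_of_le_pi (by linarith [C.phi_mono ha0 hat ht1])
      (C.phi_sub_le_pi ha0 hat ht1)
  have hra := C.rr_nonneg t0 a
  have hrb := C.rr_nonneg t0 b
  have hrt := C.rr_nonneg t0 t
  have hU0 : 0 ≤ (B * conj Q).im := by rw [hU]; positivity
  have hV0 : 0 ≤ (Q * conj A).im := by rw [hV]; positivity
  have hmain : (e * (Q * ((B * conj A).im : ℝ))).re =
      (e * (A * ((B * conj Q).im : ℝ) + B * ((Q * conj A).im : ℝ))).re := by
    rw [three_vec A B Q]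
  have hre : ∀ (u : ℂ) (r : ℝ), (e * (u * (r : ℂ))).re = (e * u).re * r := by
    intro u r
    rw [← mul_assoc, Complex.re_mul_ofReal]
  rw [mul_add, Complex.add_re, hre, hre, hre, hq] at hmain
  have hD := C.D_x_pos ht0 ht1
  have h1 : C.D z t * (B * conj A).im ≤ C.D z t * ((B * conj Q).im + (Q * conj A).im) := by
    rw [hmain, mul_add]
    exact add_le_add (mul_le_mul_of_nonneg_right hgen hU0) (mul_le_mul_of_nonneg_right hgen hV0)
  have h2 : (B * conj A).im ≤ (B * conj Q).im + (Q * conj A).im := le_of_mul_le_mul_left h1 hD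
  rw [hX, hU, hV] at h2
  have h3 : C.rr t0 t * C.rr t0 b * Real.sin (C.phi z b - C.phi z t) ≤ C.rr t0 t * C.rr t0 b :=
    mul_le_of_le_one_right (by positivity) (Real.sin_le_one _)
  have h4 : C.rr t0 a * C.rr t0 t * Real.sin (C.phi z t - C.phi z a) ≤ C.rr t0 a * C.rr t0 t :=
    mul_le_of_le_one_right (by positivity) (Real.sin_le_one _)
  nlinarith


/-! ### grazing directions -/

lemma hasDerivAt_rr {t0 t : ℝ} (h0 : t0 < t) (h1 : t < t0 + 2 * π) :
    HasDerivAt (C.rr t0) (C.R t * C.T (C.x t0) t / C.rr t0 t) t := by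
  have hpos := C.rr_pos h0 h1
  have e : ∀ u, C.rr t0 u = Real.sqrt (C.D (C.x t0) u ^ 2 + C.T (C.x t0) u ^ 2) := by
    intro u
    rw [← C.rr_sq, Real.sqrt_sq (C.rr_nonneg t0 u)]
  have h2 : HasDerivAt (fun t => C.D (C.x t0) t ^ 2 + C.T (C.x t0) t ^ 2)
      (2 * C.R t * C.T (C.x t0) t) t := by
    have a1 := (C.hasDerivAt_D (C.x t0) t).pow 2
    have a2 := (C.hasDerivAt_T (C.x t0) t).pow 2
    refine (a1.fun_add a2).congr_deriv ?_
    simp
    ring
  have hne : C.D (C.x t0) t ^ 2 + C.T (C.x t0) t ^ 2 ≠ 0 := by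
    rw [← C.rr_sq]
    positivity
  have h3 := h2.sqrt hne
  rw [← e t] at h3
  refine (h3.congr_of_eventuallyEq (Eventually.of_forall e)).congr_deriv ?_
  field_simp

lemma hasDerivAt_inv_rr {t0 t : ℝ} (h0 : t0 < t) (h1 : t < t0 + 2 * π) :
    HasDerivAt (fun t => (C.rr t0 t)⁻¹)
      (-(C.R t * C.T (C.x t0) t / C.rr t0 t) / C.rr t0 t ^ 2) t :=
  (C.hasDerivAt_rr h0 h1).inv (C.rr_pos h0 h1).ne'

lemma ang_step {t0 c e : ℝ} (hc0 : t0 < c) (hce : c ≤ e) (he1 : e < t0 + 2 * π)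
    (hs : C.phi (C.x t0) e - C.phi (C.x t0) c ≤ π / 4) :
    (C.T (C.x t0) c ≤ 0 → C.T (C.x t0) e ≤ C.D (C.x t0) e) ∧
      (0 ≤ C.T (C.x t0) e → -C.T (C.x t0) c ≤ C.D (C.x t0) c) := by
  have hDc := C.D_x_pos hc0 (lt_of_le_of_lt hce he1)
  have hDe := C.D_x_pos (lt_of_lt_of_le hc0 hce) he1
  have hang : C.ang (C.x t0) e - C.ang (C.x t0) c ≤ π / 4 := by
    simp only [phi] at hs
    linarith
  constructor
  · intro hT
    have h1 : C.ang (C.x t0) c ≤ 0 := by
      unfold ang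
      rw [← Real.arctan_zero]
      exact Real.arctan_strictMono.monotone (div_nonpos_of_nonpos_of_nonneg hT hDc.le)
    have h2 : Real.arctan (C.T (C.x t0) e / C.D (C.x t0) e) ≤ Real.arctan 1 := by
      rw [Real.arctan_one]
      have : C.ang (C.x t0) e ≤ π / 4 := by linarith
      exact this
    have h3 := Real.arctan_strictMono.le_iff_le.1 h2
    rwa [div_le_one hDe] at h3
  · intro hT
    have h1 : 0 ≤ C.ang (C.x t0) e := by
      unfold ang
      rw [← Real.arctan_zero]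
      exact Real.arctan_strictMono.monotone (div_nonneg hT hDe.le)
    have h2 : Real.arctan (-1) ≤ Real.arctan (C.T (C.x t0) c / C.D (C.x t0) c) := by
      rw [Real.arctan_neg, Real.arctan_one]
      have : -(π / 4) ≤ C.ang (C.x t0) c := by linarith
      exact this
    have h3 := Real.arctan_strictMono.le_iff_le.1 h2
    rw [le_div_iff₀ hDc] at h3
    linarith

lemma abs_T_ge {t0 t t' : ℝ} (h1 : 0 ≤ C.D (C.x t0) t) (h2 : C.D (C.x t0) t < t')
    (h3 : 4 * t' ≤ C.rr t0 t) : C.rr t0 t / 2 ≤ |C.T (C.x t0) t| := by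
  have hr := C.rr_sq t0 t
  have ht' : 0 < t' := lt_of_le_of_lt h1 h2
  have hpos : 0 < C.rr t0 t := by linarith
  by_contra hcon
  push Not at hcon
  have h4 : C.T (C.x t0) t ^ 2 < (C.rr t0 t / 2) ^ 2 := by
    rw [← sq_abs]
    exact pow_lt_pow_left₀ hcon (abs_nonneg _) two_ne_zero
  have h5 : C.D (C.x t0) t ^ 2 ≤ t' ^ 2 := pow_le_pow_left₀ h1 h2.le 2
  nlinarith

/-- the kernel at a grazing direction -/
lemma kap_graze {t0 t t' : ℝ} (h0 : t0 < t) (h1 : t < t0 + 2 * π) (h2 : C.D (C.x t0) t < t')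
    (h3 : 4 * t' ≤ C.rr t0 t) :
    C.kap (C.x t0) t ≤ 2 * t' * (C.R t * |C.T (C.x t0) t| / C.rr t0 t / C.rr t0 t ^ 2) := by
  have hD := C.D_x_pos h0 h1
  have hr := C.rr_sq t0 t
  have ht' : 0 < t' := lt_trans hD h2
  have hpos : 0 < C.rr t0 t := by linarith
  have hT := C.abs_T_ge hD.le h2 h3
  have hR := C.R_pos t
  unfold kap
  rw [← hr]
  have e : 2 * t' * (C.R t * |C.T (C.x t0) t| / C.rr t0 t / C.rr t0 t ^ 2) =
      C.R t * (2 * t' * |C.T (C.x t0) t| / C.rr t0 t) / C.rr t0 t ^ 2 := by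
    field_simp
  rw [e]
  apply div_le_div_of_nonneg_right _ (by positivity)
  apply mul_le_mul_of_nonneg_left _ hR.le
  rw [le_div_iff₀ hpos]
  nlinarith

lemma measurableSet_plus (t0 t' : ℝ) :
    MeasurableSet {t | C.D (C.x t0) t < t' ∧ 0 < C.T (C.x t0) t} :=
  ((isOpen_lt (C.cont_D _) continuous_const).inter
    (isOpen_lt continuous_const (C.cont_T _))).measurableSet

lemma measurableSet_minus (t0 t' : ℝ) :
    MeasurableSet {t | C.D (C.x t0) t < t' ∧ C.T (C.x t0) t < 0} :=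
  ((isOpen_lt (C.cont_D _) continuous_const).inter
    (isOpen_lt (C.cont_T _) continuous_const)).measurableSet

lemma integrableOn_ind (t0 : ℝ) {F : Set ℝ} (hF : MeasurableSet F) (a b : ℝ) (hab : a ≤ b) :
    IntegrableOn (F.indicator (C.kap (C.x t0))) (Icc a b) := by
  rw [integrableOn_Icc_iff_integrableOn_Ioc, ← intervalIntegrable_iff_integrableOn_Ioc_of_le hab]
  exact C.intervalIntegrable_ind t0 hF a b

/-- grazing directions with `T > 0` -/
lemma graze_plus {t0 a b t' Y : ℝ} (ha0 : t0 < a) (hab : a ≤ b) (hb1 : b < t0 + 2 * π)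
    (hs : C.phi (C.x t0) b - C.phi (C.x t0) a ≤ π / 4) (ht' : 0 < t') (hY : 4 * t' ≤ Y)
    (hr : ∀ t ∈ Icc a b, Y ≤ C.rr t0 t) :
    ∫ τ in a..b, {t | C.D (C.x t0) t < t' ∧ 0 < C.T (C.x t0) t}.indicator (C.kap (C.x t0)) τ ≤
      2 * t' / Y := by
  classical
  set E : Set ℝ := {t | C.D (C.x t0) t < t' ∧ 0 < C.T (C.x t0) t} with hE
  have hEm : MeasurableSet E := C.measurableSet_plus t0 t'
  have hYpos : 0 < Y := by linarith
  have hJ : ∀ t ∈ Icc a b, t0 < t ∧ t < t0 + 2 * π := fun t ht =>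
    ⟨by linarith [ht.1], by linarith [ht.2]⟩
  -- the claim
  have hclaim : ∀ e ∈ E ∩ Icc a b, ∀ c ∈ Icc a e, 0 < C.T (C.x t0) c := by
    rintro e ⟨⟨he1, he2⟩, he3⟩ c hc
    by_contra hcon
    push Not at hcon
    have hc0 : t0 < c := by linarith [hc.1]
    have he4 := hJ e he3
    have hgap : C.phi (C.x t0) e - C.phi (C.x t0) c ≤ π / 4 := by
      have h1 := C.phi_mono ha0 hc.1 (lt_of_le_of_lt hc.2 he4.2)
      have h2 := C.phi_mono he4.1 he3.2 hb1
      linarith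
    have h1 := (C.ang_step hc0 hc.2 he4.2 hgap).1 hcon
    have h2 := C.abs_T_ge (C.D_x_pos he4.1 he4.2).le he1 ((hY.trans (hr e he3)))
    rw [abs_of_pos he2] at h2
    have h3 := hr e he3
    linarith
  by_cases hne : (E ∩ Icc a b).Nonempty
  swap
  · -- the integrand vanishes
    have : ∫ τ in a..b, E.indicator (C.kap (C.x t0)) τ ≤ ∫ τ in a..b, (0:ℝ) := by
      refine intervalIntegral.integral_mono_on hab (C.intervalIntegrable_ind t0 hEm _ _)
        intervalIntegrable_const fun t ht => ?_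
      have : t ∉ E := fun hm => hne ⟨t, hm, ht⟩
      rw [indicator_of_notMem this]
    simp only [intervalIntegral.integral_zero] at this
    exact this.trans (by positivity)
  have hbdd : BddAbove (E ∩ Icc a b) := ⟨b, fun t ht => ht.2.2⟩
  set a₁ := sSup (E ∩ Icc a b) with ha₁
  have hle : ∀ t ∈ E ∩ Icc a b, t ≤ a₁ := fun t ht => le_csSup hbdd ht
  have ha₁b : a₁ ≤ b := csSup_le hne fun t ht => ht.2.2
  have haa₁ : a ≤ a₁ := by
    obtain ⟨t, ht⟩ := hne
    exact ht.2.1.trans (hle t ht)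
  have hpos : ∀ c ∈ Ioo a a₁, 0 < C.T (C.x t0) c := by
    intro c hc
    obtain ⟨e, he, hce⟩ := exists_lt_of_lt_csSup hne hc.2
    exact hclaim e he c ⟨hc.1.le, hce.le⟩
  rw [← intervalIntegral.integral_add_adjacent_intervals (C.intervalIntegrable_ind t0 hEm a a₁)
    (C.intervalIntegrable_ind t0 hEm a₁ b)]
  have hsecond : ∫ τ in a₁..b, E.indicator (C.kap (C.x t0)) τ ≤ 0 := by
    have : ∫ τ in a₁..b, E.indicator (C.kap (C.x t0)) τ ≤ ∫ τ in a₁..b, (0:ℝ) := by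
      refine intervalIntegral.integral_mono_on_of_le_Ioo ha₁b (C.intervalIntegrable_ind t0 hEm _ _)
        intervalIntegrable_const fun t ht => ?_
      have : t ∉ E := fun hm => by
        have := hle t ⟨hm, by linarith [ht.1], ht.2.le⟩
        linarith [ht.1]
      rw [indicator_of_notMem this]
    simpa using this
  have hJ1 : ∀ t ∈ Icc a a₁, t0 < t ∧ t < t0 + 2 * π := fun t ht =>
    hJ t ⟨ht.1, ht.2.trans ha₁b⟩
  have hfirst : ∫ τ in a..a₁, E.indicator (C.kap (C.x t0)) τ ≤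
      (-(2 * t') * (C.rr t0 a₁)⁻¹) - (-(2 * t') * (C.rr t0 a)⁻¹) := by
    refine intervalIntegral.integral_le_sub_of_hasDeriv_right_of_le (g := fun t => -(2 * t') * (C.rr t0 t)⁻¹)
      (g' := fun t => -(2 * t') * (-(C.R t * C.T (C.x t0) t / C.rr t0 t) / C.rr t0 t ^ 2)) haa₁ ?_ ?_
      (C.integrableOn_ind t0 hEm a a₁ haa₁) ?_
    · intro t ht
      have h1 := hJ1 t ht
      exact ((C.hasDerivAt_inv_rr h1.1 h1.2).const_mul _).continuousAt.continuousWithinAt
    · intro t ht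
      have h1 := hJ1 t ⟨ht.1.le, ht.2.le⟩
      exact ((C.hasDerivAt_inv_rr h1.1 h1.2).const_mul _).hasDerivWithinAt
    · intro t ht
      have h1 := hJ1 t ⟨ht.1.le, ht.2.le⟩
      have hT := hpos t ht
      have hrp := C.rr_pos h1.1 h1.2
      have hRp := C.R_pos t
      have e : -(2 * t') * (-(C.R t * C.T (C.x t0) t / C.rr t0 t) / C.rr t0 t ^ 2) =
          2 * t' * (C.R t * |C.T (C.x t0) t| / C.rr t0 t / C.rr t0 t ^ 2) := by
        rw [abs_of_pos hT]
        ring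
      by_cases hm : t ∈ E
      · rw [indicator_of_mem hm, e]
        exact C.kap_graze h1.1 h1.2 hm.1 (hY.trans (hr t ⟨ht.1.le, ht.2.le.trans ha₁b⟩))
      · rw [indicator_of_notMem hm, e]
        positivity
  have hra : Y ≤ C.rr t0 a := hr a ⟨le_rfl, hab⟩
  have hra₁ : 0 ≤ (C.rr t0 a₁)⁻¹ := inv_nonneg.2 (C.rr_nonneg _ _)
  have hinv : (C.rr t0 a)⁻¹ ≤ Y⁻¹ := inv_anti₀ hYpos hra
  have : 2 * t' / Y = 2 * t' * Y⁻¹ := by rw [div_eq_mul_inv]
  rw [this]
  nlinarith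

/-- grazing directions with `T < 0` -/
lemma graze_minus {t0 a b t' Y : ℝ} (ha0 : t0 < a) (hab : a ≤ b) (hb1 : b < t0 + 2 * π)
    (hs : C.phi (C.x t0) b - C.phi (C.x t0) a ≤ π / 4) (ht' : 0 < t') (hY : 4 * t' ≤ Y)
    (hr : ∀ t ∈ Icc a b, Y ≤ C.rr t0 t) :
    ∫ τ in a..b, {t | C.D (C.x t0) t < t' ∧ C.T (C.x t0) t < 0}.indicator (C.kap (C.x t0)) τ ≤
      2 * t' / Y := by
  classical
  set E : Set ℝ := {t | C.D (C.x t0) t < t' ∧ C.T (C.x t0) t < 0} with hE
  have hEm : MeasurableSet E := C.measurableSet_minus t0 t'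
  have hYpos : 0 < Y := by linarith
  have hJ : ∀ t ∈ Icc a b, t0 < t ∧ t < t0 + 2 * π := fun t ht =>
    ⟨by linarith [ht.1], by linarith [ht.2]⟩
  -- the claim
  have hclaim : ∀ e ∈ E ∩ Icc a b, ∀ c ∈ Icc e b, C.T (C.x t0) c < 0 := by
    rintro e ⟨⟨he1, he2⟩, he3⟩ c hc
    by_contra hcon
    push Not at hcon
    have he4 := hJ e he3
    have hc1 : c < t0 + 2 * π := by linarith [hc.2]
    have hgap : C.phi (C.x t0) c - C.phi (C.x t0) e ≤ π / 4 := by
      have h1 := C.phi_mono ha0 he3.1 (lt_of_le_of_lt hc.1 hc1)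
      have h2 := C.phi_mono (lt_of_lt_of_le he4.1 hc.1) hc.2 hb1
      linarith
    have h1 := (C.ang_step he4.1 hc.1 hc1 hgap).2 hcon
    have h2 := C.abs_T_ge (C.D_x_pos he4.1 he4.2).le he1 ((hY.trans (hr e he3)))
    rw [abs_of_neg he2] at h2
    have h3 := hr e he3
    linarith
  by_cases hne : (E ∩ Icc a b).Nonempty
  swap
  · -- the integrand vanishes
    have : ∫ τ in a..b, E.indicator (C.kap (C.x t0)) τ ≤ ∫ τ in a..b, (0:ℝ) := by
      refine intervalIntegral.integral_mono_on hab (C.intervalIntegrable_ind t0 hEm _ _)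
        intervalIntegrable_const fun t ht => ?_
      have : t ∉ E := fun hm => hne ⟨t, hm, ht⟩
      rw [indicator_of_notMem this]
    simp only [intervalIntegral.integral_zero] at this
    exact this.trans (by positivity)
  have hbdd : BddBelow (E ∩ Icc a b) := ⟨a, fun t ht => ht.2.1⟩
  set b₁ := sInf (E ∩ Icc a b) with hb₁
  have hle : ∀ t ∈ E ∩ Icc a b, b₁ ≤ t := fun t ht => csInf_le hbdd ht
  have hab₁ : a ≤ b₁ := le_csInf hne fun t ht => ht.2.1
  have hb₁b : b₁ ≤ b := by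
    obtain ⟨t, ht⟩ := hne
    exact (hle t ht).trans ht.2.2
  have hneg : ∀ c ∈ Ioo b₁ b, C.T (C.x t0) c < 0 := by
    intro c hc
    obtain ⟨e, he, hce⟩ := exists_lt_of_csInf_lt hne hc.1
    exact hclaim e he c ⟨hce.le, hc.2.le⟩
  rw [← intervalIntegral.integral_add_adjacent_intervals (C.intervalIntegrable_ind t0 hEm a b₁)
    (C.intervalIntegrable_ind t0 hEm b₁ b)]
  have hsecond : ∫ τ in a..b₁, E.indicator (C.kap (C.x t0)) τ ≤ 0 := by
    have : ∫ τ in a..b₁, E.indicator (C.kap (C.x t0)) τ ≤ ∫ τ in a..b₁, (0:ℝ) := by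
      refine intervalIntegral.integral_mono_on_of_le_Ioo hab₁ (C.intervalIntegrable_ind t0 hEm _ _)
        intervalIntegrable_const fun t ht => ?_
      have : t ∉ E := fun hm => by
        have := hle t ⟨hm, ht.1.le, by linarith [ht.2]⟩
        linarith [ht.2]
      rw [indicator_of_notMem this]
    simpa using this
  have hJ1 : ∀ t ∈ Icc b₁ b, t0 < t ∧ t < t0 + 2 * π := fun t ht =>
    hJ t ⟨hab₁.trans ht.1, ht.2⟩
  have hfirst : ∫ τ in b₁..b, E.indicator (C.kap (C.x t0)) τ ≤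
      ((2 * t') * (C.rr t0 b)⁻¹) - ((2 * t') * (C.rr t0 b₁)⁻¹) := by
    refine intervalIntegral.integral_le_sub_of_hasDeriv_right_of_le (g := fun t => (2 * t') * (C.rr t0 t)⁻¹)
      (g' := fun t => (2 * t') * (-(C.R t * C.T (C.x t0) t / C.rr t0 t) / C.rr t0 t ^ 2)) hb₁b ?_ ?_
      (C.integrableOn_ind t0 hEm b₁ b hb₁b) ?_
    · intro t ht
      have h1 := hJ1 t ht
      exact ((C.hasDerivAt_inv_rr h1.1 h1.2).const_mul _).continuousAt.continuousWithinAt
    · intro t ht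
      have h1 := hJ1 t ⟨ht.1.le, ht.2.le⟩
      exact ((C.hasDerivAt_inv_rr h1.1 h1.2).const_mul _).hasDerivWithinAt
    · intro t ht
      have h1 := hJ1 t ⟨ht.1.le, ht.2.le⟩
      have hT := hneg t ht
      have hrp := C.rr_pos h1.1 h1.2
      have hRp := C.R_pos t
      have e : (2 * t') * (-(C.R t * C.T (C.x t0) t / C.rr t0 t) / C.rr t0 t ^ 2) =
          2 * t' * (C.R t * |C.T (C.x t0) t| / C.rr t0 t / C.rr t0 t ^ 2) := by
        rw [abs_of_neg hT]
        ring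
      by_cases hm : t ∈ E
      · rw [indicator_of_mem hm, e]
        exact C.kap_graze h1.1 h1.2 hm.1 (hY.trans (hr t ⟨hab₁.trans ht.1.le, ht.2.le⟩))
      · rw [indicator_of_notMem hm, e]
        positivity
  have hra : Y ≤ C.rr t0 b := hr b ⟨hab, le_rfl⟩
  have hra₁ : 0 ≤ (C.rr t0 b₁)⁻¹ := inv_nonneg.2 (C.rr_nonneg _ _)
  have hinv : (C.rr t0 b)⁻¹ ≤ Y⁻¹ := inv_anti₀ hYpos hra
  have : 2 * t' / Y = 2 * t' * Y⁻¹ := by rw [div_eq_mul_inv]
  rw [this]
  nlinarith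

/-- the non-grazing directions carry most of the mass of an arc -/
lemma nongraze {t0 a b t' Y : ℝ} (ha0 : t0 < a) (hab : a ≤ b) (hb1 : b < t0 + 2 * π)
    (hs : C.phi (C.x t0) b - C.phi (C.x t0) a ≤ π / 4) (ht' : 0 < t') (hY : 4 * t' ≤ Y)
    (hr : ∀ t ∈ Icc a b, Y ≤ C.rr t0 t) :
    C.phi (C.x t0) b - C.phi (C.x t0) a - 4 * t' / Y ≤
      ∫ τ in a..b, {t | t' ≤ C.D (C.x t0) t}.indicator (C.kap (C.x t0)) τ := by
  have hp := C.graze_plus ha0 hab hb1 hs ht' hY hr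
  have hm := C.graze_minus ha0 hab hb1 hs ht' hY hr
  set Ep : Set ℝ := {t | C.D (C.x t0) t < t' ∧ 0 < C.T (C.x t0) t} with hEp
  set En : Set ℝ := {t | C.D (C.x t0) t < t' ∧ C.T (C.x t0) t < 0} with hEn
  set Ez : Set ℝ := {t | t' ≤ C.D (C.x t0) t} with hEz
  have hmEp : MeasurableSet Ep := C.measurableSet_plus t0 t'
  have hmEn : MeasurableSet En := C.measurableSet_minus t0 t'
  have hmEz : MeasurableSet Ez := (isClosed_le continuous_const (C.cont_D _)).measurableSet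
  have hYpos : 0 < Y := by linarith
  have hsum : ∫ τ in a..b, C.kap (C.x t0) τ ≤
      (∫ τ in a..b, Ez.indicator (C.kap (C.x t0)) τ) + (∫ τ in a..b, Ep.indicator (C.kap (C.x t0)) τ)
        + ∫ τ in a..b, En.indicator (C.kap (C.x t0)) τ := by
    rw [← intervalIntegral.integral_add (C.intervalIntegrable_ind t0 hmEz _ _)
      (C.intervalIntegrable_ind t0 hmEp _ _),
      ← intervalIntegral.integral_add ((C.intervalIntegrable_ind t0 hmEz _ _).add
      (C.intervalIntegrable_ind t0 hmEp _ _)) (C.intervalIntegrable_ind t0 hmEn _ _)]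
    refine intervalIntegral.integral_mono_on hab (C.intervalIntegrable_kap_x t0 _ _)
      (((C.intervalIntegrable_ind t0 hmEz _ _).add
      (C.intervalIntegrable_ind t0 hmEp _ _)).add (C.intervalIntegrable_ind t0 hmEn _ _)) fun t ht => ?_
    have h0 := C.ind_nonneg t0 Ez t
    have h1 := C.ind_nonneg t0 Ep t
    have h2 := C.ind_nonneg t0 En t
    by_cases h3 : t' ≤ C.D (C.x t0) t
    · have : t ∈ Ez := h3
      rw [indicator_of_mem this]
      linarith
    · push Not at h3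
      have hJ0 : t0 < t := by linarith [ht.1]
      have hJ1 : t < t0 + 2 * π := by linarith [ht.2]
      have hT := C.abs_T_ge (C.D_x_pos hJ0 hJ1).le h3 (hY.trans (hr t ht))
      have hrp := C.rr_pos hJ0 hJ1
      have hT0 : C.T (C.x t0) t ≠ 0 := by
        intro h0
        rw [h0, abs_zero] at hT
        linarith
      rcases lt_or_gt_of_ne hT0 with h4 | h4
      · have : t ∈ En := ⟨h3, h4⟩
        rw [indicator_of_mem this]
        linarith
      · have : t ∈ Ep := ⟨h3, h4⟩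
        rw [indicator_of_mem this]
        linarith
  rw [C.phi_sub_eq ha0 hab hb1] at hsum
  have e : 4 * t' / Y = 2 * t' / Y + 2 * t' / Y := by ring
  rw [e]
  linarith


/-- an arc between two far directions -/
lemma far_mass {t0 a b l₀ : ℝ} (hl₀ : 0 < l₀) (ha0 : t0 < a) (hab : a ≤ b) (hb1 : b < t0 + 2 * π)
    (hs1 : π / 80 ≤ C.phi (C.x t0) b - C.phi (C.x t0) a)
    (hs2 : C.phi (C.x t0) b - C.phi (C.x t0) a ≤ π / 4)
    (hra : 40000 * l₀ ≤ C.rr t0 a) (hrb : 40000 * l₀ ≤ C.rr t0 b) :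
    π / 160 ≤ ∫ τ in a..b, {t | 2 * l₀ ≤ C.D (C.x t0) t}.indicator (C.kap (C.x t0)) τ := by
  have hpi := Real.pi_pos
  have hpi3 := Real.pi_gt_three
  set s := C.phi (C.x t0) b - C.phi (C.x t0) a with hs
  have hσ : 1 / 40 ≤ Real.sin s := by
    have h1 := Real.mul_le_sin (x := s) (by linarith) (by linarith)
    have h2 : 1 / 40 ≤ 2 / π * s := by
      calc (1 / 40 : ℝ) = 2 / π * (π / 80) := by field_simp; norm_num
        _ ≤ 2 / π * s := mul_le_mul_of_nonneg_left hs1 (by positivity)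
    linarith
  set σ := Real.sin s with hσdef
  have hσ0 : 0 < σ := by linarith
  set Y := 20000 * l₀ * σ with hY
  have hY4 : 4 * (2 * l₀) ≤ Y := by
    rw [hY]
    nlinarith
  have hr : ∀ t ∈ Icc a b, Y ≤ C.rr t0 t := by
    intro t ht
    have h1 := C.arc_lower ha0 ht.1 ht.2 hb1
    rw [← hs, ← hσdef] at h1
    have hra0 : 0 < C.rr t0 a := by linarith [mul_pos (by norm_num : (0:ℝ) < 40000) hl₀]
    have hrb0 : 0 < C.rr t0 b := by linarith [mul_pos (by norm_num : (0:ℝ) < 40000) hl₀]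
    have h2 : 20000 * l₀ * (C.rr t0 a + C.rr t0 b) ≤ C.rr t0 a * C.rr t0 b := by
      nlinarith
    have h3 : Y * (C.rr t0 a + C.rr t0 b) ≤ C.rr t0 t * (C.rr t0 a + C.rr t0 b) := by
      refine le_trans ?_ h1
      rw [hY]
      nlinarith
    exact le_of_mul_le_mul_right h3 (by linarith)
  have h := C.nongraze ha0 hab hb1 hs2 (by linarith : (0:ℝ) < 2 * l₀) hY4 hr
  rw [← hs] at h
  have hfrac : 4 * (2 * l₀) / Y ≤ s / 2 := by
    rw [div_le_iff₀ (by rw [hY]; positivity)]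
    rw [hY]
    have h1 : 3 / 80 ≤ s := by linarith
    have h2 : (3 / 80 : ℝ) * (1 / 40) ≤ s * σ := mul_le_mul h1 hσ (by norm_num) (by linarith)
    have h3 : l₀ * (3 / 80 * (1 / 40)) ≤ l₀ * (s * σ) := mul_le_mul_of_nonneg_left h2 hl₀.le
    nlinarith
  linarith

/-- comparison of the kernels at two nearby boundary points -/
lemma kap_compare {t0 s t l₀ : ℝ} (hl₀ : 0 < l₀) (hs : C.rr t0 s ≤ l₀)
    (hD : 2 * l₀ ≤ C.D (C.x t0) t) : C.kap (C.x t0) t ≤ 9 / 2 * C.kap (C.x s) t := by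
  set z := C.x t0 with hz
  set ζ := C.x s with hζ
  have hDζ : C.D z t - l₀ ≤ C.D ζ t := by
    have h1 : C.D ζ t = C.D z t - (exp (-(I * t)) * (ζ - z)).re := by
      unfold D
      rw [mul_sub, Complex.sub_re]
      ring
    have h2 : (exp (-(I * t)) * (ζ - z)).re ≤ ‖ζ - z‖ := by
      refine (Complex.re_le_norm _).trans ?_
      rw [norm_mul, norm_exp_neg_I, one_mul]
    have h3 : ‖ζ - z‖ ≤ l₀ := hs
    rw [h1]
    linarith
  have hrt : C.D z t ≤ C.rr t0 t := C.D_le_rr t0 t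
  have hd : ‖C.x t - ζ‖ ≤ C.rr t0 t + l₀ := by
    have h1 : C.x t - ζ = (C.x t - z) - (ζ - z) := by ring
    rw [h1]
    refine (norm_sub_le _ _).trans ?_
    have h3 : ‖ζ - z‖ ≤ l₀ := hs
    have h4 : ‖C.x t - z‖ = C.rr t0 t := rfl
    rw [h4]
    linarith
  have hDζ0 : 0 < C.D ζ t := by linarith
  have hd0 : 0 < ‖C.x t - ζ‖ := lt_of_lt_of_le hDζ0 (C.D_le_norm ζ t)
  have hrt0 : 0 < C.rr t0 t := by linarith
  have hR := C.R_pos t
  unfold kap
  rw [← C.normSq_sub ζ t, show C.D z t ^ 2 + C.T z t ^ 2 = C.rr t0 t ^ 2 from (C.rr_sq t0 t).symm]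
  have hd2 : ‖C.x t - ζ‖ ^ 2 ≤ 9 / 4 * C.rr t0 t ^ 2 := by
    have : ‖C.x t - ζ‖ ≤ 3 / 2 * C.rr t0 t := by linarith
    calc ‖C.x t - ζ‖ ^ 2 ≤ (3 / 2 * C.rr t0 t) ^ 2 := pow_le_pow_left₀ hd0.le this 2
      _ = _ := by ring
  have key : C.D z t * ‖C.x t - ζ‖ ^ 2 ≤ 9 / 2 * C.D ζ t * C.rr t0 t ^ 2 := by
    have h1 : C.D z t ≤ 2 * C.D ζ t := by linarith
    have hD0 : 0 ≤ C.D z t := by linarith
    calc C.D z t * ‖C.x t - ζ‖ ^ 2 ≤ (2 * C.D ζ t) * (9 / 4 * C.rr t0 t ^ 2) :=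
          mul_le_mul h1 hd2 (by positivity) (by positivity)
      _ = _ := by ring
  calc C.R t * C.D z t / C.rr t0 t ^ 2
      = C.R t * (C.D z t * ‖C.x t - ζ‖ ^ 2) / (C.rr t0 t ^ 2 * ‖C.x t - ζ‖ ^ 2) := by
        field_simp
    _ ≤ C.R t * (9 / 2 * C.D ζ t * C.rr t0 t ^ 2) / (C.rr t0 t ^ 2 * ‖C.x t - ζ‖ ^ 2) := by
        apply div_le_div_of_nonneg_right _ (by positivity)
        exact mul_le_mul_of_nonneg_left key hR.le
    _ = 9 / 2 * (C.R t * C.D ζ t / ‖C.x t - ζ‖ ^ 2) := by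
        field_simp

/-! ### shifting the period -/

lemma shift_integral {g : ℝ → ℝ} (hg : ∀ t, g (t + 2 * π) = g t) (t0 : ℝ) :
    ∫ t in (0:ℝ)..(2 * π), g t = ∫ t in t0..(t0 + 2 * π), g t := by
  have h := (show Function.Periodic g (2 * π) from hg).intervalIntegral_add_eq 0 t0
  rw [zero_add] at h
  exact h

lemma LR_shift {g : ℝ → ℝ} (hg : ∀ t, g (t + 2 * π) = g t) (s t0 : ℝ) :
    C.LR g s = (1 / π) * ∫ t in t0..(t0 + 2 * π), g t * C.kap (C.x s) t := by
  unfold LR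
  rw [shift_integral (fun t => by rw [hg, C.kap_per]) t0]

lemma integral_kap_shift (s t0 : ℝ) : ∫ t in t0..(t0 + 2 * π), C.kap (C.x s) t = π := by
  rw [← shift_integral (fun t => C.kap_per (C.x s) t) t0, C.integral_kap_x']


/-! ### the functionals -/

variable {C}

lemma eval_x_norm_le {f : ℂ[X]} (hf : ∀ p ∈ C.K, ‖f.eval p‖ ≤ 2) (t : ℝ) : ‖f.eval (C.x t)‖ ≤ 2 :=
  hf _ (C.x_mem_K t)

lemma cont_eval_x (f : ℂ[X]) : Continuous fun t => f.eval (C.x t) :=
  f.continuous.comp C.cont_x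

variable (C)

lemma measurable_A1 (f : ℂ[X]) : Measurable (C.A1 f) := by
  have hx := C.cont_x
  have hh := C.cont_h
  have hh1 := C.cont_h1
  have hR := C.contR
  have hD : Continuous fun q : ℝ × ℝ => C.D (C.x q.1) q.2 := by
    unfold D
    fun_prop
  have hT : Continuous fun q : ℝ × ℝ => C.T (C.x q.1) q.2 := by
    unfold T
    fun_prop
  have hf : Continuous fun q : ℝ × ℝ => ‖f.eval (C.x q.2) + f.eval (C.x q.1)‖ ^ 2 := by
    have h1 : Continuous fun t : ℝ => f.eval (C.x t) := cont_eval_x f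
    fun_prop
  have hH : Measurable fun q : ℝ × ℝ => ‖f.eval (C.x q.2) + f.eval (C.x q.1)‖ ^ 2 * C.kap (C.x q.1) q.2 := by
    unfold kap
    refine hf.measurable.mul (((hR.comp continuous_snd).measurable.mul hD.measurable).div ?_)
    exact ((hD.pow 2).add (hT.pow 2)).measurable
  have h2 : (fun s => ∫ t, ‖f.eval (C.x t) + f.eval (C.x s)‖ ^ 2 * C.kap (C.x s) t
      ∂(volume.restrict (Ioc (0:ℝ) (2 * π)))) = fun s =>
      ∫ t in (0:ℝ)..(2 * π), ‖f.eval (C.x t) + f.eval (C.x s)‖ ^ 2 * C.kap (C.x s) t := by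
    funext s
    rw [intervalIntegral.integral_of_le (by positivity)]
  have h3 : Measurable fun s => ∫ t in (0:ℝ)..(2 * π), ‖f.eval (C.x t) + f.eval (C.x s)‖ ^ 2 * C.kap (C.x s) t := by
    rw [← h2]
    exact (hH.stronglyMeasurable.integral_prod_right').measurable
  have h4 : C.A1 f = fun s => (1 / π) * ∫ t in (0:ℝ)..(2 * π), ‖f.eval (C.x t) + f.eval (C.x s)‖ ^ 2 * C.kap (C.x s) t := by
    funext s
    rfl
  rw [h4]
  exact h3.const_mul _

lemma A1_nonneg (f : ℂ[X]) (s : ℝ) : 0 ≤ C.A1 f s := by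
  unfold A1 LR
  apply mul_nonneg (by positivity)
  exact intervalIntegral.integral_nonneg (by positivity) fun t _ =>
    mul_nonneg (by positivity) (C.kap_x_nonneg s t)

lemma intervalIntegrable_cont_mul {u : ℝ → ℝ} (hu : Continuous u) (s a b : ℝ) :
    IntervalIntegrable (fun t => u t * C.kap (C.x s) t) volume a b :=
  (C.intervalIntegrable_kap_x s a b).continuousOn_mul hu.continuousOn

lemma A1_le {f : ℂ[X]} (hf : ∀ p ∈ C.K, ‖f.eval p‖ ≤ 2) (s : ℝ) : C.A1 f s ≤ 16 := by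
  have hpi := Real.pi_pos
  have hc : Continuous fun t => ‖f.eval (C.x t) + f.eval (C.x s)‖ ^ 2 := by
    have h1 : Continuous fun t : ℝ => f.eval (C.x t) := cont_eval_x f
    fun_prop
  have h1 : ∫ t in (0:ℝ)..(2 * π), ‖f.eval (C.x t) + f.eval (C.x s)‖ ^ 2 * C.kap (C.x s) t ≤
      ∫ t in (0:ℝ)..(2 * π), 16 * C.kap (C.x s) t := by
    refine intervalIntegral.integral_mono_on (by positivity) (C.intervalIntegrable_cont_mul hc s _ _)
      ((C.intervalIntegrable_kap_x s _ _).const_mul _) fun t _ => ?_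
    refine mul_le_mul_of_nonneg_right ?_ (C.kap_x_nonneg s t)
    have h2 : ‖f.eval (C.x t) + f.eval (C.x s)‖ ≤ 4 :=
      (norm_add_le _ _).trans (by linarith [eval_x_norm_le hf t, eval_x_norm_le hf s])
    calc ‖f.eval (C.x t) + f.eval (C.x s)‖ ^ 2 ≤ 4 ^ 2 := pow_le_pow_left₀ (norm_nonneg _) h2 2
      _ = 16 := by norm_num
  rw [intervalIntegral.integral_const_mul, C.integral_kap_x'] at h1
  unfold A1 LR
  calc (1 / π) * _ ≤ (1 / π) * (16 * π) := mul_le_mul_of_nonneg_left h1 (by positivity)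
    _ = 16 := by field_simp

lemma A1_per (f : ℂ[X]) (s : ℝ) : C.A1 f (s + 2 * π) = C.A1 f s := by
  unfold A1 LR
  rw [C.x_per]

/-- the key pointwise inequality for the target `a₀` -/
lemma LR_sub_le {f : ℂ[X]} (a₀ : ℂ) (s : ℝ) :
    C.LR (fun t => ‖f.eval (C.x t) - a₀‖ ^ 2) s ≤
      2 * (C.A1 f s + ‖f.eval (C.x s) + a₀‖ ^ 2) := by
  have hpi := Real.pi_pos
  have h1c : Continuous fun t : ℝ => f.eval (C.x t) := cont_eval_x f
  have hc1 : Continuous fun t => ‖f.eval (C.x t) - a₀‖ ^ 2 := by fun_prop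
  have hc2 : Continuous fun t => ‖f.eval (C.x t) + f.eval (C.x s)‖ ^ 2 := by fun_prop
  set c := ‖f.eval (C.x s) + a₀‖ ^ 2 with hc
  have h1 : ∫ t in (0:ℝ)..(2 * π), ‖f.eval (C.x t) - a₀‖ ^ 2 * C.kap (C.x s) t ≤
      ∫ t in (0:ℝ)..(2 * π), (2 * (‖f.eval (C.x t) + f.eval (C.x s)‖ ^ 2 * C.kap (C.x s) t) +
        2 * c * C.kap (C.x s) t) := by
    refine intervalIntegral.integral_mono_on (by positivity) (C.intervalIntegrable_cont_mul hc1 s _ _)
      (((C.intervalIntegrable_cont_mul hc2 s _ _).const_mul _).add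
        ((C.intervalIntegrable_kap_x s _ _).const_mul _)) fun t _ => ?_
    have hk := C.kap_x_nonneg s t
    have h2 : ‖f.eval (C.x t) - a₀‖ ^ 2 ≤ 2 * ‖f.eval (C.x t) + f.eval (C.x s)‖ ^ 2 + 2 * c := by
      have e : f.eval (C.x t) - a₀ = (f.eval (C.x t) + f.eval (C.x s)) - (f.eval (C.x s) + a₀) := by ring
      have h3 := norm_sub_le (f.eval (C.x t) + f.eval (C.x s)) (f.eval (C.x s) + a₀)
      rw [← e] at h3
      rw [hc]
      have h4 := norm_nonneg (f.eval (C.x t) - a₀)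
      nlinarith [sq_nonneg (‖f.eval (C.x t) + f.eval (C.x s)‖ - ‖f.eval (C.x s) + a₀‖),
        norm_nonneg (f.eval (C.x t) + f.eval (C.x s)), norm_nonneg (f.eval (C.x s) + a₀)]
    nlinarith
  rw [intervalIntegral.integral_add ((C.intervalIntegrable_cont_mul hc2 s _ _).const_mul _)
      ((C.intervalIntegrable_kap_x s _ _).const_mul _), intervalIntegral.integral_const_mul,
      intervalIntegral.integral_const_mul, C.integral_kap_x'] at h1
  have e2 : C.A1 f s = (1 / π) * ∫ t in (0:ℝ)..(2 * π), ‖f.eval (C.x t) + f.eval (C.x s)‖ ^ 2 * C.kap (C.x s) t := rfl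
  unfold LR
  rw [e2]
  have h5 := mul_le_mul_of_nonneg_left h1 (by positivity : 0 ≤ 1 / π)
  refine h5.trans (le_of_eq ?_)
  field_simp


/-! ### the two cases -/

lemma sin_pi_div_32 : (9 / 100 : ℝ) ≤ Real.sin (π / 32) := by
  have hpi := Real.pi_gt_three
  have hpi4 := Real.pi_le_four
  have h := Real.sin_gt_sub_cube (x := π / 32) (by positivity)
  have h1 : (3 / 32 : ℝ) ≤ π / 32 := by linarith
  have h2 : π / 32 ≤ 1 / 8 := by linarith
  have h3 : (π / 32) ^ 3 ≤ (π / 32) * (1 / 8) ^ 2 := by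
    have : (π / 32) ^ 2 ≤ (1 / 8) ^ 2 := pow_le_pow_left₀ (by positivity) h2 2
    nlinarith [Real.pi_pos]
  nlinarith

lemma fat_num1 {d l r σ : ℝ} (hd0 : 0 < d) (hd2 : d < 40000 * l) (hr : l / 2 < r)
    (hσ : 9 / 100 ≤ σ) : 9 / 8000000 * d ^ 2 ≤ d * r * σ := by
  have hl : 0 < l := by linarith
  have h1 : l / 2 * (9 / 100) ≤ r * σ :=
    mul_le_mul hr.le hσ (by norm_num) (by linarith)
  have h2 : 9 / 8000000 * d ≤ l / 2 * (9 / 100) := by linarith
  have h3 : d * (9 / 8000000 * d) ≤ d * (r * σ) :=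
    mul_le_mul_of_nonneg_left (h2.trans h1) hd0.le
  calc 9 / 8000000 * d ^ 2 = d * (9 / 8000000 * d) := by ring
    _ ≤ d * (r * σ) := h3
    _ = _ := by ring

lemma fat_num2 {d l r c : ℝ} (hd1 : l / 2 < d) (hl : 0 < l) (hr0 : 0 < r) (hr2 : r < 40000 * l)
    (hc : |c| ≤ 1) : |d * r * c| ≤ 80000 * d ^ 2 := by
  have hd0 : 0 < d := by linarith
  rw [abs_mul, abs_mul, abs_of_pos hd0, abs_of_pos hr0]
  have h1 : d * r * |c| ≤ d * r := mul_le_of_le_one_right (by positivity) hc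
  have h2 : r ≤ 80000 * d := by linarith
  have h3 : d * r ≤ d * (80000 * d) := mul_le_mul_of_nonneg_left h2 hd0.le
  calc d * r * |c| ≤ d * r := h1
    _ ≤ d * (80000 * d) := h3
    _ = _ := by ring

/-- The chord is fat. -/
lemma fat_of_gaps {t0 y s y' l₀ : ℝ} (hl₀ : 0 < l₀) (hy0 : t0 < y) (hys : y < s) (hsy' : s < y')
    (hy'1 : y' < t0 + 2 * π)
    (hθ1 : π / 32 ≤ C.phi (C.x t0) y' - C.phi (C.x t0) s)
    (hθ2 : π / 32 ≤ C.phi (C.x t0) s - C.phi (C.x t0) y)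
    (hd1 : l₀ / 2 < C.rr t0 s) (hd2 : C.rr t0 s < 40000 * l₀)
    (hr1 : l₀ / 2 < C.rr t0 y') (hr2 : C.rr t0 y' < 40000 * l₀)
    (hr3 : l₀ / 2 < C.rr t0 y) (hr4 : C.rr t0 y < 40000 * l₀) :
    SCurve.Fat ((9 / 8 : ℝ) * (10:ℝ) ^ (-6 : ℤ)) 80000 (C.x t0) (C.x s) (C.x y') (C.x y) := by
  have hpi := Real.pi_pos
  have hs0 : t0 < s := by linarith
  have hs1 : s < t0 + 2 * π := by linarith
  have hy1 : y < t0 + 2 * π := by linarith
  have hy'0 : t0 < y' := by linarith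
  have hall : C.phi (C.x t0) y' - C.phi (C.x t0) y ≤ π :=
    C.phi_sub_le_pi hy0 (hys.le.trans hsy'.le) hy'1
  have hsin1 : 9 / 100 ≤ Real.sin (C.phi (C.x t0) y' - C.phi (C.x t0) s) :=
    sin_pi_div_32.trans (sin_ge_of_mem (by positivity) (by linarith) hθ1 (by linarith))
  have hsin2 : 9 / 100 ≤ Real.sin (C.phi (C.x t0) s - C.phi (C.x t0) y) :=
    sin_pi_div_32.trans (sin_ge_of_mem (by positivity) (by linarith) hθ2 (by linarith))
  have hd0 : 0 < C.rr t0 s := by linarith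
  have hnorm : ‖C.x s - C.x t0‖ = C.rr t0 s := rfl
  have hβ : ((9 / 8 : ℝ) * (10:ℝ) ^ (-6 : ℤ)) = 9 / 8000000 := by norm_num
  refine ⟨?_, ?_, ?_, ?_, ?_⟩
  · intro heq
    have : C.rr t0 s = 0 := by
      unfold rr
      rw [← heq, sub_self, norm_zero]
    linarith
  · rw [hnorm, hβ, C.polar_im hs0 hs1 hy'0 hy'1]
    exact fat_num1 hd0 hd2 hr1 hsin1
  · rw [hnorm, hβ, C.polar_im hs0 hs1 hy0 hy1]
    have e : Real.sin (C.phi (C.x t0) y - C.phi (C.x t0) s) =
        -Real.sin (C.phi (C.x t0) s - C.phi (C.x t0) y) := by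
      rw [← Real.sin_neg]
      congr 1
      ring
    rw [e]
    have := fat_num1 hd0 hd2 hr3 hsin2
    linarith
  · rw [hnorm, C.polar_re hs0 hs1 hy'0 hy'1]
    exact fat_num2 hd1 hl₀ (by linarith) hr2 (Real.abs_cos_le_one _)
  · rw [hnorm, C.polar_re hs0 hs1 hy0 hy1]
    exact fat_num2 hd1 hl₀ (by linarith) hr4 (Real.abs_cos_le_one _)

/-- Selection in Case B. -/
lemma exists_fat_family {t0 l₀ : ℝ} (hl₀ : 0 < l₀)
    (hmass : 3 * π / 8 < C.massZ t0 {t | l₀ / 2 < C.rr t0 t ∧ C.rr t0 t < 40000 * l₀}) :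
    ∃ (S : Set ℝ) (y y' : ℝ), MeasurableSet S ∧ (1 / 4) * π ≤ C.massZ t0 S ∧
      ∀ s ∈ S, t0 < s → s < t0 + 2 * π →
        SCurve.Fat ((9 / 8 : ℝ) * (10:ℝ) ^ (-6 : ℤ)) 80000 (C.x t0) (C.x s) (C.x y') (C.x y) := by
  have hpi := Real.pi_pos
  set F : Set ℝ := {t | l₀ / 2 < C.rr t0 t ∧ C.rr t0 t < 40000 * l₀} with hF
  have hFm : MeasurableSet F :=
    ((isOpen_lt continuous_const (C.cont_rr t0)).inter
      (isOpen_lt (C.cont_rr t0) continuous_const)).measurableSet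
  set Gend := C.massZ t0 F with hGend
  obtain ⟨y, hyF, hy0, hy1, -, hy3⟩ := C.exists_mem_level t0 hFm (α := 0) (β := π / 32) le_rfl
    (by positivity) (by linarith)
  obtain ⟨y', hy'F, hy'0, hy'1, hy'2, -⟩ := C.exists_mem_level t0 hFm (α := Gend - π / 32) (β := Gend)
    (by linarith) (by linarith) le_rfl
  obtain ⟨t₁, ht₁, ht₁G⟩ := C.exists_level t0 hFm (α := π / 16) (by positivity) (by linarith)
  obtain ⟨t₂, ht₂, ht₂G⟩ := C.exists_level t0 hFm (α := Gend - π / 16) (by linarith) (by linarith)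
  have ht₁₂ : t₁ ≤ t₂ := by
    have : C.Gp t0 F t₁ < C.Gp t0 F t₂ := by
      rw [ht₁G, ht₂G]
      linarith
    exact (C.Gp_lt_imp t0 hFm this).le
  refine ⟨F ∩ {t | π / 16 ≤ C.Gp t0 F t ∧ C.Gp t0 F t ≤ Gend - π / 16}, y, y', ?_, ?_, ?_⟩
  · exact hFm.inter
      ((isClosed_le continuous_const (C.cont_Gp t0 hFm)).inter
        (isClosed_le (C.cont_Gp t0 hFm) continuous_const)).measurableSet
  · set S : Set ℝ := F ∩ {t | π / 16 ≤ C.Gp t0 F t ∧ C.Gp t0 F t ≤ Gend - π / 16} with hS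
    have hSm : MeasurableSet S := hFm.inter
      ((isClosed_le continuous_const (C.cont_Gp t0 hFm)).inter
        (isClosed_le (C.cont_Gp t0 hFm) continuous_const)).measurableSet
    have h1 : ∫ τ in t₁..t₂, S.indicator (C.kap (C.x t0)) τ ≤ C.massZ t0 S := by
      unfold massZ Gp
      refine intervalIntegral.integral_mono_interval ht₁.1 ht₁₂ ht₂.2 ?_
        (C.intervalIntegrable_ind t0 hSm _ _)
      exact Eventually.of_forall fun t => C.ind_nonneg t0 S t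
    have h2 : ∫ τ in t₁..t₂, F.indicator (C.kap (C.x t0)) τ ≤
        ∫ τ in t₁..t₂, S.indicator (C.kap (C.x t0)) τ := by
      refine intervalIntegral.integral_mono_on_of_le_Ioo ht₁₂ (C.intervalIntegrable_ind t0 hFm _ _)
        (C.intervalIntegrable_ind t0 hSm _ _) fun t ht => ?_
      by_cases hm : t ∈ F
      · have hmS : t ∈ S := by
          refine ⟨hm, ?_, ?_⟩
          · rw [← ht₁G]; exact C.Gp_mono t0 hFm ht.1.le
          · rw [← ht₂G]; exact C.Gp_mono t0 hFm ht.2.le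
        rw [indicator_of_mem hm, indicator_of_mem hmS]
      · rw [indicator_of_notMem hm]
        exact C.ind_nonneg t0 S t
    have h3 := C.Gp_sub t0 hFm t₁ t₂
    rw [ht₁G, ht₂G] at h3
    linarith
  · rintro s ⟨hsF, hs2, hs3⟩ hs0 hs1
    have hys : y < s := C.Gp_lt_imp t0 hFm (by linarith)
    have hsy' : s < y' := C.Gp_lt_imp t0 hFm (by linarith)
    have hθ2 : π / 32 ≤ C.phi (C.x t0) s - C.phi (C.x t0) y := by
      have := C.Gp_gap hFm hy0 hys.le hs1
      linarith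
    have hθ1 : π / 32 ≤ C.phi (C.x t0) y' - C.phi (C.x t0) s := by
      have := C.Gp_gap hFm hs0 hsy'.le hy'1
      linarith
    exact C.fat_of_gaps hl₀ hy0 hys hsy' hy'1 hθ1 hθ2 hsF.1 hsF.2 hy'F.1 hy'F.2 hyF.1 hyF.2

/-- Case B: many chords of comparable length. -/
lemma caseB {f : ℂ[X]}
    (hW : ∀ (tz tζ : ℝ) (u v a₀ : ℂ), u ∈ C.K → v ∈ C.K →
      SCurve.Fat ((9 / 8 : ℝ) * (10:ℝ) ^ (-6 : ℤ)) 80000 (C.x tz) (C.x tζ) u v →
      1 / 2 ≤ ‖a₀‖ → ‖a₀‖ ≤ 2 →
      C.LR (fun s => ‖f.eval (C.x s) + a₀‖ ^ 2) tz ≤ (10:ℝ) ^ (-104 : ℤ) →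
      C.LR (fun s => ‖f.eval (C.x s) - a₀‖ ^ 2) tζ ≤ (10:ℝ) ^ (-104 : ℤ) → False)
    {t0 l₀ c : ℝ} (hl₀ : 0 < l₀) {g : ℝ → ℝ} (hg : ∀ t, 0 ≤ g t)
    (hgi : IntervalIntegrable (fun t => g t * C.kap (C.x t0) t) volume t0 (t0 + 2 * π))
    (hgc : (1 / π) * ∫ t in t0..(t0 + 2 * π), g t * C.kap (C.x t0) t < c)
    (ha : 1 / 2 ≤ ‖f.eval (C.x t0)‖) (ha' : ‖f.eval (C.x t0)‖ ≤ 2)
    (hLR : ∀ s, C.LR (fun t => ‖f.eval (C.x t) - f.eval (C.x t0)‖ ^ 2) s ≤ 2 * g s)
    (hA1 : C.LR (fun t => ‖f.eval (C.x t) + f.eval (C.x t0)‖ ^ 2) t0 ≤ c)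
    (hc1 : 8 * c ≤ (10:ℝ) ^ (-104 : ℤ)) (hc2 : c ≤ (10:ℝ) ^ (-104 : ℤ))
    (hmass : 3 * π / 8 < C.massZ t0 {t | l₀ / 2 < C.rr t0 t ∧ C.rr t0 t < 40000 * l₀}) : False := by
  obtain ⟨S, y, y', hSm, hSmass, hfat⟩ := C.exists_fat_family hl₀ hmass
  obtain ⟨s, hsS, hs0, hs1, hgs⟩ := C.markov_sel t0 hSm hg hgi (m := 1 / 4) (by norm_num) hgc hSmass
  refine hW t0 s (C.x y') (C.x y) (f.eval (C.x t0)) (C.x_mem_K y') (C.x_mem_K y)
    (hfat s hsS hs0 hs1) ha ha' (hA1.trans hc2) ?_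
  refine (hLR s).trans ?_
  have : 2 * g s ≤ 8 * c := by
    have e : c / (1 / 4) = 4 * c := by ring
    rw [e] at hgs
    linarith
  linarith

/-- Two far directions at a moderate angle. -/
lemma exists_far_pair {t0 W : ℝ} (hmass : π / 8 ≤ C.massZ t0 {t | W ≤ C.rr t0 t}) :
    ∃ a b, t0 < a ∧ a ≤ b ∧ b < t0 + 2 * π ∧ π / 80 ≤ C.phi (C.x t0) b - C.phi (C.x t0) a ∧
      C.phi (C.x t0) b - C.phi (C.x t0) a ≤ π / 4 ∧ W ≤ C.rr t0 a ∧ W ≤ C.rr t0 b := by
  have hpi := Real.pi_pos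
  set F : Set ℝ := {t | W ≤ C.rr t0 t} with hF
  have hFm : MeasurableSet F := (isClosed_le continuous_const (C.cont_rr t0)).measurableSet
  have hlev : ∀ j : ℕ, j ≤ 4 → ∃ y ∈ F, t0 < y ∧ y < t0 + 2 * π ∧
      (2 * j : ℝ) * (π / 80) ≤ C.Gp t0 F y ∧ C.Gp t0 F y ≤ (2 * j + 1 : ℝ) * (π / 80) := by
    intro j hj
    have hj' : (j : ℝ) ≤ 4 := by exact_mod_cast hj
    refine C.exists_mem_level t0 hFm (by positivity) ?_ ?_
    · nlinarith
    · nlinarith
  obtain ⟨y₀, h0F, h00, h01, h02, h03⟩ := hlev 0 (by norm_num)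
  obtain ⟨y₁, h1F, h10, h11, h12, h13⟩ := hlev 1 (by norm_num)
  obtain ⟨y₂, h2F, h20, h21, h22, h23⟩ := hlev 2 (by norm_num)
  obtain ⟨y₃, h3F, h30, h31, h32, h33⟩ := hlev 3 (by norm_num)
  obtain ⟨y₄, h4F, h40, h41, h42, h43⟩ := hlev 4 (by norm_num)
  push_cast at h02 h03 h12 h13 h22 h23 h32 h33 h42 h43
  have hstep : ∀ {u v : ℝ}, t0 < u → v < t0 + 2 * π → C.Gp t0 F u + π / 80 ≤ C.Gp t0 F v →
      u ≤ v ∧ π / 80 ≤ C.phi (C.x t0) v - C.phi (C.x t0) u := by
    intro u v hu hv hG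
    have huv : u < v := C.Gp_lt_imp t0 hFm (by linarith)
    refine ⟨huv.le, ?_⟩
    have := C.Gp_gap hFm hu huv.le hv
    linarith
  obtain ⟨h01le, h01g⟩ := hstep h00 h11 (by linarith)
  obtain ⟨h12le, h12g⟩ := hstep h10 h21 (by linarith)
  obtain ⟨h23le, h23g⟩ := hstep h20 h31 (by linarith)
  obtain ⟨h34le, h34g⟩ := hstep h30 h41 (by linarith)
  have htot : C.phi (C.x t0) y₄ - C.phi (C.x t0) y₀ ≤ π :=
    C.phi_sub_le_pi h00 (h01le.trans (h12le.trans (h23le.trans h34le))) h41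
  by_cases c1 : C.phi (C.x t0) y₁ - C.phi (C.x t0) y₀ ≤ π / 4
  · exact ⟨y₀, y₁, h00, h01le, h11, h01g, c1, h0F, h1F⟩
  by_cases c2 : C.phi (C.x t0) y₂ - C.phi (C.x t0) y₁ ≤ π / 4
  · exact ⟨y₁, y₂, h10, h12le, h21, h12g, c2, h1F, h2F⟩
  by_cases c3 : C.phi (C.x t0) y₃ - C.phi (C.x t0) y₂ ≤ π / 4
  · exact ⟨y₂, y₃, h20, h23le, h31, h23g, c3, h2F, h3F⟩
  refine ⟨y₃, y₄, h30, h34le, h41, h34g, ?_, h3F, h4F⟩
  push Not at c1 c2 c3
  linarith

/-- Case A: a definite proportion of far directions. -/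
lemma caseA {f : ℂ[X]} {t0 l₀ c : ℝ} (hl₀ : 0 < l₀) {g : ℝ → ℝ} (hg : ∀ t, 0 ≤ g t)
    (hgi : IntervalIntegrable (fun t => g t * C.kap (C.x t0) t) volume t0 (t0 + 2 * π))
    (hgc : (1 / π) * ∫ t in t0..(t0 + 2 * π), g t * C.kap (C.x t0) t < c)
    (ha : 1 / 2 ≤ ‖f.eval (C.x t0)‖)
    (hLR : ∀ s, C.LR (fun t => ‖f.eval (C.x t) - f.eval (C.x t0)‖ ^ 2) s ≤ 2 * g s)
    (hA1 : C.LR (fun t => ‖f.eval (C.x t) + f.eval (C.x t0)‖ ^ 2) t0 ≤ c)
    (hc : 5 * c < 1 / 1440)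
    (hmid : π / 2 ≤ C.massZ t0 {t | C.rr t0 t ≤ l₀})
    (hmass : π / 8 ≤ C.massZ t0 {t | 40000 * l₀ ≤ C.rr t0 t}) : False := by
  have hpi := Real.pi_pos
  obtain ⟨a, b, ha0, hab, hb1, hs1, hs2, hra, hrb⟩ := C.exists_far_pair hmass
  have hfar := C.far_mass hl₀ ha0 hab hb1 hs1 hs2 hra hrb
  obtain ⟨s', hs'S, -, -, hgs'⟩ := C.markov_sel t0 (C.measurable_rr_le t0 l₀) hg hgi (m := 1 / 2)
    (by norm_num) hgc (by linarith)
  have hs'r : C.rr t0 s' ≤ l₀ := hs'S
  set a₀ := f.eval (C.x t0) with ha₀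
  set E : Set ℝ := {t | 2 * l₀ ≤ C.D (C.x t0) t} with hE
  have hEm : MeasurableSet E := (isClosed_le continuous_const (C.cont_D _)).measurableSet
  have h1c : Continuous fun t : ℝ => f.eval (C.x t) := cont_eval_x f
  set u : ℝ → ℝ := fun t => ‖f.eval (C.x t) + a₀‖ ^ 2 with hu
  set v : ℝ → ℝ := fun t => ‖f.eval (C.x t) - a₀‖ ^ 2 with hv
  have hcu : Continuous u := by fun_prop
  have hcv : Continuous v := by fun_prop
  have hperu : ∀ t, u (t + 2 * π) = u t := fun t => by simp only [hu, C.x_per]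
  have hperv : ∀ t, v (t + 2 * π) = v t := fun t => by simp only [hv, C.x_per]
  have hle : t0 ≤ t0 + 2 * π := by linarith
  have hint : ∀ a' b' : ℝ, IntervalIntegrable
      (fun t => u t * C.kap (C.x t0) t + v t * C.kap (C.x s') t) volume a' b' := fun a' b' =>
    (C.intervalIntegrable_cont_mul hcu t0 _ _).add (C.intervalIntegrable_cont_mul hcv s' _ _)
  -- pointwise bound
  have hpt : ∫ τ in a..b, (1 / 9) * E.indicator (C.kap (C.x t0)) τ ≤
      ∫ τ in a..b, (u τ * C.kap (C.x t0) τ + v τ * C.kap (C.x s') τ) := by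
    refine intervalIntegral.integral_mono_on hab ((C.intervalIntegrable_ind t0 hEm _ _).const_mul _)
      (hint a b) fun t _ => ?_
    have hk := C.kap_x_nonneg t0 t
    have hk' := C.kap_x_nonneg s' t
    have hu0 : 0 ≤ u t := by positivity
    have hv0 : 0 ≤ v t := by positivity
    by_cases hm : t ∈ E
    · rw [indicator_of_mem hm]
      have hcomp := C.kap_compare hl₀ hs'r hm
      have hpar : 1 / 2 ≤ u t + v t := by
        have h1 := parallelogram_law_with_norm ℝ (f.eval (C.x t)) a₀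
        have h2 : u t + v t = 2 * (‖f.eval (C.x t)‖ ^ 2 + ‖a₀‖ ^ 2) := h1
        rw [h2]
        nlinarith [sq_nonneg ‖f.eval (C.x t)‖, ha]
      have h3 : v t * C.kap (C.x t0) t ≤ v t * (9 / 2 * C.kap (C.x s') t) :=
        mul_le_mul_of_nonneg_left hcomp hv0
      have h4 : 0 ≤ u t * C.kap (C.x t0) t := mul_nonneg hu0 hk
      have h5 : 1 / 2 * C.kap (C.x t0) t ≤ (u t + v t) * C.kap (C.x t0) t :=
        mul_le_mul_of_nonneg_right hpar hk
      nlinarith
    · rw [indicator_of_notMem hm, mul_zero]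
      exact add_nonneg (mul_nonneg hu0 hk) (mul_nonneg hv0 hk')
  rw [intervalIntegral.integral_const_mul] at hpt
  have hsub : ∫ τ in a..b, (u τ * C.kap (C.x t0) τ + v τ * C.kap (C.x s') τ) ≤
      ∫ τ in t0..(t0 + 2 * π), (u τ * C.kap (C.x t0) τ + v τ * C.kap (C.x s') τ) := by
    refine intervalIntegral.integral_mono_interval ha0.le hab hb1.le ?_ (hint _ _)
    refine Eventually.of_forall fun t => ?_
    exact add_nonneg (mul_nonneg (by positivity) (C.kap_x_nonneg t0 t))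
      (mul_nonneg (by positivity) (C.kap_x_nonneg s' t))
  have hsub2 : ∫ τ in t0..(t0 + 2 * π), (u τ * C.kap (C.x t0) τ + v τ * C.kap (C.x s') τ) =
      (∫ τ in t0..(t0 + 2 * π), u τ * C.kap (C.x t0) τ) +
        ∫ τ in t0..(t0 + 2 * π), v τ * C.kap (C.x s') τ :=
    intervalIntegral.integral_add (C.intervalIntegrable_cont_mul hcu t0 _ _)
      (C.intervalIntegrable_cont_mul hcv s' _ _)
  rw [hsub2] at hsub
  have hLu := C.LR_shift hperu t0 t0
  have hLv := C.LR_shift hperv s' t0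
  have hA1' : (1 / π) * ∫ t in t0..(t0 + 2 * π), u t * C.kap (C.x t0) t ≤ c := by
    rw [← hLu]
    exact hA1
  have hB : (1 / π) * ∫ t in t0..(t0 + 2 * π), v t * C.kap (C.x s') t ≤ 4 * c := by
    rw [← hLv]
    refine (hLR s').trans ?_
    have e : c / (1 / 2) = 2 * c := by ring
    rw [e] at hgs'
    linarith
  have hfinal : (1 / 9) * (π / 160) ≤ c * π + 4 * c * π := by
    have h1 : (1 / 9) * (π / 160) ≤ (1 / 9) * ∫ τ in a..b, E.indicator (C.kap (C.x t0)) τ :=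
      mul_le_mul_of_nonneg_left hfar (by norm_num)
    have h2 : ∀ X Y : ℝ, (1 / π) * X ≤ Y → X ≤ Y * π := by
      intro X Y hXY
      rw [one_div, ← div_eq_inv_mul, div_le_iff₀ hpi] at hXY
      exact hXY
    have h3 := h2 _ _ hA1'
    have h4 := h2 _ _ hB
    linarith
  have hfinal2 : (1 / 1440) * π ≤ (5 * c) * π := by
    nlinarith
  have := le_of_mul_le_mul_right hfinal2 hpi
  linarith

/-- Mass is additive on complementary pieces. -/
lemma massZ_add {F F' : Set ℝ} (t0 : ℝ) (hF : MeasurableSet F) (hF' : MeasurableSet F')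
    (h : Disjoint F F') : C.massZ t0 (F ∪ F') = C.massZ t0 F + C.massZ t0 F' := by
  unfold massZ Gp
  rw [← intervalIntegral.integral_add (C.intervalIntegrable_ind t0 hF _ _)
    (C.intervalIntegrable_ind t0 hF' _ _)]
  apply intervalIntegral.integral_congr
  intro t _
  simp only [indicator_union_of_disjoint h]

lemma massZ_univ (t0 : ℝ) : C.massZ t0 univ = π := by
  rw [← C.integral_kap_x t0]
  unfold massZ Gp
  simp

/-- The pointwise lower bound, with the fat chord lemma as a hypothesis. -/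
theorem lemmaZ_of_lemmaW (f : ℂ[X]) (hf : ∀ p ∈ C.K, ‖f.eval p‖ ≤ 2)
    (hW : ∀ (tz tζ : ℝ) (u v a₀ : ℂ), u ∈ C.K → v ∈ C.K →
      SCurve.Fat ((9 / 8 : ℝ) * (10:ℝ) ^ (-6 : ℤ)) 80000 (C.x tz) (C.x tζ) u v →
      1 / 2 ≤ ‖a₀‖ → ‖a₀‖ ≤ 2 →
      C.LR (fun s => ‖f.eval (C.x s) + a₀‖ ^ 2) tz ≤ (10:ℝ) ^ (-104 : ℤ) →
      C.LR (fun s => ‖f.eval (C.x s) - a₀‖ ^ 2) tζ ≤ (10:ℝ) ^ (-104 : ℤ) → False)
    (t0 : ℝ) (h : 1 / 2 ≤ ‖f.eval (C.x t0)‖) :
    (10:ℝ) ^ (-105 : ℤ) ≤ C.A1 f t0 + C.A2 f t0 := by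
  by_contra hlt
  push Not at hlt
  have hpi := Real.pi_pos
  set c : ℝ := (10:ℝ) ^ (-105 : ℤ) with hc
  have hc0 : 0 < c := by positivity
  have hc1 : 8 * c ≤ (10:ℝ) ^ (-104 : ℤ) := by
    rw [hc]
    norm_num
  have hc2 : c ≤ (10:ℝ) ^ (-104 : ℤ) := by
    rw [hc]
    norm_num
  have hc3 : 5 * c < 1 / 1440 := by
    rw [hc]
    norm_num
  set a₀ := f.eval (C.x t0) with ha₀
  have ha' : ‖a₀‖ ≤ 2 := eval_x_norm_le hf t0
  have h1c : Continuous fun t : ℝ => f.eval (C.x t) := cont_eval_x f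
  set g : ℝ → ℝ := fun s => C.A1 f s + ‖f.eval (C.x s) + a₀‖ ^ 2 with hg
  have hg0 : ∀ t, 0 ≤ g t := fun t => add_nonneg (C.A1_nonneg f t) (by positivity)
  have hcu : Continuous fun s => ‖f.eval (C.x s) + a₀‖ ^ 2 := by fun_prop
  have hgm : Measurable g := (C.measurable_A1 f).add hcu.measurable
  have hgb : ∀ t, g t ≤ 32 := by
    intro t
    have h1 := C.A1_le hf t
    have h2 : ‖f.eval (C.x t) + a₀‖ ≤ 4 :=
      (norm_add_le _ _).trans (by linarith [eval_x_norm_le hf t])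
    have h3 : ‖f.eval (C.x t) + a₀‖ ^ 2 ≤ 4 ^ 2 := pow_le_pow_left₀ (norm_nonneg _) h2 2
    simp only [hg]
    linarith
  have hA1i : ∀ a b, IntervalIntegrable (fun t => C.A1 f t * C.kap (C.x t0) t) volume a b := by
    intro a b
    refine intervalIntegrable_of_bdd ((C.measurable_A1 f).mul (C.measurable_kap _)) (B := 16 * C.kb) ?_ a b
    intro t
    show |C.A1 f t * C.kap (C.x t0) t| ≤ _
    rw [abs_mul, abs_of_nonneg (C.A1_nonneg f t)]
    exact mul_le_mul (C.A1_le hf t) (C.abs_kap_x_le t0 t) (abs_nonneg _) (by norm_num)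
  have hui : ∀ a b, IntervalIntegrable (fun t => ‖f.eval (C.x t) + a₀‖ ^ 2 * C.kap (C.x t0) t) volume a b :=
    fun a b => C.intervalIntegrable_cont_mul hcu t0 a b
  have hgi : IntervalIntegrable (fun t => g t * C.kap (C.x t0) t) volume t0 (t0 + 2 * π) := by
    have := (hA1i t0 (t0 + 2 * π)).add (hui t0 (t0 + 2 * π))
    refine this.congr_ae ?_
    exact Eventually.of_forall fun t => by simp only [hg]; ring
  have hsum : (1 / π) * ∫ t in t0..(t0 + 2 * π), g t * C.kap (C.x t0) t =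
      C.A1 f t0 + C.A2 f t0 := by
    have e1 : C.A1 f t0 = C.LR (fun s => ‖f.eval (C.x s) + a₀‖ ^ 2) t0 := rfl
    have e2 : C.A2 f t0 = C.LR (C.A1 f) t0 := rfl
    rw [e1, e2, C.LR_shift (fun t => by simp only [C.x_per]) t0 t0,
      C.LR_shift (fun t => C.A1_per f t) t0 t0, ← mul_add,
      ← intervalIntegral.integral_add (hui _ _) (hA1i _ _)]
    congr 1
    apply intervalIntegral.integral_congr
    intro t _
    simp only [hg]
    ring
  have hgc : (1 / π) * ∫ t in t0..(t0 + 2 * π), g t * C.kap (C.x t0) t < c := by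
    rw [hsum]
    exact hlt
  have hA2 : 0 ≤ C.A2 f t0 := by
    have e2 : C.A2 f t0 = (1 / π) * ∫ t in (0:ℝ)..(2 * π), C.A1 f t * C.kap (C.x t0) t := rfl
    rw [e2]
    exact mul_nonneg (by positivity) (intervalIntegral.integral_nonneg (by positivity) fun t _ =>
      mul_nonneg (C.A1_nonneg f t) (C.kap_x_nonneg t0 t))
  have hA1 : C.LR (fun t => ‖f.eval (C.x t) + a₀‖ ^ 2) t0 ≤ c := by
    have e1 : C.A1 f t0 = C.LR (fun s => ‖f.eval (C.x s) + a₀‖ ^ 2) t0 := rfl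
    rw [← e1]
    linarith
  have hLR : ∀ s, C.LR (fun t => ‖f.eval (C.x t) - a₀‖ ^ 2) s ≤ 2 * g s := fun s => C.LR_sub_le a₀ s
  obtain ⟨l₀, hl₀, hmid, hlow⟩ := C.exists_scale t0
  by_cases hcase : π / 8 ≤ C.massZ t0 {t | 40000 * l₀ ≤ C.rr t0 t}
  · exact C.caseA hl₀ hg0 hgi hgc h hLR hA1 hc3 hmid hcase
  · push Not at hcase
    refine C.caseB hW hl₀ hg0 hgi hgc h ha' hLR hA1 hc1 hc2 ?_
    set F₁ : Set ℝ := {t | C.rr t0 t ≤ l₀ / 2} with hF₁
    set F₂ : Set ℝ := {t | l₀ / 2 < C.rr t0 t ∧ C.rr t0 t < 40000 * l₀} with hF₂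
    set F₃ : Set ℝ := {t | 40000 * l₀ ≤ C.rr t0 t} with hF₃
    have hm1 : MeasurableSet F₁ := C.measurable_rr_le t0 _
    have hm2 : MeasurableSet F₂ :=
      ((isOpen_lt continuous_const (C.cont_rr t0)).inter
        (isOpen_lt (C.cont_rr t0) continuous_const)).measurableSet
    have hm3 : MeasurableSet F₃ := (isClosed_le continuous_const (C.cont_rr t0)).measurableSet
    have hd1 : Disjoint F₁ F₂ := by
      rw [Set.disjoint_left]
      intro t h1 h2
      have h1' : C.rr t0 t ≤ l₀ / 2 := h1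
      have h2' := h2.1
      linarith
    have hd2 : Disjoint (F₁ ∪ F₂) F₃ := by
      rw [Set.disjoint_left]
      rintro t (h1 | h1) h2
      · have h1' : C.rr t0 t ≤ l₀ / 2 := h1
        have h2' : 40000 * l₀ ≤ C.rr t0 t := h2
        linarith
      · have h1' := h1.2
        have h2' : 40000 * l₀ ≤ C.rr t0 t := h2
        linarith
    have hall : F₁ ∪ F₂ ∪ F₃ = univ := by
      ext t
      simp only [mem_union, mem_univ, iff_true]
      by_cases h1 : C.rr t0 t ≤ l₀ / 2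
      · exact Or.inl (Or.inl h1)
      · by_cases h2 : 40000 * l₀ ≤ C.rr t0 t
        · exact Or.inr h2
        · push Not at h1 h2
          exact Or.inl (Or.inr ⟨h1, h2⟩)
    have h4 := C.massZ_add t0 (hm1.union hm2) hm3 hd2
    rw [C.massZ_add t0 hm1 hm2 hd1, hall, C.massZ_univ] at h4
    linarith

end SCurve
end Vale.Agent.Lib.P123.U
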