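import Vale.Agent.Lib.P123.U.Star
import Vale.Agent.Lib.P123.U.Extremal
import Vale.Agent.Lib.P123.U.LemmaW
import Vale.Agent.Lib.P123.U.LemmaZ
import Vale.Agent.Lib.P123.U.Reduction
import Vale.Agent.Lib.P123.U.Chain

/-! Assembly: the strict bound for the extremal constant, and the final theorem. -/

open Complex MeasureTheory Set Filter Topology Polynomial ComplexConjugate
open scoped Real BoundedContinuousFunction

set_option linter.unusedSectionVars false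

namespace Vale.Agent.Lib.P123.U

variable {E : Type} [NormedAddCommGroup E] [InnerProductSpace ℂ E] [FiniteDimensional ℂ E]

namespace SCurve

variable (C : SCurve)

/-- `lemmaZ` unconditional -/
theorem lemmaZ_final (f : ℂ[X]) (hf : ∀ p ∈ C.K, ‖f.eval p‖ ≤ 2) (t0 : ℝ)
    (h : 1 / 2 ≤ ‖f.eval (C.x t0)‖) : (10:ℝ) ^ (-105 : ℤ) ≤ C.A1 f t0 + C.A2 f t0 := by
  have hY : C.YPrimeStatement := fun G hd Lg hL p hp => C.YPrime hd hL hp
  exact C.lemmaZ_of_lemmaW f hf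
    (fun tz tζ u v a₀ hu hv hfat h1 h2 h3 h4 => C.lemmaW hY f hf hu hv hfat h1 h2 h3 h4) t0 h

/-- maximum principle for polynomials -/
lemma eval_le_on_K (f : ℂ[X]) {M : ℝ} (hM : ∀ t, ‖f.eval (C.x t)‖ ≤ M) {p : ℂ} (hp : p ∈ C.K) :
    ‖f.eval p‖ ≤ M := by
  by_cases hO : p ∈ C.Om
  · have hbdd : Bornology.IsBounded C.Om := (C.isCompact_K.isBounded).subset C.Om_subset_K
    refine Complex.norm_le_of_forall_mem_frontier_norm_le hbdd
      (f.differentiable.diffContOnCl) (fun w hw => ?_) (subset_closure hO)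
    obtain ⟨t₀, -, rfl⟩ := C.frontier_Om_subset hw
    exact hM t₀
  · obtain ⟨t, rfl⟩ := C.mem_curve_of_K_not_Om hp hO
    exact hM t

variable {A : E →L[ℂ] E} {g : ℝ} (hg : 0 < g)
  (hW : ∀ v : E, ‖v‖ = 1 → ∀ t, g ≤ C.D (inner ℂ v (A v)) t)
include hg hW

/-- crude bound -/
lemma crude_bound (v₀ : E) (hv₀ : ‖v₀‖ = 1) (P : ℂ[X]) (M : ℝ) (hM : ∀ t, ‖P.eval (C.x t)‖ ≤ M) :
    ‖Polynomial.aeval A P‖ ≤ (C.Rb / g) * M := by
  rw [C.aeval_eq_integral hg hW v₀ hv₀ P]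
  have hpi := Real.pi_pos
  have hR := C.Rb_pos
  have hM0 : 0 ≤ M := (norm_nonneg _).trans (hM 0)
  have hb : ∀ t ∈ Set.uIoc (0:ℝ) (2 * π), ‖P.eval (C.x t) • C.NN A t‖ ≤ M * (C.Rb / (2 * π) * (1 / g)) := by
    intro t _
    rw [norm_smul]
    refine mul_le_mul (hM t) ?_ (norm_nonneg _) hM0
    unfold NN
    rw [norm_smul, C.dx_div_two_pi, norm_mul, norm_exp_I, mul_one, Complex.norm_real,
      Real.norm_of_nonneg (div_nonneg (C.R_pos t).le (by positivity))]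
    refine mul_le_mul (div_le_div_of_nonneg_right (C.R_le t) (by positivity))
      (C.res_unit_bound hg hW t).2 (norm_nonneg _) (by positivity)
  have := intervalIntegral.norm_integral_le_of_norm_le_const hb
  rw [sub_zero, abs_of_pos (by positivity : (0:ℝ) < 2 * π)] at this
  refine this.trans (le_of_eq ?_)
  field_simp

/-- The two form inequalities fed to the chain. -/
theorem stars {Kc : ℝ} (hKc : 1 ≤ Kc) {T₀ : E →L[ℂ] E} {a b : E} {l : (ℝ →ᵇ ℂ) →L[ℂ] ℂ}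
    (ha : ‖a‖ = 1) (hb : ‖b‖ = 1) (hT : T₀ a = (Kc : ℂ) • b) (hl : ‖l‖ ≤ 1) (hl1 : l 1 = 1)
    (hst : ∀ (p : ℂ[X]) (φ : ℝ →ᵇ ℂ), (∀ t, φ t = p.eval (C.x t)) →
        l φ = inner ℂ a (Polynomial.aeval A p a) ∧ l φ = inner ℂ b (Polynomial.aeval A p b))
    (hmul : ∀ (g' h' : ℂ[X]), Polynomial.aeval A h' = T₀ →
        (Kc : ℂ) * inner ℂ a (Polynomial.aeval A g' b) = inner ℂ b (Polynomial.aeval A (h' * g') b))
    (f : ℂ[X]) (hf : Polynomial.aeval A f = T₀) {F : ℝ} (hF1 : 1 ≤ F) (hF : ∀ t, ‖f.eval (C.x t)‖ ≤ F) :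
    (∀ φ : ℝ →ᵇ ℂ, (∀ t, φ t = conj (f.eval (C.x t)) * C.LC (fun s => f.eval (C.x s)) t) →
      ‖(Kc : ℂ) + (1 / Kc : ℂ) * l φ‖ ≤ 2 * F) ∧
    (∀ w φ : ℝ →ᵇ ℂ, (∀ t, w t = -(f.eval (C.x t)) * conj (C.LC (fun s => f.eval (C.x s)) t)) →
      (∀ t, φ t = conj (f.eval (C.x t)) * C.LC (fun s => f.eval (C.x s) * w s) t) →
      ‖(Kc : ℂ) * l w + (1 / Kc : ℂ) * l φ‖ ≤ 2 * F ^ 3) := by
  have hKpos : (0:ℝ) < Kc := by linarith
  have hF0 : 0 ≤ F := by linarith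
  have hfc := C.cont_eval f
  constructor
  · intro φ hφ
    have h1 := C.star_form hg hW hKc ha hb hT hl hl1 hst hmul f 1 hf hF
      (B := F) (fun t => by simpa using hF t) 1 φ (fun t => by simp)
      (fun t => by simpa using hφ t)
    rwa [hl1, mul_one] at h1
  · intro w φ hw hφ
    refine le_of_forall_pos_le_add fun ε hε => ?_
    set c : ℝ := 2 * F ^ 2 + Kc * F + F ^ 3 + 1 with hc
    have hcpos : 0 < c := by rw [hc]; positivity
    set η := ε / c with hη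
    have hηpos : 0 < η := by positivity
    have hηc : η * c = ε := by rw [hη]; field_simp
    obtain ⟨q, -, hq⟩ := C.approx_conj hg hW f hηpos
    set u : ℂ[X] := -(f * q) with hu
    have hLfb : ∀ t, ‖C.LC (fun s => f.eval (C.x s)) t‖ ≤ F := fun t => C.norm_LC_le hfc hF t
    have hqb : ∀ t, ‖q.eval (C.x t)‖ ≤ F + η := by
      intro t
      have h1 := hq t
      have h2 : ‖q.eval (C.x t)‖ ≤ ‖q.eval (C.x t) - conj (C.LC (fun s => f.eval (C.x s)) t)‖ +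
          ‖conj (C.LC (fun s => f.eval (C.x s)) t)‖ := norm_le_norm_sub_add _ _
      rw [Complex.norm_conj] at h2
      linarith [hLfb t]
    have huc : Continuous fun t => u.eval (C.x t) := C.cont_eval u
    have hubd : ∀ t, ‖u.eval (C.x t)‖ ≤ F * (F + η) := by
      intro t
      simp only [hu, eval_neg, eval_mul, norm_neg, norm_mul]
      exact mul_le_mul (hF t) (hqb t) (norm_nonneg _) hF0
    set φ₁ : ℝ →ᵇ ℂ := BoundedContinuousFunction.ofNormedAddCommGroup _ huc _ hubd with hφ₁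
    have hφ₁a : ∀ t, φ₁ t = u.eval (C.x t) := fun t => rfl
    have hfu : Continuous fun s => (f * u).eval (C.x s) := C.cont_eval (f * u)
    have hfub : ∀ t, ‖(f * u).eval (C.x t)‖ ≤ F * (F * (F + η)) := by
      intro t
      rw [eval_mul, norm_mul]
      exact mul_le_mul (hF t) (hubd t) (norm_nonneg _) hF0
    have hLc := C.continuous_LC hfu
    have hφ₂c : Continuous fun t => conj (f.eval (C.x t)) * C.LC (fun s => (f * u).eval (C.x s)) t :=
      (Complex.continuous_conj.comp hfc).mul hLc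
    have hφ₂b : ∀ t, ‖conj (f.eval (C.x t)) * C.LC (fun s => (f * u).eval (C.x s)) t‖ ≤
        F * (F * (F * (F + η))) := by
      intro t
      rw [norm_mul, Complex.norm_conj]
      exact mul_le_mul (hF t) (C.norm_LC_le hfu hfub t) (norm_nonneg _) hF0
    set φ₂ : ℝ →ᵇ ℂ := BoundedContinuousFunction.ofNormedAddCommGroup _ hφ₂c _ hφ₂b with hφ₂
    have hφ₂a : ∀ t, φ₂ t = conj (f.eval (C.x t)) * C.LC (fun s => (f * u).eval (C.x s)) t := fun t => rfl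
    have hmain := C.star_form hg hW hKc ha hb hT hl hl1 hst hmul f u hf hF hfub φ₁ φ₂ hφ₁a hφ₂a
    -- differences
    have hd1 : ‖w - φ₁‖ ≤ F * η := by
      refine (BoundedContinuousFunction.norm_le (by positivity)).2 fun t => ?_
      simp only [BoundedContinuousFunction.coe_sub, Pi.sub_apply]
      rw [hw, hφ₁a]
      simp only [hu, eval_neg, eval_mul]
      have e : -(f.eval (C.x t)) * conj (C.LC (fun s => f.eval (C.x s)) t) - -(f.eval (C.x t) * q.eval (C.x t)) =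
          f.eval (C.x t) * (q.eval (C.x t) - conj (C.LC (fun s => f.eval (C.x s)) t)) := by ring
      rw [e, norm_mul]
      exact mul_le_mul (hF t) (hq t) (norm_nonneg _) hF0
    have hwc : Continuous fun s => f.eval (C.x s) * w s := hfc.mul w.continuous
    have hd2 : ‖φ - φ₂‖ ≤ F * (F * (F * η)) := by
      refine (BoundedContinuousFunction.norm_le (by positivity)).2 fun t => ?_
      simp only [BoundedContinuousFunction.coe_sub, Pi.sub_apply]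
      rw [hφ, hφ₂a, ← mul_sub, norm_mul, Complex.norm_conj]
      refine mul_le_mul (hF t) ?_ (norm_nonneg _) hF0
      rw [← C.LC_sub hwc hfu]
      have hcc : Continuous fun s => f.eval (C.x s) * w s - (f * u).eval (C.x s) := hwc.sub hfu
      refine C.norm_LC_le hcc (fun s => ?_) t
      have e : f.eval (C.x s) * w s - (f * u).eval (C.x s) = f.eval (C.x s) * (w - φ₁) s := by
        simp only [BoundedContinuousFunction.coe_sub, Pi.sub_apply, hφ₁a, eval_mul]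
        ring
      rw [e, norm_mul]
      refine mul_le_mul (hF s) ?_ (norm_nonneg _) hF0
      exact ((w - φ₁).norm_coe_le_norm s).trans hd1
    have e : (Kc : ℂ) * l w + (1 / Kc : ℂ) * l φ = ((Kc : ℂ) * l φ₁ + (1 / Kc : ℂ) * l φ₂) +
        ((Kc : ℂ) * l (w - φ₁) + (1 / Kc : ℂ) * l (φ - φ₂)) := by
      rw [map_sub, map_sub]; ring
    rw [e]
    refine (norm_add_le _ _).trans ?_
    have h3 : ‖(Kc : ℂ) * l (w - φ₁)‖ ≤ Kc * (F * η) := by
      rw [norm_mul, Complex.norm_real, Real.norm_of_nonneg hKpos.le]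
      exact mul_le_mul_of_nonneg_left ((st_norm hl _).trans hd1) hKpos.le
    have h4 : ‖(1 / Kc : ℂ) * l (φ - φ₂)‖ ≤ 1 * (F * (F * (F * η))) := by
      rw [norm_mul]
      have h5 : ‖(1 / Kc : ℂ)‖ ≤ 1 := by
        rw [norm_div, norm_one, Complex.norm_real, Real.norm_of_nonneg hKpos.le]
        exact (div_le_one hKpos).2 hKc
      exact mul_le_mul h5 ((st_norm hl _).trans hd2) (norm_nonneg _) zero_le_one
    have h6 := (norm_add_le ((Kc : ℂ) * l (w - φ₁)) ((1 / Kc : ℂ) * l (φ - φ₂)))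
    have h7 : 2 * (F * (F * (F + η))) + (Kc * (F * η) + 1 * (F * (F * (F * η)))) ≤ 2 * F ^ 3 + ε := by
      have : η * c = η * (2 * F ^ 2 + Kc * F + F ^ 3 + 1) := by rw [hc]
      nlinarith
    linarith

omit hg hW in
/-- the numerical step, symbolic form -/
lemma numeric_core {K s c₀ X : ℝ} (hK : 1 ≤ K) (h1 : K ^ 2 - 2 * K ≤ 1) (hc₀pos : 0 < c₀)
    (hc4 : 28 * c₀ ≤ 1) (hc2 : c₀ * c₀ = 100 * X) (hpos : 0 < X) (hs2 : s ^ 2 = 2) (hs0 : 0 ≤ s)
    (h2 : c₀ ≤ (16 + 2 * K ^ 2) * (1 + 2 * K - K ^ 2) + 2 * (c₀ / 8) +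
      8 * (1 + 2 * K - K ^ 2) / c₀) : K ≤ 1 + s - X := by
  have hs1 : s < 3 / 2 := by nlinarith only [hs2, hs0]
  set δ₁ : ℝ := 1 + 2 * K - K ^ 2 with hδ₁
  have hδ0 : 0 ≤ δ₁ := by rw [hδ₁]; linarith only [h1]
  have hKs : K ≤ 1 + s := by nlinarith only [h1, hs2, hs0, hK]
  have hK2 : K ^ 2 ≤ 6 := by nlinarith only [h1, hs2, hs0, hK, hKs, hs1]
  by_contra hlt
  push Not at hlt
  have hx : 1 + s - K < X := by linarith only [hlt]
  have hδ1 : δ₁ = (1 + s - K) * (K + s - 1) := by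
    rw [hδ₁]; nlinarith only [hs2]
  have hfac : K + s - 1 ≤ 3 := by linarith only [hKs, hs1]
  have hfac0 : 0 ≤ K + s - 1 := by linarith only [hK, hs0]
  have hδ2 : δ₁ ≤ 3 * X := by
    rw [hδ1]
    have h0 : 0 ≤ 1 + s - K := by linarith only [hKs]
    have := mul_le_mul hx.le hfac hfac0 hpos.le
    linarith only [this]
  have h4 : (16 + 2 * K ^ 2) * δ₁ ≤ 28 * δ₁ := by nlinarith only [hK2, hδ0]
  have h5 : c₀ * (c₀ * (3 / 4)) ≤ c₀ * (28 * δ₁) + 8 * δ₁ := by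
    have h6 : c₀ ≤ 28 * δ₁ + 2 * (c₀ / 8) + 8 * δ₁ / c₀ := by linarith only [h2, h4]
    have h7 := mul_le_mul_of_nonneg_left h6 hc₀pos.le
    have h8 : c₀ * (8 * δ₁ / c₀) = 8 * δ₁ := by field_simp
    nlinarith only [h7, h8]
  have h8 : c₀ * (28 * δ₁) ≤ δ₁ := by
    have := mul_le_mul_of_nonneg_right hc4 hδ0
    nlinarith only [this]
  nlinarith only [h5, h8, hc2, hδ2, hpos]

omit hg hW in
/-- the numerical step -/
lemma numeric_bound {K : ℝ} (hK : 1 ≤ K) (h1 : K ^ 2 - 2 * 1 * K ≤ 1 ^ 2)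
    (h2 : (10:ℝ) ^ (-105 : ℤ) ≤ Psi K 1 ((10:ℝ) ^ (-105 : ℤ) / 8)) :
    K ≤ 1 + Real.sqrt 2 - (10:ℝ) ^ (-212 : ℤ) := by
  have hc₀pos : 0 < (10:ℝ) ^ (-105 : ℤ) := by positivity
  have hP : ∀ c₀ : ℝ, 0 < c₀ → Psi K 1 (c₀ / 8) =
      (16 + 2 * K ^ 2) * (1 + 2 * K - K ^ 2) + 2 * (c₀ / 8) + 8 * (1 + 2 * K - K ^ 2) / c₀ := by
    intro c₀ hc₀
    simp only [Psi]
    field_simp
    ring
  rw [hP _ hc₀pos] at h2
  refine numeric_core hK (by linarith only [h1]) hc₀pos ?_ ?_ (by positivity)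
    (Real.sq_sqrt (by norm_num)) (Real.sqrt_nonneg 2) h2
  · have h9 : (10:ℝ) ^ (-105 : ℤ) ≤ (10:ℝ) ^ (-2 : ℤ) :=
      zpow_le_zpow_right₀ (by norm_num) (by norm_num)
    have h10 : (10:ℝ) ^ (-2 : ℤ) = 1 / 100 := by norm_num
    rw [h10] at h9
    have haux : ∀ x : ℝ, x ≤ 1 / 100 → 28 * x ≤ 1 := fun x hx => by linarith only [hx]
    exact haux _ h9
  · rw [← zpow_add₀ (by norm_num), show (100:ℝ) = (10:ℝ) ^ (2 : ℤ) by norm_num,
      ← zpow_add₀ (by norm_num)]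
    norm_num

/-- The main estimate on the curve. -/
theorem main_curve (v₀ : E) (hv₀ : ‖v₀‖ = 1) (P : ℂ[X]) (M : ℝ)
    (hM : ∀ t, ‖P.eval (C.x t)‖ ≤ M) :
    ‖Polynomial.aeval A P‖ ≤ (1 + Real.sqrt 2 - (10:ℝ) ^ (-212 : ℤ)) * M := by
  have hbd : ∀ (P : ℂ[X]) (M : ℝ), (∀ t, ‖P.eval (C.x t)‖ ≤ M) → ‖Polynomial.aeval A P‖ ≤ (C.Rb / g) * M :=
    fun P M hM => C.crude_bound hg hW v₀ hv₀ P M hM
  obtain ⟨Kc, T₀, a, b, l, hKc, ha, hb, hT, hl, hl1, hall, hext, hst, hmul⟩ := C.exists_extremal A v₀ hv₀ hbd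
  have hM0 : 0 ≤ M := (norm_nonneg _).trans (hM 0)
  refine (hall P M hM).trans (mul_le_mul_of_nonneg_right ?_ hM0)
  set c₀ : ℝ := (10:ℝ) ^ (-105 : ℤ) with hc₀
  have hc₀pos : 0 < c₀ := by rw [hc₀]; positivity
  have hc₀3 : c₀ ≤ 3 := by
    have : c₀ ≤ 1 := by
      rw [hc₀]
      exact zpow_le_one_of_nonpos₀ (by norm_num) (by norm_num)
    linarith
  set τ : ℝ := c₀ / 8 with hτ
  have hτpos : 0 < τ := by positivity
  have hkey : ∀ η : ℝ, 0 < η → η ≤ 1 → c₀ ≤ Psi Kc (1 + η) τ ∧ Kc ^ 2 - 2 * (1 + η) * Kc ≤ (1 + η) ^ 2 := by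
    intro η hη hη1
    obtain ⟨f, hf, hfb⟩ := hext η hη
    have hf2 : ∀ p ∈ C.K, ‖f.eval p‖ ≤ 2 := fun p hp =>
      (C.eval_le_on_K f hfb hp).trans (by linarith)
    obtain ⟨s1, s2⟩ := C.stars hg hW hKc ha hb hT hl hl1 hst hmul f hf (F := 1 + η) (by linarith) hfb
    exact C.chain_state l hl hl1 hKc f (by linarith) hfb hτpos s1 s2
      (fun t ht => C.lemmaZ_final f hf2 t ht) hc₀3
  -- pass to the limit
  have hev : ∀ᶠ η in 𝓝[>] (0:ℝ), 0 < η ∧ η ≤ 1 := by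
    filter_upwards [Ioc_mem_nhdsGT (zero_lt_one' ℝ)] with η hη
    exact ⟨hη.1, hη.2⟩
  have hlim1 : Tendsto (fun η => Psi Kc (1 + η) τ) (𝓝[>] (0:ℝ)) (𝓝 (Psi Kc 1 τ)) := by
    have hc : Continuous fun η : ℝ => Psi Kc (1 + η) τ := by
      unfold Psi
      fun_prop
    have := (hc.tendsto 0).mono_left (nhdsWithin_le_nhds (s := Ioi (0:ℝ)))
    simpa using this
  have hlim2 : Tendsto (fun η : ℝ => (1 + η) ^ 2 - (Kc ^ 2 - 2 * (1 + η) * Kc)) (𝓝[>] (0:ℝ))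
      (𝓝 (1 ^ 2 - (Kc ^ 2 - 2 * 1 * Kc))) := by
    have hc : Continuous fun η : ℝ => (1 + η) ^ 2 - (Kc ^ 2 - 2 * (1 + η) * Kc) := by fun_prop
    have := (hc.tendsto 0).mono_left (nhdsWithin_le_nhds (s := Ioi (0:ℝ)))
    simpa using this
  have h1 : c₀ ≤ Psi Kc 1 τ :=
    ge_of_tendsto hlim1 (hev.mono fun η hη => (hkey η hη.1 hη.2).1)
  have h2 : 0 ≤ 1 ^ 2 - (Kc ^ 2 - 2 * 1 * Kc) :=
    ge_of_tendsto hlim2 (hev.mono fun η hη => by
      have := (hkey η hη.1 hη.2).2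
      linarith)
  exact numeric_bound hKc (by linarith) h1

end SCurve

/-- The final theorem. -/
theorem crouzeix_strict {H : Type*} [NormedAddCommGroup H] [InnerProductSpace ℂ H] [Nontrivial H]
    (A : H →L[ℂ] H) (P : ℂ[X]) (M : ℝ) (hP : ∀ v : H, ‖v‖ = 1 → ‖P.eval (inner ℂ v (A v))‖ ≤ M) :
    ‖Polynomial.aeval A P‖ ≤ (1 + Real.sqrt 2 - (10:ℝ) ^ (-212 : ℤ)) * M := by
  have hκ : 0 ≤ 1 + Real.sqrt 2 - (10:ℝ) ^ (-212 : ℤ) := by
    have h1 : (10:ℝ) ^ (-212 : ℤ) ≤ 1 := zpow_le_one_of_nonpos₀ (by norm_num) (by norm_num)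
    have h2 := Real.sqrt_nonneg 2
    linarith
  refine reduction' _ hκ ?_ A P M hP
  intro C E _ _ _ A g v₀ hg hv₀ hW P M hM
  exact C.main_curve hg hW v₀ hv₀ P M hM

end Vale.Agent.Lib.P123.U
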