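import Vale.Agent.Lib.P123.U.Cauchy

/-! Operators with numerical range inside the domain: resolvents, Cauchy formula,
and the Crouzeix-Palencia form bound. -/

open Complex MeasureTheory Set Filter Topology Polynomial ComplexConjugate
open scoped Real

set_option linter.unusedSectionVars false

namespace Vale.Agent.Lib.P123.U

variable {E : Type*} [NormedAddCommGroup E] [InnerProductSpace ℂ E] [FiniteDimensional ℂ E]

/-- injective operators in finite dimension with a lower bound -/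
lemma isUnit_of_lower {Y : E →L[ℂ] E} {g : ℝ} (hg : 0 < g) (h : ∀ v, g * ‖v‖ ≤ ‖Y v‖) :
    IsUnit Y ∧ ‖Ring.inverse Y‖ ≤ 1 / g := by
  have hinj : Function.Injective Y := by
    rw [injective_iff_map_eq_zero]
    intro v hv
    have := h v
    rw [hv, norm_zero] at this
    have h2 : ‖v‖ ≤ 0 := by
      have := mul_nonpos_iff.1 this |>.elim (fun h => h.2) (fun h => absurd h.1 (not_le.2 hg))
      exact this
    exact norm_le_zero_iff.1 h2
  have hsurj : Function.Surjective Y :=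
    (LinearMap.injective_iff_surjective (f := (Y : E →ₗ[ℂ] E))).1 hinj
  have hU : IsUnit Y := ContinuousLinearMap.isUnit_iff_bijective.2 ⟨hinj, hsurj⟩
  refine ⟨hU, ?_⟩
  refine ContinuousLinearMap.opNorm_le_bound _ (by positivity) fun v => ?_
  have h1 : Y * Ring.inverse Y = 1 := Ring.mul_inverse_cancel _ hU
  have h2 : Y (Ring.inverse Y v) = v := by
    have := congrArg (fun T : E →L[ℂ] E => T v) h1
    simpa using this
  have h3 := h (Ring.inverse Y v)
  rw [h2] at h3
  rw [div_mul_eq_mul_div, one_mul, le_div_iff₀ hg]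
  linarith

/-- expansions of the quadratic form -/
lemma inner_smul_sub (σ : ℂ) (B : E →L[ℂ] E) (v : E) :
    inner ℂ v ((algebraMap ℂ (E →L[ℂ] E) σ - B) v) = σ * (‖v‖ : ℂ) ^ 2 - inner ℂ v (B v) := by
  rw [Algebra.algebraMap_eq_smul_one]
  simp only [ContinuousLinearMap.sub_apply, ContinuousLinearMap.smul_apply,
    ContinuousLinearMap.one_apply, inner_sub_right, inner_smul_right,
    inner_self_eq_norm_sq_to_K]
  norm_cast

namespace SCurve

variable (C : SCurve)

lemma D_affine (u v : ℂ) (s : ℝ) (t : ℝ) :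
    C.D ((1 - s : ℝ) * u + (s : ℂ) * v) t = (1 - s) * C.D u t + s * C.D v t := by
  unfold D
  have : exp (-(I * t)) * (((1 - s : ℝ) : ℂ) * u + (s : ℂ) * v) =
      ((1 - s : ℝ) : ℂ) * (exp (-(I * t)) * u) + (s : ℂ) * (exp (-(I * t)) * v) := by ring
  rw [this, Complex.add_re, Complex.re_ofReal_mul, Complex.re_ofReal_mul]
  ring

lemma D_sub_re (p : ℂ) (t : ℝ) : (exp (-(I * t)) * (C.x t - p)).re = C.D p t := by
  rw [C.w_eq]; simp

/-- the resolvent bound under a gap -/
theorem quad_lower {B : E →L[ℂ] E} {g : ℝ}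
    (hW : ∀ v : E, ‖v‖ = 1 → ∀ t, g ≤ C.D (inner ℂ v (B v)) t) (t : ℝ) (v : E) :
    g * ‖v‖ ^ 2 ≤ (exp (-(I * t)) * inner ℂ v ((algebraMap ℂ (E →L[ℂ] E) (C.x t) - B) v)).re := by
  rcases eq_or_ne v 0 with rfl | hv
  · simp
  have hn : (‖v‖ : ℝ) ≠ 0 := norm_ne_zero_iff.2 hv
  set u : E := ((‖v‖ : ℂ)⁻¹) • v with hu
  have hun : ‖u‖ = 1 := by
    rw [hu, norm_smul, norm_inv, Complex.norm_real, norm_norm]
    field_simp
  have hvu : v = (‖v‖ : ℂ) • u := by
    rw [hu, smul_smul, mul_inv_cancel₀ (by exact_mod_cast hn), one_smul]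
  have h1 : inner ℂ v (B v) = (‖v‖ : ℂ) ^ 2 * inner ℂ u (B u) := by
    conv_lhs => rw [hvu]
    rw [map_smul, inner_smul_left, inner_smul_right, Complex.conj_ofReal]
    ring
  rw [inner_smul_sub, h1]
  have h2 : exp (-(I * t)) * (C.x t * (‖v‖ : ℂ) ^ 2 - (‖v‖ : ℂ) ^ 2 * inner ℂ u (B u)) =
      (((‖v‖ ^ 2 : ℝ)) : ℂ) * (exp (-(I * t)) * (C.x t - inner ℂ u (B u))) := by
    push_cast; ring
  rw [h2, Complex.re_ofReal_mul, D_sub_re]
  have := hW u hun t
  nlinarith [sq_nonneg ‖v‖]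

theorem res_unit_bound {B : E →L[ℂ] E} {g : ℝ} (hg : 0 < g)
    (hW : ∀ v : E, ‖v‖ = 1 → ∀ t, g ≤ C.D (inner ℂ v (B v)) t) (t : ℝ) :
    IsUnit (algebraMap ℂ (E →L[ℂ] E) (C.x t) - B) ∧ ‖C.res B t‖ ≤ 1 / g := by
  refine isUnit_of_lower hg fun v => ?_
  have h1 := C.quad_lower hW t v
  set Y := algebraMap ℂ (E →L[ℂ] E) (C.x t) - B with hY
  have h2 : (exp (-(I * t)) * inner ℂ v (Y v)).re ≤ ‖v‖ * ‖Y v‖ := by
    refine (Complex.re_le_norm _).trans ?_
    rw [norm_mul, norm_exp_neg_I, one_mul]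
    exact norm_inner_le_norm _ _
  rcases eq_or_ne v 0 with rfl | hv
  · simp
  have hn : 0 < ‖v‖ := norm_pos_iff.2 hv
  have h3 : g * ‖v‖ * ‖v‖ ≤ ‖Y v‖ * ‖v‖ := by nlinarith
  exact le_of_mul_le_mul_right h3 hn

/-- Re (e^{it} ⟨u, res u⟩) ≥ 0 -/
theorem re_res_nonneg {B : E →L[ℂ] E} {g : ℝ} (hg : 0 < g)
    (hW : ∀ v : E, ‖v‖ = 1 → ∀ t, g ≤ C.D (inner ℂ v (B v)) t) (t : ℝ) (u : E) :
    0 ≤ (exp (I * t) * inner ℂ u (C.res B t u)).re := by
  have hU := (C.res_unit_bound hg hW t).1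
  set Y := algebraMap ℂ (E →L[ℂ] E) (C.x t) - B with hY
  have h1 : Y * C.res B t = 1 := Ring.mul_inverse_cancel _ hU
  set w := C.res B t u with hw
  have h2 : Y w = u := by
    have := congrArg (fun T : E →L[ℂ] E => T u) h1
    simpa using this
  have h3 := C.quad_lower hW t w
  have h4 : inner ℂ u w = conj (inner ℂ w (Y w)) := by
    rw [h2, inner_conj_symm]
  have h5 : exp (I * t) * conj (inner ℂ w (Y w)) = conj (exp (-(I * t)) * inner ℂ w (Y w)) := by
    rw [map_mul, ← Complex.exp_conj]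
    simp
  rw [h4, h5, Complex.conj_re]
  have : 0 ≤ g * ‖w‖ ^ 2 := by positivity
  linarith

/-- the operator density -/
noncomputable def NN (A : E →L[ℂ] E) (t : ℝ) : E →L[ℂ] E := (C.dx t / (2 * π * I)) • C.res A t

lemma dx_div_two_pi (t : ℝ) : C.dx t / (2 * π * I) = ((C.R t / (2 * π) : ℝ) : ℂ) * exp (I * t) := by
  unfold dx
  have hpi : (π : ℂ) ≠ 0 := by exact_mod_cast Real.pi_ne_zero
  push_cast
  field_simp

section gap

variable {A : E →L[ℂ] E} {g : ℝ} (hg : 0 < g)
  (hW : ∀ v : E, ‖v‖ = 1 → ∀ t, g ≤ C.D (inner ℂ v (A v)) t)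
include hg hW

lemma unit_A (t : ℝ) : IsUnit (algebraMap ℂ (E →L[ℂ] E) (C.x t) - A) :=
  (C.res_unit_bound hg hW t).1

lemma cont_res_A : Continuous (C.res A) := C.continuous_res (C.unit_A hg hW)

lemma cont_NN : Continuous (C.NN A) := by
  unfold NN
  exact (C.cont_dx.div_const _).smul (C.cont_res_A hg hW)

lemma re_NN_nonneg (t : ℝ) (u : E) : 0 ≤ (inner ℂ u (C.NN A t u)).re := by
  unfold NN
  rw [C.dx_div_two_pi, ContinuousLinearMap.smul_apply, inner_smul_right, mul_assoc,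
    Complex.re_ofReal_mul]
  have h1 := C.re_res_nonneg hg hW t u
  have h2 : 0 ≤ C.R t / (2 * π) := div_nonneg (C.R_pos t).le (by positivity)
  exact mul_nonneg h2 h1

/-- the Cauchy formula for `A` -/
theorem integral_dx_res (v₀ : E) (hv₀ : ‖v₀‖ = 1) :
    ∫ t in (0:ℝ)..(2 * π), C.dx t • C.res A t = (2 * π * I : ℂ) • (1 : E →L[ℂ] E) := by
  set c₀ : ℂ := inner ℂ v₀ (A v₀) with hc₀
  have hc₀Om : c₀ ∈ C.Om := fun t => lt_of_lt_of_le hg (hW v₀ hv₀ t)
  set Q : E →L[ℂ] E := A - algebraMap ℂ (E →L[ℂ] E) c₀ with hQ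
  have hA : algebraMap ℂ (E →L[ℂ] E) c₀ + Q = A := by simp [hQ]
  have hW' : ∀ s ∈ Icc (0:ℝ) 1, ∀ v : E, ‖v‖ = 1 → ∀ t, g ≤
      C.D (inner ℂ v ((algebraMap ℂ (E →L[ℂ] E) c₀ + (s : ℂ) • Q) v)) t := by
    intro s hs v hv t
    have e : inner ℂ v ((algebraMap ℂ (E →L[ℂ] E) c₀ + (s : ℂ) • Q) v) =
        ((1 - s : ℝ) : ℂ) * c₀ + (s : ℂ) * inner ℂ v (A v) := by
      have hvv : inner ℂ v v = (1 : ℂ) := by
        rw [inner_self_eq_norm_sq_to_K, hv]; simp
      rw [hQ, Algebra.algebraMap_eq_smul_one]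
      simp only [ContinuousLinearMap.add_apply, ContinuousLinearMap.smul_apply,
        ContinuousLinearMap.one_apply, ContinuousLinearMap.sub_apply, inner_add_right,
        inner_smul_right, inner_sub_right, hvv]
      push_cast
      ring
    rw [e, D_affine]
    have h1 := hW v₀ hv₀ t
    have h2 := hW v hv t
    nlinarith [hs.1, hs.2]
  have := C.cauchy_base hc₀Om Q (G₀ := 1 / g)
    (fun s hs t => (C.res_unit_bound hg (hW' s hs) t).1)
    (fun s hs t => (C.res_unit_bound hg (hW' s hs) t).2)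
  rwa [hA] at this

theorem integral_NN (v₀ : E) (hv₀ : ‖v₀‖ = 1) :
    ∫ t in (0:ℝ)..(2 * π), C.NN A t = (1 : E →L[ℂ] E) := by
  have h1 := C.integral_dx_res hg hW v₀ hv₀
  have hpi : (π : ℂ) ≠ 0 := by exact_mod_cast Real.pi_ne_zero
  have h2 : ∀ t, C.NN A t = (1 / (2 * π * I) : ℂ) • (C.dx t • C.res A t) := by
    intro t
    unfold NN
    rw [smul_smul]
    congr 1
    ring
  simp_rw [h2]
  rw [intervalIntegral.integral_smul, h1, smul_smul]
  have : (1 / (2 * π * I) : ℂ) * (2 * π * I) = 1 := by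
    field_simp
  rw [this, one_smul]

/-- the Cauchy formula for polynomials -/
theorem aeval_eq_integral (v₀ : E) (hv₀ : ‖v₀‖ = 1) (P : ℂ[X]) :
    Polynomial.aeval A P = ∫ t in (0:ℝ)..(2 * π), P.eval (C.x t) • C.NN A t := by
  have h1 := C.integral_eval_res (C.unit_A hg hW) (C.integral_dx_res hg hW v₀ hv₀) P
  have hpi : (π : ℂ) ≠ 0 := by exact_mod_cast Real.pi_ne_zero
  have h2 : ∀ t, P.eval (C.x t) • C.NN A t =
      (1 / (2 * π * I) : ℂ) • ((P.eval (C.x t) * C.dx t) • C.res A t) := by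
    intro t
    unfold NN
    rw [smul_smul, smul_smul]
    congr 1
    ring
  simp_rw [h2]
  rw [intervalIntegral.integral_smul, h1, smul_smul]
  have : (1 / (2 * π * I) : ℂ) * (2 * π * I) = 1 := by
    field_simp
  rw [this, one_smul]

end gap

end SCurve

/-- hermitian Cauchy-Schwarz from accretivity -/
lemma norm_form_le {N : E →L[ℂ] E} (hN : ∀ u, 0 ≤ (inner ℂ u (N u)).re) (a b : E) :
    ‖inner ℂ b (N a) + inner ℂ (N b) a‖ ≤ (inner ℂ a (N a)).re + (inner ℂ b (N b)).re := by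
  set Z : ℂ := inner ℂ b (N a) + inner ℂ (N b) a with hZ
  rcases eq_or_ne Z 0 with h0 | h0
  · rw [h0, norm_zero]
    exact add_nonneg (hN a) (hN b)
  have hZn : (‖Z‖ : ℝ) ≠ 0 := norm_ne_zero_iff.2 h0
  set l : ℂ := Z / (‖Z‖ : ℂ) with hl
  have hln : conj l * Z = (‖Z‖ : ℂ) := by
    rw [hl, map_div₀, Complex.conj_ofReal, div_mul_eq_mul_div, mul_comm (conj Z),
      Complex.mul_conj, Complex.normSq_eq_norm_sq]
    push_cast
    field_simp
  have hZc : (‖Z‖ : ℂ) ≠ 0 := by exact_mod_cast hZn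
  have hll : conj l * l = 1 := by
    rw [hl, map_div₀, Complex.conj_ofReal, div_mul_div_comm, mul_comm (conj Z),
      Complex.mul_conj, Complex.normSq_eq_norm_sq]
    push_cast
    field_simp
  have h1 := hN (a - l • b)
  have h2 : inner ℂ (a - l • b) (N (a - l • b)) =
      inner ℂ a (N a) + inner ℂ b (N b) - l * inner ℂ a (N b) - conj l * inner ℂ b (N a) := by
    rw [map_sub, map_smul, inner_sub_left, inner_sub_right, inner_sub_right, inner_smul_left,
      inner_smul_left, inner_smul_right, inner_smul_right]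
    have : conj l * (l * inner ℂ b (N b)) = inner ℂ b (N b) := by
      rw [← mul_assoc, hll, one_mul]
    rw [this]
    ring
  have h3 : (l * inner ℂ a (N b)).re = (conj l * inner ℂ (N b) a).re := by
    rw [← inner_conj_symm (N b) a, ← Complex.conj_re, map_mul]
  have h4 : (conj l * Z).re = (conj l * inner ℂ b (N a)).re + (conj l * inner ℂ (N b) a).re := by
    rw [hZ, mul_add, Complex.add_re]
  rw [h2] at h1
  simp only [Complex.sub_re, Complex.add_re] at h1
  rw [hln, Complex.ofReal_re] at h4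
  linarith

lemma inner_integral_right {f : ℝ → (E →L[ℂ] E)} (hf : Continuous f) (a b : E) (α β : ℝ) :
    inner ℂ b ((∫ t in α..β, f t) a) = ∫ t in α..β, inner ℂ b (f t a) := by
  have h1 := ((innerSL ℂ b).comp (ContinuousLinearMap.apply ℂ E a)).intervalIntegral_comp_comm
    (hf.intervalIntegrable (μ := volume) α β)
  simpa using h1.symm

lemma inner_integral_left {f : ℝ → (E →L[ℂ] E)} (hf : Continuous f) (a b : E) (α β : ℝ) :
    inner ℂ ((∫ t in α..β, f t) b) a = ∫ t in α..β, inner ℂ (f t b) a := by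
  have hc : Continuous fun t => inner ℂ a (f t b) := by
    have h : Continuous fun t => f t b := hf.clm_apply continuous_const
    exact continuous_const.inner h
  have h1 := (Complex.conjCLE : ℂ →L[ℝ] ℂ).intervalIntegral_comp_comm
    (hc.intervalIntegrable (μ := volume) α β)
  rw [← inner_conj_symm, inner_integral_right hf b a]
  have h2 : ∀ t, inner ℂ (f t b) a = (Complex.conjCLE : ℂ →L[ℝ] ℂ) (inner ℂ a (f t b)) := by
    intro t
    simp [inner_conj_symm]
  simp_rw [h2]
  rw [h1]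
  simp

namespace SCurve

variable (C : SCurve)
variable {A : E →L[ℂ] E} {g : ℝ} (hg : 0 < g)
  (hW : ∀ v : E, ‖v‖ = 1 → ∀ t, g ≤ C.D (inner ℂ v (A v)) t)
include hg hW

/-- The Crouzeix-Palencia form bound. -/
theorem cp_form {a b : E} (ha : ‖a‖ = 1) (hb : ‖b‖ = 1) {h : ℝ → ℂ}
    (hh : Continuous h) {B : ℝ} (hB : ∀ t, ‖h t‖ ≤ B) :
    ‖inner ℂ b ((∫ t in (0:ℝ)..(2 * π), h t • C.NN A t) a) +
      inner ℂ ((∫ t in (0:ℝ)..(2 * π), (conj (h t)) • C.NN A t) b) a‖ ≤ 2 * B := by
  have hNc := C.cont_NN hg hW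
  have hconj : Continuous fun t => conj (h t) := Complex.continuous_conj.comp hh
  have hf1 : Continuous fun t => h t • C.NN A t := hh.smul hNc
  have hf2 : Continuous fun t => conj (h t) • C.NN A t := hconj.smul hNc
  rw [inner_integral_right hf1, inner_integral_left hf2]
  have hca : ∀ u v : E, Continuous fun t => inner ℂ u (C.NN A t v) := fun u v =>
    continuous_const.inner (hNc.clm_apply continuous_const)
  have hcb : ∀ u v : E, Continuous fun t => inner ℂ (C.NN A t u) v := fun u v =>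
    (hNc.clm_apply continuous_const).inner continuous_const
  have e1 : ∀ t, inner ℂ b ((h t • C.NN A t) a) = h t * inner ℂ b (C.NN A t a) := by
    intro t; simp [inner_smul_right]
  have e2 : ∀ t, inner ℂ ((conj (h t) • C.NN A t) b) a = h t * inner ℂ (C.NN A t b) a := by
    intro t; simp [inner_smul_left, mul_comm]
  simp_rw [e1, e2]
  have hc1 : Continuous fun t => h t * inner ℂ b (C.NN A t a) := hh.mul (hca b a)
  have hc2 : Continuous fun t => h t * inner ℂ (C.NN A t b) a := hh.mul (hcb b a)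
  rw [← intervalIntegral.integral_add (hc1.intervalIntegrable _ _) (hc2.intervalIntegrable _ _)]
  have hB0 : 0 ≤ B := (norm_nonneg _).trans (hB 0)
  have hZ : ∀ t, ‖h t * inner ℂ b (C.NN A t a) + h t * inner ℂ (C.NN A t b) a‖ ≤
      B * ((inner ℂ a (C.NN A t a)).re + (inner ℂ b (C.NN A t b)).re) := by
    intro t
    rw [← mul_add, norm_mul]
    exact mul_le_mul (hB t) (norm_form_le (C.re_NN_nonneg hg hW t) a b) (norm_nonneg _) hB0
  have hr : ∀ u : E, Continuous fun t => (inner ℂ u (C.NN A t u)).re := fun u =>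
    Complex.continuous_re.comp (hca u u)
  have hmono := intervalIntegral.norm_integral_le_of_norm_le (μ := volume) (a := (0:ℝ)) (b := 2 * π)
    (f := fun t => h t * inner ℂ b (C.NN A t a) + h t * inner ℂ (C.NN A t b) a)
    (g := fun t => B * ((inner ℂ a (C.NN A t a)).re + (inner ℂ b (C.NN A t b)).re))
    (by positivity) (Eventually.of_forall fun t _ => hZ t)
    (Continuous.intervalIntegrable (μ := volume) (continuous_const.mul ((hr a).add (hr b))) _ _)
  refine hmono.trans (le_of_eq ?_)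
  rw [intervalIntegral.integral_const_mul, intervalIntegral.integral_add
    ((hr a).intervalIntegrable _ _) ((hr b).intervalIntegrable _ _)]
  have hint : ∀ u : E, ‖u‖ = 1 → ∫ t in (0:ℝ)..(2 * π), (inner ℂ u (C.NN A t u)).re = 1 := by
    intro u hu
    have h1 := inner_integral_right hNc u u 0 (2 * π)
    rw [C.integral_NN hg hW u hu] at h1
    have h2 : inner ℂ u ((1 : E →L[ℂ] E) u) = (1 : ℂ) := by
      simp only [ContinuousLinearMap.one_apply]
      rw [inner_self_eq_norm_sq_to_K, hu]; simp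
    rw [h2] at h1
    have h3 := Complex.reCLM.intervalIntegral_comp_comm
      ((hca u u).intervalIntegrable (μ := volume) 0 (2 * π))
    simp only [Complex.reCLM_apply] at h3
    rw [h3, ← h1]
    simp
  rw [hint a ha, hint b hb]
  ring

end SCurve
end Vale.Agent.Lib.P123.U
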