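import Vale.Agent.Lib.P123.U.Core

/-! Basic bounds and total mass of the kernel `kap`. -/

open Complex MeasureTheory Set Filter Topology
open scoped Real

namespace Vale.Agent.Lib.P123.U
namespace SCurve

variable (C : SCurve)

lemma measurable_kap (p : ℂ) : Measurable (C.kap p) := by
  unfold kap
  exact (C.contR.measurable.mul (C.cont_D p).measurable).div
    (((C.cont_D p).pow 2).add ((C.cont_T p).pow 2)).measurable

lemma measurable_kar (p : ℂ) : Measurable (C.kar p) := by
  unfold kar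
  exact (C.contR.measurable.mul (C.cont_T p).measurable).div
    (((C.cont_D p).pow 2).add ((C.cont_T p).pow 2)).measurable

lemma kap_nonneg {p : ℂ} (hp : p ∈ C.K) (t : ℝ) : 0 ≤ C.kap p t :=
  div_nonneg (mul_nonneg (C.R_pos t).le (hp t)) (by positivity)

lemma one_sub_cos_eq (s : ℝ) : 1 - Real.cos s = 2 * Real.sin (s / 2) ^ 2 := by
  have h1 : Real.cos s = Real.cos (2 * (s / 2)) := by ring_nf
  rw [h1, Real.cos_two_mul]
  nlinarith [Real.sin_sq_add_cos_sq (s / 2)]

/-- chord lower bound on `[t0, t0 + π]` -/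
lemma norm_x_sub_ge_aux {t0 t : ℝ} (h0 : t0 ≤ t) (h1 : t ≤ t0 + π) :
    2 * C.rho * Real.sin ((t - t0) / 2) ≤ ‖C.x t - C.x t0‖ := by
  set m : ℝ := (t + t0) / 2 with hm
  set c : ℂ := -I * exp (-(I * m)) with hc
  have hcn : ‖c‖ = 1 := by
    rw [hc, norm_mul, norm_neg, norm_I, one_mul, norm_exp_neg_I]
  set g : ℝ → ℝ := fun u => (c * (C.x u - C.x t0)).re - C.rho * Real.sin (u - m) with hg
  have hcalc : ∀ u, (c * C.dx u).re = Real.cos (u - m) * C.R u := by
    intro u
    have : c * C.dx u = exp (((u - m : ℝ) : ℂ) * I) * (C.R u : ℂ) := by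
      simp only [hc, dx]
      have e1 : ((u - m : ℝ) : ℂ) * I = -(I * m) + I * u := by push_cast; ring
      rw [e1, Complex.exp_add]
      have hI : I * I = -1 := Complex.I_mul_I
      linear_combination (-(exp (-(I * (m : ℂ))) * exp (I * (u : ℂ)) * (C.R u : ℂ))) * hI
    rw [this, Complex.re_mul_ofReal, Complex.exp_ofReal_mul_I_re]
  have hd : ∀ u, HasDerivAt g (Real.cos (u - m) * C.R u - C.rho * Real.cos (u - m)) u := by
    intro u
    have a1 : HasDerivAt (fun u => c * (C.x u - C.x t0)) (c * C.dx u) u :=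
      ((C.hasDerivAt_x u).sub_const _).const_mul c
    have a2 := hasDerivAt_re a1
    rw [hcalc] at a2
    have a3 : HasDerivAt (fun u => Real.sin (u - m)) (Real.cos (u - m)) u := by
      have := ((hasDerivAt_id' u).sub_const m).sin
      simpa using this
    exact a2.fun_sub (a3.const_mul C.rho)
  have hmono : MonotoneOn g (Icc t0 t) := by
    apply monotoneOn_of_deriv_nonneg (convex_Icc _ _)
    · exact fun u _ => (hd u).continuousAt.continuousWithinAt
    · exact fun u _ => (hd u).differentiableAt.differentiableWithinAt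
    · intro u hu
      rw [interior_Icc] at hu
      rw [(hd u).deriv]
      have hcos : 0 ≤ Real.cos (u - m) := by
        apply Real.cos_nonneg_of_neg_pi_div_two_le_of_le <;> simp only [hm] <;>
          linarith [hu.1, hu.2]
      nlinarith [C.R_ge u]
  have := hmono (left_mem_Icc.2 h0) (right_mem_Icc.2 h0) h0
  simp only [hg, sub_self, mul_zero, Complex.zero_re] at this
  have e1 : t0 - m = -((t - t0) / 2) := by simp only [hm]; ring
  have e2 : t - m = (t - t0) / 2 := by simp only [hm]; ring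
  rw [e1, e2, Real.sin_neg] at this
  have hle : (c * (C.x t - C.x t0)).re ≤ ‖C.x t - C.x t0‖ := by
    refine (Complex.re_le_norm _).trans ?_
    rw [norm_mul, hcn, one_mul]
  nlinarith

lemma norm_x_sub_ge (t0 t : ℝ) :
    2 * C.rho * |Real.sin ((t - t0) / 2)| ≤ ‖C.x t - C.x t0‖ := by
  set f : ℝ → ℝ := fun u => ‖C.x u - C.x t0‖ - 2 * C.rho * |Real.sin ((u - t0) / 2)| with hf
  have hper : ∀ u, f (u + 2 * π) = f u := by
    intro u
    have : (u + 2 * π - t0) / 2 = (u - t0) / 2 + π := by ring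
    simp only [hf, C.x_per, this, Real.sin_add_pi, abs_neg]
  obtain ⟨y, hy1, hy2, hy⟩ := exists_period_rep t0 t hper
  have key : 0 ≤ f y := by
    simp only [hf]
    rcases le_total t0 y with hle | hle
    · have := C.norm_x_sub_ge_aux hle hy2
      rw [abs_of_nonneg (Real.sin_nonneg_of_nonneg_of_le_pi (by linarith) (by linarith))]
      linarith
    · have := C.norm_x_sub_ge_aux hle (by linarith : t0 ≤ y + π)
      have e : (y - t0) / 2 = -((t0 - y) / 2) := by ring
      rw [e, Real.sin_neg, abs_neg,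
        abs_of_nonneg (Real.sin_nonneg_of_nonneg_of_le_pi (by linarith) (by linarith)),
        norm_sub_rev]
      linarith
  have : 0 ≤ f t := by rw [hy]; exact key
  simp only [hf] at this
  linarith

/-- uniform kernel bound -/
noncomputable def kb : ℝ := C.Rb ^ 2 / (2 * C.rho ^ 2)

lemma kb_pos : 0 < C.kb := by
  have := C.Rb_pos
  have := C.rho_pos
  unfold kb
  positivity

lemma kap_x_le (t0 t : ℝ) : C.kap (C.x t0) t ≤ C.kb := by
  set S := Real.sin ((t - t0) / 2) with hS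
  have hD0 : 0 ≤ C.D (C.x t0) t := C.x_mem_K t0 t
  have hD1 : C.D (C.x t0) t ≤ C.Rb * (2 * S ^ 2) := by
    have := C.D_upper t0 t
    rwa [one_sub_cos_eq] at this
  have hr : (2 * C.rho * |S|) ^ 2 ≤ C.D (C.x t0) t ^ 2 + C.T (C.x t0) t ^ 2 := by
    rw [← C.normSq_sub]
    have hn := C.norm_x_sub_ge t0 t
    have h0 : 0 ≤ 2 * C.rho * |S| := by have := C.rho_pos; positivity
    exact pow_le_pow_left₀ h0 hn 2
  have hrho := C.rho_pos
  have hRb := C.Rb_pos
  have hkb := C.kb_pos
  rcases eq_or_ne S 0 with hS0 | hS0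
  · have : C.D (C.x t0) t = 0 := by
      rw [hS0] at hD1; nlinarith
    simp [kap, this, hkb.le]
  · have hS2 : 0 < S ^ 2 := by positivity
    have hden : 0 < C.D (C.x t0) t ^ 2 + C.T (C.x t0) t ^ 2 := by
      refine lt_of_lt_of_le ?_ hr
      have : 0 < |S| := abs_pos.2 hS0
      positivity
    unfold kap
    rw [div_le_iff₀ hden]
    have h4 : 4 * C.rho ^ 2 * S ^ 2 ≤ C.D (C.x t0) t ^ 2 + C.T (C.x t0) t ^ 2 := by
      have : (2 * C.rho * |S|) ^ 2 = 4 * C.rho ^ 2 * S ^ 2 := by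
        rw [mul_pow, sq_abs]; ring
      linarith
    have h5 : C.R t * C.D (C.x t0) t ≤ C.Rb * (C.Rb * (2 * S ^ 2)) :=
      mul_le_mul (C.R_le t) hD1 hD0 hRb.le
    have h6 : C.kb * (4 * C.rho ^ 2 * S ^ 2) = C.Rb * (C.Rb * (2 * S ^ 2)) := by
      unfold kb; field_simp; ring
    nlinarith [mul_le_mul_of_nonneg_left h4 hkb.le]

lemma kap_le_of_D_ge {p : ℂ} {t g : ℝ} (hg : 0 < g) (h : g ≤ C.D p t) :
    C.kap p t ≤ C.Rb / g := by
  have hD : 0 < C.D p t := lt_of_lt_of_le hg h
  have hden : 0 < C.D p t ^ 2 + C.T p t ^ 2 := by positivity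
  unfold kap
  rw [div_le_iff₀ hden, div_mul_eq_mul_div, le_div_iff₀ hg]
  have hR := C.R_le t
  have hRp := C.R_pos t
  have h1 : C.R t * C.D p t * g ≤ C.Rb * C.D p t * C.D p t := by
    have : C.R t * g ≤ C.Rb * C.D p t := mul_le_mul hR h hg.le C.Rb_pos.le
    nlinarith
  nlinarith [mul_nonneg C.Rb_pos.le (sq_nonneg (C.T p t))]

/-- bounded measurable functions are interval integrable -/
lemma intervalIntegrable_of_bdd {g : ℝ → ℝ} {B : ℝ} (hm : Measurable g) (hb : ∀ t, |g t| ≤ B)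
    (a b : ℝ) : IntervalIntegrable g volume a b := by
  rw [intervalIntegrable_iff]
  refine Measure.integrableOn_of_bounded (M := B) ?_ hm.aestronglyMeasurable ?_
  · simp
  · exact Eventually.of_forall fun t => by simpa using hb t

lemma abs_kap_x_le (t0 t : ℝ) : |C.kap (C.x t0) t| ≤ C.kb := by
  rw [abs_of_nonneg (C.kap_nonneg (C.x_mem_K t0) t)]
  exact C.kap_x_le t0 t

lemma intervalIntegrable_kap_x (t0 a b : ℝ) : IntervalIntegrable (C.kap (C.x t0)) volume a b :=
  intervalIntegrable_of_bdd (C.measurable_kap _) (C.abs_kap_x_le t0) a b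

lemma D_x_pos {t0 t : ℝ} (h0 : t0 < t) (h1 : t < t0 + 2 * π) : 0 < C.D (C.x t0) t := by
  have h := C.D_lower t0 t
  have hc : Real.cos (t - t0) < 1 := by
    have hne : Real.cos (t - t0) ≠ 1 := by
      intro hc1
      have := (Real.cos_eq_one_iff_of_lt_of_lt (x := t - t0) (by linarith [Real.pi_pos])
        (by linarith)).1 hc1
      linarith
    exact lt_of_le_of_ne (Real.cos_le_one _) hne
  have := C.rho_pos
  nlinarith

/-! ### the angle function -/

noncomputable def ang (p : ℂ) (t : ℝ) : ℝ := Real.arctan (C.T p t / C.D p t)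

lemma hasDerivAt_ang {p : ℂ} {t : ℝ} (h : 0 < C.D p t) :
    HasDerivAt (C.ang p) (C.kap p t - 1) t := by
  have h1 := (C.hasDerivAt_T p t).fun_div (C.hasDerivAt_D p t) h.ne'
  have h2 := h1.arctan
  refine HasDerivAt.congr_deriv h2 ?_
  unfold kap
  have hden : C.D p t ^ 2 + C.T p t ^ 2 ≠ 0 := by positivity
  field_simp
  ring

/-- the direction angle -/
noncomputable def phi (p : ℂ) (t : ℝ) : ℝ := t + C.ang p t

lemma hasDerivAt_phi {p : ℂ} {t : ℝ} (h : 0 < C.D p t) :
    HasDerivAt (C.phi p) (C.kap p t) t := by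
  have := (hasDerivAt_id' t).fun_add (C.hasDerivAt_ang h)
  refine this.congr_deriv ?_
  ring

lemma tendsto_ratio_right (a : ℝ) :
    Tendsto (fun t => C.T (C.x a) t / C.D (C.x a) t) (𝓝[>] a) atTop := by
  have hD := C.hasDerivAt_D (C.x a) a
  have hT := C.hasDerivAt_T (C.x a) a
  rw [T_x_self] at hD
  rw [D_x_self, sub_zero] at hT
  have hle : 𝓝[>] a ≤ 𝓝[≠] a := nhdsWithin_mono _ (fun y hy => ne_of_gt hy)
  have h1 := (hasDerivAt_iff_tendsto_slope.1 hD).mono_left hle
  have h2 := (hasDerivAt_iff_tendsto_slope.1 hT).mono_left hle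
  have hev : ∀ᶠ t in 𝓝[>] a, t ∈ Ioo a (a + 2 * π) :=
    Ioo_mem_nhdsGT (by linarith [Real.pi_pos])
  have h1' : Tendsto (slope (C.D (C.x a)) a) (𝓝[>] a) (𝓝[>] 0) := by
    refine tendsto_nhdsWithin_iff.2 ⟨h1, ?_⟩
    filter_upwards [hev] with t ht
    simp only [slope, vsub_eq_sub, smul_eq_mul, D_x_self, sub_zero, mem_Ioi]
    have : 0 < t - a := by linarith [ht.1]
    exact mul_pos (inv_pos.2 this) (C.D_x_pos ht.1 ht.2)
  have h3 := h2.pos_mul_atTop (C.R_pos a) (tendsto_inv_nhdsGT_zero.comp h1')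
  refine h3.congr' ?_
  filter_upwards [hev] with t ht
  have hs : t - a ≠ 0 := sub_ne_zero.2 ht.1.ne'
  have hDne := (C.D_x_pos ht.1 ht.2).ne'
  simp only [slope_def_field, D_x_self, T_x_self, sub_zero, Function.comp_apply]
  field_simp

lemma tendsto_ratio_left (a : ℝ) :
    Tendsto (fun t => C.T (C.x a) t / C.D (C.x a) t) (𝓝[<] a) atBot := by
  have hD := C.hasDerivAt_D (C.x a) a
  have hT := C.hasDerivAt_T (C.x a) a
  rw [T_x_self] at hD
  rw [D_x_self, sub_zero] at hT
  have hle : 𝓝[<] a ≤ 𝓝[≠] a := nhdsWithin_mono _ (fun y hy => ne_of_lt hy)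
  have h1 := (hasDerivAt_iff_tendsto_slope.1 hD).mono_left hle
  have h2 := (hasDerivAt_iff_tendsto_slope.1 hT).mono_left hle
  have hev : ∀ᶠ t in 𝓝[<] a, t ∈ Ioo (a - 2 * π) a :=
    Ioo_mem_nhdsLT (by linarith [Real.pi_pos])
  have hDpos : ∀ t ∈ Ioo (a - 2 * π) a, 0 < C.D (C.x a) t := by
    intro t ht
    have hx : C.x a = C.x (a - 2 * π) := by
      have := C.x_per (a - 2 * π)
      rw [sub_add_cancel] at this
      exact this
    rw [hx]
    exact C.D_x_pos ht.1 (by linarith [ht.2])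
  have h1' : Tendsto (slope (C.D (C.x a)) a) (𝓝[<] a) (𝓝[<] 0) := by
    refine tendsto_nhdsWithin_iff.2 ⟨h1, ?_⟩
    filter_upwards [hev] with t ht
    simp only [slope, vsub_eq_sub, smul_eq_mul, D_x_self, sub_zero, mem_Iio]
    have : t - a < 0 := by linarith [ht.2]
    exact mul_neg_of_neg_of_pos (inv_lt_zero.2 this) (hDpos t ht)
  have h3 := h2.pos_mul_atBot (C.R_pos a) (tendsto_inv_nhdsLT_zero.comp h1')
  refine h3.congr' ?_
  filter_upwards [hev] with t ht
  have hs : t - a ≠ 0 := by intro h'; linarith [ht.2]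
  have hDne := (hDpos t ht).ne'
  simp only [slope_def_field, D_x_self, T_x_self, sub_zero, Function.comp_apply]
  field_simp

lemma tendsto_ang_right (a : ℝ) : Tendsto (C.ang (C.x a)) (𝓝[>] a) (𝓝 (π / 2)) :=
  (Real.tendsto_arctan_atTop.mono_right nhdsWithin_le_nhds).comp (C.tendsto_ratio_right a)

lemma tendsto_ang_left (a : ℝ) : Tendsto (C.ang (C.x a)) (𝓝[<] a) (𝓝 (-(π / 2))) :=
  (Real.tendsto_arctan_atBot.mono_right nhdsWithin_le_nhds).comp (C.tendsto_ratio_left a)

lemma x_add_two_pi (t0 : ℝ) : C.x (t0 + 2 * π) = C.x t0 := C.x_per t0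

/-- total mass of the boundary kernel -/
theorem integral_kap_x (t0 : ℝ) : ∫ t in t0..(t0 + 2 * π), C.kap (C.x t0) t = π := by
  have hlt : t0 < t0 + 2 * π := by linarith [Real.pi_pos]
  have hint : IntervalIntegrable (fun t => C.kap (C.x t0) t - 1) volume t0 (t0 + 2 * π) :=
    (C.intervalIntegrable_kap_x t0 _ _).sub intervalIntegrable_const
  have h := intervalIntegral.integral_eq_sub_of_hasDerivAt_of_tendsto hlt
    (f := C.ang (C.x t0)) (f' := fun t => C.kap (C.x t0) t - 1)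
    (fun t ht => C.hasDerivAt_ang (C.D_x_pos ht.1 ht.2)) hint
    (C.tendsto_ang_right t0)
    (by
      have := C.tendsto_ang_left (t0 + 2 * π)
      rwa [C.x_add_two_pi] at this)
  rw [intervalIntegral.integral_sub (C.intervalIntegrable_kap_x t0 _ _) intervalIntegrable_const]
    at h
  simp only [intervalIntegral.integral_const, smul_eq_mul, mul_one] at h
  linarith

lemma per_kap (p : ℂ) : Function.Periodic (C.kap p) (2 * π) := C.kap_per p

theorem integral_kap_x' (t0 : ℝ) : ∫ t in (0:ℝ)..(2 * π), C.kap (C.x t0) t = π := by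
  have h := (C.per_kap (C.x t0)).intervalIntegral_add_eq t0 0
  rw [zero_add] at h
  rw [← h, integral_kap_x]

lemma D_pos_of_Om {p : ℂ} (hp : p ∈ C.Om) (t : ℝ) : 0 < C.D p t := hp t

/-- uniform depth of an interior point -/
lemma exists_depth {p : ℂ} (hp : p ∈ C.Om) : ∃ g > 0, ∀ t, g ≤ C.D p t := by
  obtain ⟨t1, -, ht1⟩ := (isCompact_Icc (a := (0:ℝ)) (b := 2 * π)).exists_isMinOn
    (nonempty_Icc.2 (by positivity)) (C.cont_D p).continuousOn
  refine ⟨C.D p t1, hp t1, fun t => ?_⟩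
  have hper : Function.Periodic (C.D p) (2 * π) := C.D_per p
  obtain ⟨y, hy, hfy⟩ := hper.exists_mem_Ico₀ (by positivity) t
  rw [hfy]
  exact ht1 ⟨hy.1, hy.2.le⟩

lemma intervalIntegrable_kap_Om {p : ℂ} (hp : p ∈ C.Om) (a b : ℝ) :
    IntervalIntegrable (C.kap p) volume a b := by
  obtain ⟨g, hg, hgt⟩ := C.exists_depth hp
  refine intervalIntegrable_of_bdd (C.measurable_kap _) (B := C.Rb / g) (fun t => ?_) a b
  rw [abs_of_nonneg (C.kap_nonneg (fun t => (hp t).le) t)]
  exact C.kap_le_of_D_ge hg (hgt t)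

theorem integral_kap_Om {p : ℂ} (hp : p ∈ C.Om) : ∫ t in (0:ℝ)..(2 * π), C.kap p t = 2 * π := by
  have hint : IntervalIntegrable (fun t => C.kap p t - 1) volume 0 (2 * π) :=
    (C.intervalIntegrable_kap_Om hp _ _).sub intervalIntegrable_const
  have h := intervalIntegral.integral_eq_sub_of_hasDerivAt (f := C.ang p)
    (f' := fun t => C.kap p t - 1) (a := 0) (b := 2 * π)
    (fun t _ => C.hasDerivAt_ang (hp t)) hint
  rw [intervalIntegral.integral_sub (C.intervalIntegrable_kap_Om hp _ _) intervalIntegrable_const]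
    at h
  simp only [intervalIntegral.integral_const, smul_eq_mul, mul_one] at h
  have hper : C.ang p (2 * π) = C.ang p 0 := by
    unfold ang
    have h1 := C.T_per p 0
    have h2 := C.D_per p 0
    rw [zero_add] at h1 h2
    rw [h1, h2]
  rw [hper] at h
  linarith

/-- `(1/2) log (D² + T²)` -/
lemma hasDerivAt_logr {p : ℂ} {t : ℝ} (h : 0 < C.D p t) :
    HasDerivAt (fun t => Real.log (C.D p t ^ 2 + C.T p t ^ 2) / 2) (C.kar p t) t := by
  have h0 : C.D p t ^ 2 + C.T p t ^ 2 ≠ 0 := by positivity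
  have h1 : HasDerivAt (fun t => C.D p t ^ 2 + C.T p t ^ 2)
      (2 * C.D p t * C.T p t + 2 * C.T p t * (C.R t - C.D p t)) t := by
    have a1 := (C.hasDerivAt_D p t).pow 2
    have a2 := (C.hasDerivAt_T p t).pow 2
    refine (a1.fun_add a2).congr_deriv ?_
    simp
  have h2 := (h1.log h0).div_const 2
  refine h2.congr_deriv ?_
  unfold kar
  field_simp
  ring

lemma intervalIntegrable_kar_Om {p : ℂ} (hp : p ∈ C.Om) (a b : ℝ) :
    IntervalIntegrable (C.kar p) volume a b := by
  obtain ⟨g, hg, hgt⟩ := C.exists_depth hp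
  refine intervalIntegrable_of_bdd (C.measurable_kar _) (B := C.Rb / g) (fun t => ?_) a b
  have hD : 0 < C.D p t := hp t
  have hden : 0 < C.D p t ^ 2 + C.T p t ^ 2 := by positivity
  unfold kar
  rw [abs_div, abs_of_pos hden, div_le_div_iff₀ hden hg, abs_mul, abs_of_pos (C.R_pos t)]
  have hT : 2 * |C.T p t| * C.D p t ≤ C.D p t ^ 2 + C.T p t ^ 2 := by
    have := sq_abs (C.T p t)
    nlinarith [sq_nonneg (|C.T p t| - C.D p t), abs_nonneg (C.T p t)]
  have hR := C.R_le t
  have hRp := C.R_pos t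
  have hgD := hgt t
  have hTn := abs_nonneg (C.T p t)
  have h1 : |C.T p t| * g ≤ |C.T p t| * C.D p t := mul_le_mul_of_nonneg_left hgD hTn
  have h2 : |C.T p t| * g ≤ C.D p t ^ 2 + C.T p t ^ 2 := by nlinarith
  calc C.R t * |C.T p t| * g = C.R t * (|C.T p t| * g) := by ring
    _ ≤ C.Rb * (C.D p t ^ 2 + C.T p t ^ 2) := mul_le_mul hR h2 (by positivity) C.Rb_pos.le

theorem integral_kar_Om {p : ℂ} (hp : p ∈ C.Om) : ∫ t in (0:ℝ)..(2 * π), C.kar p t = 0 := by
  have h := intervalIntegral.integral_eq_sub_of_hasDerivAt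
    (f := fun t => Real.log (C.D p t ^ 2 + C.T p t ^ 2) / 2)
    (f' := C.kar p) (a := 0) (b := 2 * π)
    (fun t _ => C.hasDerivAt_logr (hp t)) (C.intervalIntegrable_kar_Om hp _ _)
  have h1 := C.T_per p 0
  have h2 := C.D_per p 0
  rw [zero_add] at h1 h2
  rw [h, h1, h2, sub_self]

/-- `x'/(x-p) = kar + i kap` whenever `x t ≠ p`. -/
lemma dx_div (p : ℂ) (t : ℝ) :
    C.dx t / (C.x t - p) = (C.kar p t : ℂ) + I * (C.kap p t : ℂ) := by
  by_cases h : C.D p t ^ 2 + C.T p t ^ 2 = 0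
  · have h1 : C.x t - p = 0 := by
      have := C.normSq_sub p t
      rw [h] at this
      exact norm_eq_zero.1 (pow_eq_zero_iff (two_ne_zero)|>.1 this)
    simp [h1, kar, kap, h]
  · have hne : ((C.D p t : ℂ) + I * (C.T p t : ℂ)) ≠ 0 := by
      intro h0
      have hr := congrArg Complex.re h0
      have hi := congrArg Complex.im h0
      simp at hr hi
      exact h (by rw [hr, hi]; ring)
    have hh : ((C.D p t : ℂ) ^ 2 + (C.T p t : ℂ) ^ 2) ≠ 0 := by
      exact_mod_cast h
    have hexp : exp (I * t) ≠ 0 := Complex.exp_ne_zero _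
    rw [C.x_sub_eq]
    unfold dx kar kap
    push_cast
    field_simp
    have hI : I ^ 2 = -1 := Complex.I_sq
    linear_combination (-(C.R t : ℂ) * (C.D p t : ℂ) * (C.T p t : ℂ)) * hI

end SCurve
end Vale.Agent.Lib.P123.U
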