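import Vale.Agent.Lib.P123.U.Boundary

/-! Properties of the boundary operator `LC`, `LR`. -/

open Complex MeasureTheory Set Filter Topology Polynomial ComplexConjugate
open scoped Real

set_option linter.unusedSectionVars false

namespace Vale.Agent.Lib.P123.U
namespace SCurve

variable (C : SCurve)

lemma D_x_pos_of_ne {t₀ t : ℝ} (h : Real.cos (t - t₀) ≠ 1) : 0 < C.D (C.x t₀) t := by
  have h1 := C.D_lower t₀ t
  have h2 : Real.cos (t - t₀) < 1 := lt_of_le_of_ne (Real.cos_le_one _) h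
  have := C.rho_pos
  nlinarith

lemma ae_cos_ne (t₀ : ℝ) : ∀ᵐ t ∂(volume : Measure ℝ), Real.cos (t - t₀) ≠ 1 := by
  have hc : (Set.range fun n : ℤ => t₀ + (n : ℝ) * (2 * π)).Countable := Set.countable_range _
  filter_upwards [hc.ae_notMem volume] with t ht h1
  rw [Real.cos_eq_one_iff] at h1
  obtain ⟨n, hn⟩ := h1
  exact ht ⟨n, by simp only; linarith⟩

lemma continuousAt_kap_param (t₀ t : ℝ) (h : Real.cos (t - t₀) ≠ 1) :
    ContinuousAt (fun s => C.kap (C.x s) t) t₀ := by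
  have hD : 0 < C.D (C.x t₀) t := C.D_x_pos_of_ne h
  have hcD : Continuous fun s => C.D (C.x s) t := by
    unfold D
    exact continuous_const.sub (Complex.continuous_re.comp (continuous_const.mul C.cont_x))
  have hcT : Continuous fun s => C.T (C.x s) t := by
    unfold T
    exact continuous_const.sub (Complex.continuous_im.comp (continuous_const.mul C.cont_x))
  unfold kap
  refine ContinuousAt.div ?_ ?_ ?_
  · exact (continuous_const.mul hcD).continuousAt
  · exact ((hcD.pow 2).add (hcT.pow 2)).continuousAt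
  · positivity

lemma iI_mul_kap {g : ℝ → ℂ} (hg : Continuous g) (t₀ α β : ℝ) :
    IntervalIntegrable (fun t => g t * (C.kap (C.x t₀) t : ℂ)) volume α β :=
  (iI_ofReal (C.intervalIntegrable_kap_x t₀ α β)).continuousOn_mul hg.continuousOn

lemma iIR_mul_kap {g : ℝ → ℝ} (hg : Continuous g) (t₀ α β : ℝ) :
    IntervalIntegrable (fun t => g t * C.kap (C.x t₀) t) volume α β :=
  (C.intervalIntegrable_kap_x t₀ α β).continuousOn_mul hg.continuousOn

theorem continuous_LC {g : ℝ → ℂ} (hg : Continuous g) : Continuous (C.LC g) := by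
  refine continuous_iff_continuousAt.2 fun t₀ => ?_
  unfold LC
  refine continuousAt_const.mul ?_
  obtain ⟨B, hB⟩ := (isCompact_Icc (a := (0:ℝ)) (b := 2 * π)).exists_bound_of_continuousOn
    hg.continuousOn
  have hBb : ∀ t ∈ Set.uIoc (0:ℝ) (2 * π), ‖g t‖ ≤ B := by
    intro t ht
    rw [uIoc_of_le (by positivity)] at ht
    exact hB t ⟨ht.1.le, ht.2⟩
  refine intervalIntegral.continuousAt_of_dominated_interval (bound := fun _ => B * C.kb)
    ?_ ?_ intervalIntegrable_const ?_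
  · refine Eventually.of_forall fun s => ?_
    exact (hg.measurable.mul (Complex.measurable_ofReal.comp (C.measurable_kap _))).aestronglyMeasurable
  · refine Eventually.of_forall fun s => Eventually.of_forall fun t ht => ?_
    rw [norm_mul, Complex.norm_real, Real.norm_eq_abs]
    exact mul_le_mul (hBb t ht) (C.abs_kap_x_le s t) (abs_nonneg _)
      ((norm_nonneg _).trans (hBb t ht))
  · filter_upwards [ae_cos_ne t₀] with t ht _
    exact continuousAt_const.mul (Complex.continuous_ofReal.continuousAt.comp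
      (C.continuousAt_kap_param t₀ t ht))

lemma LC_ofReal (g : ℝ → ℝ) (t₀ : ℝ) : C.LC (fun t => (g t : ℂ)) t₀ = (C.LR g t₀ : ℂ) := by
  unfold LC LR
  push_cast
  congr 1
  rw [← intervalIntegral.integral_ofReal]
  refine intervalIntegral.integral_congr fun t _ => ?_
  simp

theorem continuous_LR {g : ℝ → ℝ} (hg : Continuous g) : Continuous (C.LR g) := by
  have h := C.continuous_LC (g := fun t => (g t : ℂ)) (Complex.continuous_ofReal.comp hg)
  have e : C.LR g = fun t => (C.LC (fun t => (g t : ℂ)) t).re := by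
    ext t; rw [LC_ofReal]; simp
  rw [e]
  exact Complex.continuous_re.comp h

lemma LR_const (c t₀ : ℝ) : C.LR (fun _ => c) t₀ = c := by
  unfold LR
  rw [intervalIntegral.integral_const_mul, C.integral_kap_x']
  have := Real.pi_pos
  field_simp

lemma LC_const (c : ℂ) (t₀ : ℝ) : C.LC (fun _ => c) t₀ = c := by
  unfold LC
  rw [intervalIntegral.integral_const_mul, intervalIntegral.integral_ofReal, C.integral_kap_x']
  have hpi : (π : ℂ) ≠ 0 := by exact_mod_cast Real.pi_ne_zero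
  push_cast
  field_simp

lemma LR_mono {g₁ g₂ : ℝ → ℝ} (h₁ : Continuous g₁) (h₂ : Continuous g₂) (h : ∀ t, g₁ t ≤ g₂ t)
    (t₀ : ℝ) : C.LR g₁ t₀ ≤ C.LR g₂ t₀ := by
  unfold LR
  refine mul_le_mul_of_nonneg_left ?_ (by positivity)
  refine intervalIntegral.integral_mono_on (by positivity) (C.iIR_mul_kap h₁ t₀ _ _)
    (C.iIR_mul_kap h₂ t₀ _ _) fun t _ => ?_
  exact mul_le_mul_of_nonneg_right (h t) (C.kap_nonneg (C.x_mem_K t₀) t)

lemma LR_add {g₁ g₂ : ℝ → ℝ} (h₁ : Continuous g₁) (h₂ : Continuous g₂) (t₀ : ℝ) :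
    C.LR (fun t => g₁ t + g₂ t) t₀ = C.LR g₁ t₀ + C.LR g₂ t₀ := by
  unfold LR
  rw [← mul_add, ← intervalIntegral.integral_add (C.iIR_mul_kap h₁ t₀ _ _) (C.iIR_mul_kap h₂ t₀ _ _)]
  congr 1
  refine intervalIntegral.integral_congr fun t _ => ?_
  beta_reduce
  ring

lemma LR_const_mul (c : ℝ) (g : ℝ → ℝ) (t₀ : ℝ) : C.LR (fun t => c * g t) t₀ = c * C.LR g t₀ := by
  unfold LR
  have : ∀ t, c * g t * C.kap (C.x t₀) t = c * (g t * C.kap (C.x t₀) t) := fun t => by ring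
  simp_rw [this]
  rw [intervalIntegral.integral_const_mul]
  ring

lemma LC_add {g₁ g₂ : ℝ → ℂ} (h₁ : Continuous g₁) (h₂ : Continuous g₂) (t₀ : ℝ) :
    C.LC (fun t => g₁ t + g₂ t) t₀ = C.LC g₁ t₀ + C.LC g₂ t₀ := by
  unfold LC
  rw [← mul_add, ← intervalIntegral.integral_add (C.iI_mul_kap h₁ t₀ _ _) (C.iI_mul_kap h₂ t₀ _ _)]
  congr 1
  refine intervalIntegral.integral_congr fun t _ => ?_
  beta_reduce
  ring

lemma LC_sub {g₁ g₂ : ℝ → ℂ} (h₁ : Continuous g₁) (h₂ : Continuous g₂) (t₀ : ℝ) :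
    C.LC (fun t => g₁ t - g₂ t) t₀ = C.LC g₁ t₀ - C.LC g₂ t₀ := by
  unfold LC
  rw [← mul_sub, ← intervalIntegral.integral_sub (C.iI_mul_kap h₁ t₀ _ _) (C.iI_mul_kap h₂ t₀ _ _)]
  congr 1
  refine intervalIntegral.integral_congr fun t _ => ?_
  beta_reduce
  ring

lemma LC_const_mul (c : ℂ) (g : ℝ → ℂ) (t₀ : ℝ) : C.LC (fun t => c * g t) t₀ = c * C.LC g t₀ := by
  unfold LC
  have : ∀ t, c * g t * (C.kap (C.x t₀) t : ℂ) = c * (g t * (C.kap (C.x t₀) t : ℂ)) := fun t => by ring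
  simp_rw [this]
  rw [intervalIntegral.integral_const_mul]
  ring

/-- `‖LC g‖ ≤ LR ‖g‖` -/
lemma norm_LC_le_LR {g : ℝ → ℂ} (hg : Continuous g) (t₀ : ℝ) :
    ‖C.LC g t₀‖ ≤ C.LR (fun t => ‖g t‖) t₀ := by
  unfold LC LR
  rw [norm_mul, Complex.norm_real, Real.norm_of_nonneg (by positivity)]
  refine mul_le_mul_of_nonneg_left ?_ (by positivity)
  refine intervalIntegral.norm_integral_le_of_norm_le (by positivity)
    (Eventually.of_forall fun t _ => ?_) (C.iIR_mul_kap hg.norm t₀ _ _)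
  rw [norm_mul, Complex.norm_real, Real.norm_eq_abs, abs_of_nonneg (C.kap_nonneg (C.x_mem_K t₀) t)]

lemma norm_LC_le {g : ℝ → ℂ} (hg : Continuous g) {B : ℝ} (hB : ∀ t, ‖g t‖ ≤ B) (t₀ : ℝ) :
    ‖C.LC g t₀‖ ≤ B := by
  refine (C.norm_LC_le_LR hg t₀).trans ?_
  have := C.LR_mono hg.norm continuous_const hB t₀
  rwa [LR_const] at this

lemma LR_nonneg {g : ℝ → ℝ} (hg : Continuous g) (h : ∀ t, 0 ≤ g t) (t₀ : ℝ) : 0 ≤ C.LR g t₀ := by
  have := C.LR_mono continuous_const hg h t₀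
  rwa [LR_const] at this

lemma LC_conj (g : ℝ → ℂ) (t₀ : ℝ) (hg : Continuous g) :
    C.LC (fun t => conj (g t)) t₀ = conj (C.LC g t₀) := by
  unfold LC
  rw [map_mul, Complex.conj_ofReal]
  congr 1
  have := (Complex.conjCLE : ℂ →L[ℝ] ℂ).intervalIntegral_comp_comm
    (C.iI_mul_kap hg t₀ 0 (2 * π))
  have e : ∀ t, (Complex.conjCLE : ℂ →L[ℝ] ℂ) (g t * (C.kap (C.x t₀) t : ℂ)) =
      conj (g t) * (C.kap (C.x t₀) t : ℂ) := by
    intro t; simp
  simp_rw [e] at this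
  rw [this]
  simp

lemma LC_re {g : ℝ → ℂ} (hg : Continuous g) (t₀ : ℝ) :
    (C.LC g t₀).re = C.LR (fun t => (g t).re) t₀ := by
  unfold LC LR
  rw [Complex.re_ofReal_mul]
  congr 1
  have := Complex.reCLM.intervalIntegral_comp_comm (C.iI_mul_kap hg t₀ 0 (2 * π))
  simp only [Complex.reCLM_apply, Complex.re_mul_ofReal] at this
  exact this.symm

lemma norm_add_sq_expand (a b : ℂ) :
    ‖a + b‖ ^ 2 = ‖a‖ ^ 2 + ‖b‖ ^ 2 + 2 * (conj b * a).re := by
  rw [← Complex.normSq_eq_norm_sq, ← Complex.normSq_eq_norm_sq, ← Complex.normSq_eq_norm_sq,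
    Complex.normSq_add, mul_comm (conj b)]

lemma cont_eval (f : ℂ[X]) : Continuous fun t => f.eval (C.x t) := f.continuous.comp C.cont_x

lemma A1_formula (f : ℂ[X]) (t₀ : ℝ) :
    C.A1 f t₀ = ‖f.eval (C.x t₀)‖ ^ 2 + C.LR (fun t => ‖f.eval (C.x t)‖ ^ 2) t₀ +
      2 * (conj (f.eval (C.x t₀)) * C.LC (fun t => f.eval (C.x t)) t₀).re := by
  unfold A1
  set a := f.eval (C.x t₀) with ha
  have hf := C.cont_eval f
  have h1 : (fun s => ‖f.eval (C.x s) + a‖ ^ 2) = fun s =>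
      (‖f.eval (C.x s)‖ ^ 2 + ‖a‖ ^ 2) + 2 * (conj a * f.eval (C.x s)).re := by
    ext s; rw [norm_add_sq_expand]
  rw [h1]
  have c1 : Continuous fun s => ‖f.eval (C.x s)‖ ^ 2 := hf.norm.pow 2
  have c2 : Continuous fun s => (conj a * f.eval (C.x s)).re :=
    Complex.continuous_re.comp (continuous_const.mul hf)
  have c12 : Continuous fun s => ‖f.eval (C.x s)‖ ^ 2 + ‖a‖ ^ 2 := c1.add continuous_const
  have c3 : Continuous fun s => 2 * (conj a * f.eval (C.x s)).re := continuous_const.mul c2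
  have c4 : Continuous fun s => conj a * f.eval (C.x s) := continuous_const.mul hf
  rw [C.LR_add c12 c3, C.LR_add c1 continuous_const,
    C.LR_const, C.LR_const_mul, ← C.LC_re c4, C.LC_const_mul]
  ring

lemma cont_A1 (f : ℂ[X]) : Continuous (C.A1 f) := by
  have h : C.A1 f = fun t₀ => ‖f.eval (C.x t₀)‖ ^ 2 + C.LR (fun t => ‖f.eval (C.x t)‖ ^ 2) t₀ +
      2 * (conj (f.eval (C.x t₀)) * C.LC (fun t => f.eval (C.x t)) t₀).re := by
    ext t₀; exact C.A1_formula f t₀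
  rw [h]
  have hf := C.cont_eval f
  exact (((hf.norm.pow 2).add (C.continuous_LR (hf.norm.pow 2))).add
    (continuous_const.mul (Complex.continuous_re.comp
      ((Complex.continuous_conj.comp hf).mul (C.continuous_LC hf)))))

lemma A1_nonneg (f : ℂ[X]) (t₀ : ℝ) : 0 ≤ C.A1 f t₀ := by
  unfold A1
  exact C.LR_nonneg (((C.cont_eval f).add continuous_const).norm.pow 2) (fun t => pow_nonneg (norm_nonneg _) 2) t₀

lemma A2_nonneg (f : ℂ[X]) (t₀ : ℝ) : 0 ≤ C.A2 f t₀ :=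
  C.LR_nonneg (C.cont_A1 f) (C.A1_nonneg f) t₀

lemma cont_A2 (f : ℂ[X]) : Continuous (C.A2 f) := C.continuous_LR (C.cont_A1 f)

lemma kap_x_per (t₀ t : ℝ) : C.kap (C.x (t₀ + 2 * π)) t = C.kap (C.x t₀) t := by
  rw [C.x_per]

lemma LC_per (g : ℝ → ℂ) (t₀ : ℝ) : C.LC g (t₀ + 2 * π) = C.LC g t₀ := by
  unfold LC; rw [C.x_per]

lemma LR_per (g : ℝ → ℝ) (t₀ : ℝ) : C.LR g (t₀ + 2 * π) = C.LR g t₀ := by
  unfold LR; rw [C.x_per]

end SCurve
end Vale.Agent.Lib.P123.U
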