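import Vale.Agent.Lib.P123.U.Shift

/-! Simultaneous polynomial approximation of the Cauchy integrals on `K` and at `A`,
through Neumann series in the product algebra `(E →L E) × C(K, ℂ)`. -/

open Complex MeasureTheory Set Filter Topology Polynomial ComplexConjugate
open scoped Real

set_option linter.unusedSectionVars false

namespace Vale.Agent.Lib.P123.U

section closure

variable {𝔸 : Type*} [NormedRing 𝔸] [NormedAlgebra ℂ 𝔸] [CompleteSpace 𝔸]

/-- closure of the polynomials in `a` -/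
noncomputable def polyClosure (a : 𝔸) : Subalgebra ℂ 𝔸 := (Polynomial.aeval a).range.topologicalClosure

lemma isClosed_polyClosure (a : 𝔸) : IsClosed (polyClosure a : Set 𝔸) :=
  Subalgebra.isClosed_topologicalClosure _

lemma sub_mem_polyClosure (a : 𝔸) (σ : ℂ) : algebraMap ℂ 𝔸 σ - a ∈ polyClosure a := by
  apply Subalgebra.le_topologicalClosure
  exact ⟨Polynomial.C σ - Polynomial.X, by simp⟩

/-- Neumann series -/
lemma inverse_mem_of_norm_lt {S : Subalgebra ℂ 𝔸} (hS : IsClosed (S : Set 𝔸)) {y : 𝔸}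
    (hy : y ∈ S) {τ : ℂ} (hτ : τ ≠ 0) (hn : ‖1 - τ⁻¹ • y‖ < 1) :
    IsUnit y ∧ Ring.inverse y ∈ S := by
  set t : 𝔸 := 1 - τ⁻¹ • y with ht
  have htS : t ∈ S := S.sub_mem S.one_mem (S.smul_mem hy _)
  have hsum := summable_geometric_of_norm_lt_one hn
  set w : 𝔸 := ∑' n : ℕ, t ^ n with hw
  have hmul1 : (1 - t) * w = 1 := mul_neg_geom_series t hn
  have hmul2 : w * (1 - t) = 1 := geom_series_mul_neg t hn
  have hwS : w ∈ S := by
    refine hS.mem_of_tendsto hsum.hasSum.tendsto_sum_nat (Eventually.of_forall fun N => ?_)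
    exact S.sum_mem fun n _ => S.pow_mem htS n
  have h1t : (1 : 𝔸) - t = τ⁻¹ • y := by simp [ht]
  rw [h1t] at hmul1 hmul2
  have hmul1' : y * (τ⁻¹ • w) = 1 := by
    rw [mul_smul_comm, ← smul_mul_assoc]; exact hmul1
  have hmul2' : (τ⁻¹ • w) * y = 1 := by
    rw [smul_mul_assoc, ← mul_smul_comm]; exact hmul2
  have hU : IsUnit y := ⟨⟨y, τ⁻¹ • w, hmul1', hmul2'⟩, rfl⟩
  refine ⟨hU, ?_⟩
  rw [SCurve.inverse_eq_of_mul_eq_one hU hmul1']
  exact S.smul_mem hwS _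

/-- integrals stay in closed subalgebras -/
lemma integral_mem_of_closed {S : Subalgebra ℂ 𝔸} (hS : IsClosed (S : Set 𝔸)) {g : ℝ → 𝔸}
    (hg : Continuous g) (hmem : ∀ t, g t ∈ S) (a b : ℝ) : ∫ t in a..b, g t ∈ S := by
  let W : Submodule ℝ 𝔸 := S.toSubmodule.restrictScalars ℝ
  have hWc : IsClosed (W : Set 𝔸) := hS
  haveI : CompleteSpace W := hWc.completeSpace_coe
  let g' : ℝ → W := fun t => ⟨g t, hmem t⟩
  have hg' : Continuous g' := hg.subtype_mk _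
  have h := W.subtypeL.intervalIntegral_comp_comm (hg'.intervalIntegrable (μ := volume) a b)
  have h2 : ∫ t in a..b, g t = ((∫ t in a..b, g' t : W) : 𝔸) := h
  rw [h2]
  exact (∫ t in a..b, g' t : W).2

end closure

variable {E : Type*} [NormedAddCommGroup E] [InnerProductSpace ℂ E] [FiniteDimensional ℂ E]

namespace SCurve

variable (C : SCurve)

/-- contraction estimate in Hilbert space -/
lemma norm_one_sub_le {E' : Type*} [NormedAddCommGroup E'] [InnerProductSpace ℂ E']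
    {Y : E' →L[ℂ] E'} {b B T : ℝ} (hb : 0 < b) (hbB : b ≤ B) {e : ℂ} (he : ‖e‖ = 1)
    (hquad : ∀ v : E', b * ‖v‖ ^ 2 ≤ (conj e * inner ℂ v (Y v)).re) (hY : ∀ v, ‖Y v‖ ≤ B * ‖v‖)
    (hTdef : T = B ^ 2 / b) :
    ‖1 - ((T : ℂ) * e)⁻¹ • Y‖ ≤ 1 - b ^ 2 / (2 * B ^ 2) := by
  have hB : 0 < B := lt_of_lt_of_le hb hbB
  have hT : 0 < T := by rw [hTdef]; positivity
  have hu1 : b ^ 2 / B ^ 2 ≤ 1 := by
    rw [div_le_one (by positivity)]
    exact pow_le_pow_left₀ hb.le hbB 2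
  have hu0 : 0 ≤ b ^ 2 / B ^ 2 := by positivity
  have hθ : 1 - b ^ 2 / (2 * B ^ 2) = 1 - (b ^ 2 / B ^ 2) / 2 := by
    field_simp
  rw [hθ]
  set u := b ^ 2 / B ^ 2 with hu
  have hθ0 : 0 ≤ 1 - u / 2 := by linarith
  refine ContinuousLinearMap.opNorm_le_bound _ hθ0 fun v => ?_
  have hinv : ((T : ℂ) * e)⁻¹ = ((T⁻¹ : ℝ) : ℂ) * conj e := by
    have he0 : e ≠ 0 := by
      intro h; rw [h, norm_zero] at he; exact zero_ne_one he
    have hee : e * conj e = 1 := by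
      rw [Complex.mul_conj, Complex.normSq_eq_norm_sq, he]; simp
    have hT0 : (T : ℂ) ≠ 0 := by exact_mod_cast hT.ne'
    push_cast
    field_simp
    linear_combination -hee
  have happ : (1 - ((T : ℂ) * e)⁻¹ • Y) v = v - ((T : ℂ) * e)⁻¹ • Y v := by simp
  rw [happ]
  have hexp := @norm_sub_sq ℂ E' _ _ _ v (((T : ℂ) * e)⁻¹ • Y v)
  have hre : (inner ℂ v (((T : ℂ) * e)⁻¹ • Y v) : ℂ).re = T⁻¹ * (conj e * inner ℂ v (Y v)).re := by
    rw [inner_smul_right, hinv, mul_assoc, Complex.re_ofReal_mul]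
  have hno : ‖((T : ℂ) * e)⁻¹ • Y v‖ = T⁻¹ * ‖Y v‖ := by
    rw [norm_smul, norm_inv, norm_mul, he, mul_one, Complex.norm_real, Real.norm_of_nonneg hT.le]
  have hq := hquad v
  have hYv := hY v
  have hTinv : T⁻¹ = b / B ^ 2 := by rw [hTdef]; field_simp
  have hsq : ‖v - ((T : ℂ) * e)⁻¹ • Y v‖ ^ 2 ≤ (1 - u) * ‖v‖ ^ 2 := by
    have h1 : (RCLike.re (inner ℂ v (((T : ℂ) * e)⁻¹ • Y v) : ℂ)) =
        T⁻¹ * (conj e * inner ℂ v (Y v)).re := hre
    rw [hexp, h1, hno]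
    have h2 : (T⁻¹ * ‖Y v‖) ^ 2 ≤ (T⁻¹ * (B * ‖v‖)) ^ 2 :=
      pow_le_pow_left₀ (by positivity) (mul_le_mul_of_nonneg_left hYv (by positivity)) 2
    have h3 : T⁻¹ * (b * ‖v‖ ^ 2) ≤ T⁻¹ * (conj e * inner ℂ v (Y v)).re :=
      mul_le_mul_of_nonneg_left hq (by positivity)
    have h4 : (T⁻¹ * (B * ‖v‖)) ^ 2 = u * ‖v‖ ^ 2 := by
      rw [hTinv, hu]; field_simp
    have h5 : T⁻¹ * (b * ‖v‖ ^ 2) = u * ‖v‖ ^ 2 := by
      rw [hTinv, hu]; field_simp
    nlinarith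
  have hfin : ‖v - ((T : ℂ) * e)⁻¹ • Y v‖ ^ 2 ≤ ((1 - u / 2) * ‖v‖) ^ 2 := by
    refine hsq.trans ?_
    have : (1 - u) ≤ (1 - u / 2) ^ 2 := by nlinarith [sq_nonneg u]
    rw [mul_pow]
    exact mul_le_mul_of_nonneg_right this (by positivity)
  exact (le_abs_self _).trans (abs_le_of_sq_le_sq hfin (by positivity))

/-- scalar version of the contraction estimate -/
lemma norm_one_sub_le_scalar {y e : ℂ} {b B T : ℝ} (hb : 0 < b) (hbB : b ≤ B) (he : ‖e‖ = 1)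
    (hquad : b ≤ (conj e * y).re) (hY : ‖y‖ ≤ B) (hTdef : T = B ^ 2 / b) :
    ‖1 - ((T : ℂ) * e)⁻¹ * y‖ ≤ 1 - b ^ 2 / (2 * B ^ 2) := by
  have h := norm_one_sub_le (E' := ℂ) (Y := y • (1 : ℂ →L[ℂ] ℂ)) hb hbB he
    (fun v => by
      simp only [ContinuousLinearMap.smul_apply, ContinuousLinearMap.one_apply, inner_smul_right]
      have : inner ℂ v v = ((‖v‖ ^ 2 : ℝ) : ℂ) := by
        rw [inner_self_eq_norm_sq_to_K]; push_cast; rfl
      rw [this]
      have e1 : conj e * (y * ((‖v‖ ^ 2 : ℝ) : ℂ)) = ((‖v‖ ^ 2 : ℝ) : ℂ) * (conj e * y) := by ring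
      rw [e1, Complex.re_ofReal_mul]
      nlinarith [sq_nonneg ‖v‖])
    (fun v => by
      simp only [ContinuousLinearMap.smul_apply, ContinuousLinearMap.one_apply, norm_smul]
      exact mul_le_mul_of_nonneg_right hY (norm_nonneg _))
    hTdef
  have h1 := (1 - ((T : ℂ) * e)⁻¹ • y • (1 : ℂ →L[ℂ] ℂ)).le_opNorm 1
  simp only [ContinuousLinearMap.sub_apply, ContinuousLinearMap.one_apply,
    ContinuousLinearMap.smul_apply, smul_eq_mul, norm_one, mul_one] at h1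
  exact h1.trans h

end SCurve

section pair

variable {𝔸 𝔹 : Type*} [NormedRing 𝔸] [NormedAlgebra ℂ 𝔸] [CompleteSpace 𝔸]
  [NormedRing 𝔹] [NormedAlgebra ℂ 𝔹] [CompleteSpace 𝔹]

/-- Simultaneous approximation in two Banach algebras. -/
theorem pair_approx (C' : SCurve) (a₁ : 𝔸) (a₂ : 𝔹)
    (hcontr : ∀ t, ∃ τ : ℂ, τ ≠ 0 ∧ ‖(1 : 𝔸) - τ⁻¹ • (algebraMap ℂ 𝔸 (C'.x t) - a₁)‖ < 1 ∧
      ‖(1 : 𝔹) - τ⁻¹ • (algebraMap ℂ 𝔹 (C'.x t) - a₂)‖ < 1)
    {G : ℝ → ℂ} (hG : Continuous G) {η : ℝ} (hη : 0 < η) :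
    ∃ q : ℂ[X],
      ‖Polynomial.aeval a₁ q - ∫ t in (0:ℝ)..(2 * π), G t • C'.res a₁ t‖ ≤ η ∧
      ‖Polynomial.aeval a₂ q - ∫ t in (0:ℝ)..(2 * π), G t • C'.res a₂ t‖ ≤ η := by
  set a : 𝔸 × 𝔹 := (a₁, a₂) with ha
  have hUm : ∀ t, IsUnit (algebraMap ℂ (𝔸 × 𝔹) (C'.x t) - a) ∧ C'.res a t ∈ polyClosure a := by
    intro t
    obtain ⟨τ, hτ, h1, h2⟩ := hcontr t
    refine inverse_mem_of_norm_lt (isClosed_polyClosure _) (sub_mem_polyClosure _ _) hτ ?_
    rw [Prod.norm_def]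
    exact max_lt h1 h2
  have hU : ∀ t, IsUnit (algebraMap ℂ (𝔸 × 𝔹) (C'.x t) - a) := fun t => (hUm t).1
  have hU1 : ∀ t, IsUnit (algebraMap ℂ 𝔸 (C'.x t) - a₁) := by
    intro t
    obtain ⟨τ, hτ, h1, h2⟩ := hcontr t
    have hS : IsClosed ((⊤ : Subalgebra ℂ 𝔸) : Set 𝔸) := by simp
    exact (inverse_mem_of_norm_lt hS (Algebra.mem_top) hτ h1).1
  have hU2 : ∀ t, IsUnit (algebraMap ℂ 𝔹 (C'.x t) - a₂) := by
    intro t
    obtain ⟨τ, hτ, h1, h2⟩ := hcontr t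
    have hS : IsClosed ((⊤ : Subalgebra ℂ 𝔹) : Set 𝔹) := by simp
    exact (inverse_mem_of_norm_lt hS (Algebra.mem_top) hτ h2).1
  have hfst : ∀ t, (C'.res a t).1 = C'.res a₁ t := by
    intro t
    have h1 := C'.sub_mul_res hU t
    have h2 := congrArg Prod.fst h1
    simp only [Prod.fst_mul, Prod.fst_sub, Prod.algebraMap_apply, Prod.fst_one] at h2
    exact (SCurve.inverse_eq_of_mul_eq_one (hU1 t) h2).symm
  have hsnd : ∀ t, (C'.res a t).2 = C'.res a₂ t := by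
    intro t
    have h1 := C'.sub_mul_res hU t
    have h2 := congrArg Prod.snd h1
    simp only [Prod.snd_mul, Prod.snd_sub, Prod.algebraMap_apply, Prod.snd_one] at h2
    exact (SCurve.inverse_eq_of_mul_eq_one (hU2 t) h2).symm
  have hres := C'.continuous_res hU
  set F : ℝ → 𝔸 × 𝔹 := fun t => G t • C'.res a t with hF
  have hFc : Continuous F := hG.smul hres
  set V := ∫ t in (0:ℝ)..(2 * π), F t with hV
  have hVmem : V ∈ polyClosure a :=
    integral_mem_of_closed (isClosed_polyClosure a) hFc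
      (fun t => Subalgebra.smul_mem _ (hUm t).2 _) _ _
  have hVcl : V ∈ closure (((Polynomial.aeval a).range : Subalgebra ℂ _) : Set (𝔸 × 𝔹)) := by
    have := hVmem
    rwa [polyClosure, ← SetLike.mem_coe, Subalgebra.topologicalClosure_coe] at this
  obtain ⟨w, ⟨q, hq⟩, hw⟩ := Metric.mem_closure_iff.1 hVcl η hη
  have hq' : Polynomial.aeval a q = w := hq
  have hq1 : (Polynomial.aeval a q).1 = Polynomial.aeval a₁ q := by
    have := Polynomial.aeval_algHom_apply (AlgHom.fst ℂ 𝔸 𝔹) a q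
    simpa [ha] using this.symm
  have hq2 : (Polynomial.aeval a q).2 = Polynomial.aeval a₂ q := by
    have := Polynomial.aeval_algHom_apply (AlgHom.snd ℂ 𝔸 𝔹) a q
    simpa [ha] using this.symm
  have hV1 : V.1 = ∫ t in (0:ℝ)..(2 * π), G t • C'.res a₁ t := by
    have := (ContinuousLinearMap.fst ℂ 𝔸 𝔹).intervalIntegral_comp_comm
      (hFc.intervalIntegrable (μ := volume) 0 (2 * π))
    simp only [ContinuousLinearMap.coe_fst'] at this
    rw [hV, ← this]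
    refine intervalIntegral.integral_congr fun t _ => ?_
    simp only [hF, Prod.smul_fst]
    rw [hfst t]
  have hV2 : V.2 = ∫ t in (0:ℝ)..(2 * π), G t • C'.res a₂ t := by
    have := (ContinuousLinearMap.snd ℂ 𝔸 𝔹).intervalIntegral_comp_comm
      (hFc.intervalIntegrable (μ := volume) 0 (2 * π))
    simp only [ContinuousLinearMap.coe_snd'] at this
    rw [hV, ← this]
    refine intervalIntegral.integral_congr fun t _ => ?_
    simp only [hF, Prod.smul_snd]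
    rw [hsnd t]
  have hnorm : ‖w - V‖ ≤ η := by
    rw [← dist_eq_norm, dist_comm]
    exact hw.le
  refine ⟨q, ?_, ?_⟩
  · rw [← hq1, ← hV1, ← Prod.fst_sub, hq']
    exact (norm_fst_le _).trans hnorm
  · rw [← hq2, ← hV2, ← Prod.snd_sub, hq']
    exact (norm_snd_le _).trans hnorm

end pair

namespace SCurve

variable (C : SCurve)

/-- the coordinate function on the closed domain -/
noncomputable def coordK : C(C.K, ℂ) := ⟨Subtype.val, continuous_subtype_val⟩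

variable {A : E →L[ℂ] E} (hK : ∀ v : E, ‖v‖ = 1 → inner ℂ v (A v) ∈ C.K)
  (δ : ℝ) (hδ : 0 ≤ δ) (hδ' : 0 < δ)
include hK hδ'

lemma shift_contraction (t : ℝ) :
    ∃ τ : ℂ, τ ≠ 0 ∧ ‖(1 : E →L[ℂ] E) - τ⁻¹ • (algebraMap ℂ (E →L[ℂ] E) ((C.shift δ hδ).x t) - A)‖ < 1 ∧
      ‖(1 : C(C.K, ℂ)) - τ⁻¹ • (algebraMap ℂ C(C.K, ℂ) ((C.shift δ hδ).x t) - C.coordK)‖ < 1 := by
  set C' := C.shift δ hδ with hC'
  set σ := C'.x t with hσ
  obtain ⟨Xb, hXb⟩ := C'.exists_bound_x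
  obtain ⟨Hb, hHb⟩ := C.exists_bound_h
  have hHb0 : 0 ≤ Hb := (abs_nonneg _).trans (hHb 0)
  have hXb0 : 0 ≤ Xb := (norm_nonneg _).trans (hXb 0)
  set B : ℝ := Xb + ‖A‖ + Hb + δ with hB
  have hBδ : δ ≤ B := by
    have := norm_nonneg A
    rw [hB]; linarith
  set T : ℝ := B ^ 2 / δ with hT
  have hBpos : 0 < B := lt_of_lt_of_le hδ' hBδ
  have hTpos : 0 < T := by rw [hT]; positivity
  set e : ℂ := exp (I * t) with he
  have hen : ‖e‖ = 1 := norm_exp_I t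
  have hconj : conj e = exp (-(I * t)) := by
    rw [he, ← Complex.exp_conj]
    simp
  have hτ : ((T : ℂ) * e) ≠ 0 := by
    have : (T : ℂ) ≠ 0 := by exact_mod_cast hTpos.ne'
    exact mul_ne_zero this (Complex.exp_ne_zero _)
  have hθ : 1 - δ ^ 2 / (2 * B ^ 2) < 1 := by
    have : 0 < δ ^ 2 / (2 * B ^ 2) := by positivity
    linarith
  have hW' : ∀ v : E, ‖v‖ = 1 → ∀ s, δ ≤ C'.D (inner ℂ v (A v)) s := by
    intro v hv s
    rw [hC', shift_D]
    linarith [hK v hv s]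
  have hcomp1 : ‖(1 : E →L[ℂ] E) - ((T : ℂ) * e)⁻¹ • (algebraMap ℂ (E →L[ℂ] E) σ - A)‖ ≤
      1 - δ ^ 2 / (2 * B ^ 2) := by
    refine norm_one_sub_le hδ' hBδ hen ?_ ?_ hT
    · intro v
      rw [hconj]
      exact C'.quad_lower hW' t v
    · intro v
      rw [Algebra.algebraMap_eq_smul_one]
      simp only [ContinuousLinearMap.sub_apply, ContinuousLinearMap.smul_apply,
        ContinuousLinearMap.one_apply]
      refine (norm_sub_le _ _).trans ?_
      rw [norm_smul]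
      have h1 := mul_le_mul_of_nonneg_right (hXb t) (norm_nonneg v)
      have h2 := A.le_opNorm v
      have h3 : 0 ≤ (Hb + δ) * ‖v‖ := by positivity
      rw [hB]
      nlinarith
  have hcomp2 : ‖(1 : C(C.K, ℂ)) - ((T : ℂ) * e)⁻¹ • (algebraMap ℂ C(C.K, ℂ) σ - C.coordK)‖ ≤
      1 - δ ^ 2 / (2 * B ^ 2) := by
    have hθ0 : 0 ≤ 1 - δ ^ 2 / (2 * B ^ 2) := by
      have : δ ^ 2 / (2 * B ^ 2) ≤ 1 := by
        rw [div_le_one (by positivity)]
        nlinarith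
      linarith
    refine (ContinuousMap.norm_le _ hθ0).2 fun p => ?_
    have hp := p.2
    have hval : ((1 : C(C.K, ℂ)) - ((T : ℂ) * e)⁻¹ • (algebraMap ℂ C(C.K, ℂ) σ - C.coordK)) p =
        1 - ((T : ℂ) * e)⁻¹ * (σ - p.1) := by
      simp [ContinuousMap.sub_apply, coordK]
    rw [hval]
    refine norm_one_sub_le_scalar hδ' hBδ hen ?_ ?_ hT
    · rw [hconj, C'.D_sub_re, hC', shift_D]
      linarith [hp t]
    · refine (norm_sub_le _ _).trans ?_
      have h1 := hXb t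
      have h2 := C.K_bounded hHb hp
      have := norm_nonneg A
      rw [hB]
      linarith
  exact ⟨_, hτ, lt_of_le_of_lt hcomp1 hθ, lt_of_le_of_lt hcomp2 hθ⟩

/-- Simultaneous polynomial approximation. -/
theorem approx_poly {g : ℝ → ℂ} (hg : Continuous g) {η : ℝ} (hη : 0 < η) :
    ∃ q : ℂ[X],
      ‖Polynomial.aeval A q - ∫ t in (0:ℝ)..(2 * π),
        (g t * (C.shift δ hδ).dx t / (2 * π * I)) • (C.shift δ hδ).res A t‖ ≤ η ∧
      ∀ p ∈ C.K, ‖q.eval p - ∫ t in (0:ℝ)..(2 * π),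
        g t * (C.shift δ hδ).dx t / ((C.shift δ hδ).x t - p) / (2 * π * I)‖ ≤ η := by
  set C' := C.shift δ hδ with hC'
  have hG : Continuous fun t => g t * C'.dx t / (2 * π * I) := (hg.mul C'.cont_dx).div_const _
  obtain ⟨q, h1, h2⟩ := pair_approx C' A C.coordK (C.shift_contraction hK δ hδ hδ') hG hη
  refine ⟨q, h1, fun p hp => ?_⟩
  have hU2 : ∀ t, IsUnit (algebraMap ℂ C(C.K, ℂ) (C'.x t) - C.coordK) := by
    intro t
    obtain ⟨τ, hτ, -, h2'⟩ := C.shift_contraction hK δ hδ hδ' t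
    have hS : IsClosed ((⊤ : Subalgebra ℂ C(C.K, ℂ)) : Set C(C.K, ℂ)) := by simp
    exact (inverse_mem_of_norm_lt hS (Algebra.mem_top) hτ h2').1
  have hres : Continuous (C'.res C.coordK) := C'.continuous_res hU2
  have hFc : Continuous fun t => (g t * C'.dx t / (2 * π * I)) • C'.res C.coordK t := hG.smul hres
  have hev : (Polynomial.aeval C.coordK q) ⟨p, hp⟩ = q.eval p := by
    rw [Polynomial.aeval_continuousMap_apply]
    rfl
  have hint := (ContinuousMap.evalCLM ℂ (⟨p, hp⟩ : C.K)).intervalIntegral_comp_comm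
    (hFc.intervalIntegrable (μ := volume) 0 (2 * π))
  have hΦ : ∀ w : C(C.K, ℂ), ContinuousMap.evalCLM ℂ (⟨p, hp⟩ : C.K) w = w ⟨p, hp⟩ := fun w => rfl
  rw [hΦ] at hint
  have hinv : ∀ t, (C'.res C.coordK t) ⟨p, hp⟩ = (C'.x t - p)⁻¹ := by
    intro t
    have h3 := C'.sub_mul_res hU2 t
    have h4 := congrArg (fun w : C(C.K, ℂ) => w ⟨p, hp⟩) h3
    simp only [ContinuousMap.mul_apply, ContinuousMap.sub_apply, ContinuousMap.one_apply] at h4
    have h5 : (algebraMap ℂ C(C.K, ℂ) (C'.x t)) ⟨p, hp⟩ - C.coordK ⟨p, hp⟩ = C'.x t - p := by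
      simp [coordK]
    rw [h5] at h4
    exact eq_inv_of_mul_eq_one_right h4
  have hcongr : ∫ t in (0:ℝ)..(2 * π), g t * C'.dx t / (C'.x t - p) / (2 * π * I) =
      (∫ t in (0:ℝ)..(2 * π), (g t * C'.dx t / (2 * π * I)) • C'.res C.coordK t) ⟨p, hp⟩ := by
    rw [← hint]
    refine intervalIntegral.integral_congr fun t _ => ?_
    simp only [hΦ, ContinuousMap.smul_apply, smul_eq_mul]
    rw [hinv t]
    ring
  rw [hcongr, ← hev]
  have : (Polynomial.aeval C.coordK q) ⟨p, hp⟩ - (∫ t in (0:ℝ)..(2 * π), (g t * C'.dx t / (2 * π * I)) • C'.res C.coordK t) ⟨p, hp⟩ =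
      ((Polynomial.aeval C.coordK q) - ∫ t in (0:ℝ)..(2 * π), (g t * C'.dx t / (2 * π * I)) • C'.res C.coordK t) ⟨p, hp⟩ := by
    simp
  rw [this]
  exact (ContinuousMap.norm_coe_le_norm _ _).trans h2

end SCurve
end Vale.Agent.Lib.P123.U
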