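import Vale.Agent.Lib.P123.U.Defs

/-! The parallel curve `x + δ e^{it}`, compactness and convexity of the closed domain. -/

open Complex MeasureTheory Set Filter Topology Polynomial ComplexConjugate
open scoped Real

set_option linter.unusedSectionVars false

namespace Vale.Agent.Lib.P123.U
namespace SCurve

variable (C : SCurve)

/-- parallel curve -/
noncomputable def shift (δ : ℝ) (hδ : 0 ≤ δ) : SCurve where
  h := fun t => C.h t + δ
  h1 := C.h1
  R := fun t => C.R t + δ
  rho := C.rho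
  Rb := C.Rb + δ
  dh := fun t => (C.dh t).add_const δ
  dh1 := fun t => by
    have := C.dh1 t
    refine this.congr_deriv ?_
    ring
  contR := C.contR.add continuous_const
  perh := fun t => by simp [C.perh]
  perh1 := C.perh1
  perR := fun t => by simp [C.perR]
  rho_pos := C.rho_pos
  R_ge := fun t => by linarith [C.R_ge t]
  R_le := fun t => by linarith [C.R_le t]

variable (δ : ℝ) (hδ : 0 ≤ δ)

lemma shift_x (t : ℝ) : (C.shift δ hδ).x t = C.x t + δ * exp (I * t) := by
  simp only [x, shift]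
  push_cast
  ring

lemma shift_dx (t : ℝ) : (C.shift δ hδ).dx t = C.dx t + I * exp (I * t) * δ := by
  simp only [dx, shift]
  push_cast
  ring

lemma shift_D (p : ℂ) (t : ℝ) : (C.shift δ hδ).D p t = C.D p t + δ := by
  simp only [D, shift]
  ring

lemma shift_T (p : ℂ) (t : ℝ) : (C.shift δ hδ).T p t = C.T p t := by
  simp only [T, shift]

lemma K_subset_shift_Om (hδ' : 0 < δ) {p : ℂ} (hp : p ∈ C.K) : p ∈ (C.shift δ hδ).Om := by
  intro t
  rw [shift_D]
  linarith [hp t]

lemma x_mem_shift_Om (hδ' : 0 < δ) (t₀ : ℝ) : C.x t₀ ∈ (C.shift δ hδ).Om :=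
  C.K_subset_shift_Om δ hδ hδ' (C.x_mem_K t₀)

/-- periodic continuous functions are bounded -/
lemma exists_bound_of_periodic {F : Type*} [NormedAddCommGroup F] {f : ℝ → F}
    (hf : Continuous f) (hp : ∀ t, f (t + 2 * π) = f t) : ∃ B, ∀ t, ‖f t‖ ≤ B := by
  obtain ⟨t1, -, ht1⟩ := (isCompact_Icc (a := (0:ℝ)) (b := 2 * π)).exists_isMaxOn
    (nonempty_Icc.2 (by positivity)) (hf.norm).continuousOn
  refine ⟨‖f t1‖, fun t => ?_⟩
  have hper : Function.Periodic f (2 * π) := hp
  obtain ⟨y, hy, hfy⟩ := hper.exists_mem_Ico₀ (by positivity) t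
  rw [hfy]
  exact ht1 ⟨hy.1, hy.2.le⟩

lemma exists_bound_x : ∃ B, ∀ t, ‖C.x t‖ ≤ B := exists_bound_of_periodic C.cont_x C.x_per

lemma exists_bound_h : ∃ B, ∀ t, |C.h t| ≤ B := by
  obtain ⟨B, hB⟩ := exists_bound_of_periodic C.cont_h C.perh
  exact ⟨B, fun t => by simpa using hB t⟩

lemma K_bounded {B : ℝ} (hB : ∀ t, |C.h t| ≤ B) {p : ℂ} (hp : p ∈ C.K) : ‖p‖ ≤ B := by
  have hB0 : 0 ≤ B := (abs_nonneg _).trans (hB 0)
  rcases eq_or_ne p 0 with rfl | hne
  · simpa using hB0
  set t := Complex.arg p with ht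
  have h1 := hp t
  unfold D at h1
  have h2 : exp (-(I * t)) * p = (‖p‖ : ℂ) := by
    conv_lhs => rw [← Complex.norm_mul_exp_arg_mul_I p]
    rw [← ht, mul_comm (‖p‖ : ℂ), ← mul_assoc]
    have : exp (-(I * t)) * exp ((t : ℂ) * I) = 1 := by
      rw [← Complex.exp_add]; ring_nf; simp
    rw [this, one_mul]
  rw [h2] at h1
  simp only [Complex.ofReal_re] at h1
  have := (le_abs_self _).trans (hB t)
  linarith

lemma isClosed_K : IsClosed C.K := by
  have : C.K = ⋂ t, {p : ℂ | 0 ≤ C.D p t} := by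
    ext p; simp [K]
  rw [this]
  refine isClosed_iInter fun t => isClosed_le continuous_const ?_
  unfold D
  fun_prop

lemma isCompact_K : IsCompact C.K := by
  obtain ⟨B, hB⟩ := C.exists_bound_h
  refine Metric.isCompact_of_isClosed_isBounded C.isClosed_K ?_
  refine (Metric.isBounded_iff_subset_closedBall 0).2 ⟨B, fun p hp => ?_⟩
  simpa using C.K_bounded hB hp

instance compactSpace_K : CompactSpace C.K := isCompact_iff_compactSpace.1 C.isCompact_K

lemma convex_K : Convex ℝ C.K := by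
  intro u hu v hv a b ha hb hab t
  have h1 := C.D_affine u v b t
  have e : a • u + b • v = ((1 - b : ℝ) : ℂ) * u + (b : ℂ) * v := by
    have : a = 1 - b := by linarith
    rw [this]
    simp [Complex.real_smul]
  rw [e, h1]
  have : 1 - b = a := by linarith
  rw [this]
  exact add_nonneg (mul_nonneg ha (hu t)) (mul_nonneg hb (hv t))

lemma Om_subset_K : C.Om ⊆ C.K := fun _ hp t => (hp t).le

lemma exp_sub_re (p q : ℂ) (t : ℝ) :
    C.D p t - C.D q t = (exp (-(I * t)) * (q - p)).re := by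
  unfold D
  rw [mul_sub, Complex.sub_re]
  ring

lemma isOpen_Om : IsOpen C.Om := by
  rw [Metric.isOpen_iff]
  intro p hp
  obtain ⟨g, hg, hgt⟩ := C.exists_depth hp
  refine ⟨g, hg, fun q hq t => ?_⟩
  have h1 := C.exp_sub_re q p t
  have h2 : |(exp (-(I * t)) * (p - q)).re| ≤ ‖p - q‖ := by
    refine (Complex.abs_re_le_norm _).trans ?_
    rw [norm_mul, norm_exp_neg_I, one_mul]
  have h3 : ‖p - q‖ < g := by
    rw [Metric.mem_ball, dist_eq_norm, norm_sub_rev] at hq
    exact hq
  have h4 := hgt t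
  have h5 := (abs_le.1 h2).1
  linarith

/-- A point of `K` outside `Om` lies on the curve. -/
lemma mem_curve_of_K_not_Om {p : ℂ} (hp : p ∈ C.K) (hn : p ∉ C.Om) : ∃ t, p = C.x t := by
  simp only [Om, mem_setOf_eq, not_forall, not_lt] at hn
  obtain ⟨t, ht⟩ := hn
  have h0 : C.D p t = 0 := le_antisymm ht (hp t)
  have hmin : IsLocalMin (C.D p) t := by
    refine Filter.Eventually.of_forall fun s => ?_
    rw [h0]
    exact hp s
  have hT : C.T p t = 0 := by
    have := hmin.hasDerivAt_eq_zero (C.hasDerivAt_D p t)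
    exact this
  refine ⟨t, ?_⟩
  have := C.x_sub_eq p t
  rw [h0, hT] at this
  simp only [Complex.ofReal_zero, mul_zero, add_zero] at this
  exact (sub_eq_zero.1 this).symm

lemma frontier_Om_subset : frontier C.Om ⊆ C.x '' univ := by
  intro p hp
  rw [frontier_eq_closure_inter_closure, ] at hp
  have h1 : p ∈ C.K := by
    have : closure C.Om ⊆ C.K := closure_minimal C.Om_subset_K C.isClosed_K
    exact this hp.1
  have h2 : p ∉ C.Om := by
    have := hp.2
    rw [closure_compl] at this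
    rw [C.isOpen_Om.interior_eq] at this
    exact this
  obtain ⟨t, ht⟩ := C.mem_curve_of_K_not_Om h1 h2
  exact ⟨t, mem_univ _, ht.symm⟩

end SCurve
end Vale.Agent.Lib.P123.U
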