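import Vale.Agent.Lib.P123.U.Core

/-!
# Job R1: a smooth strictly convex curve between a compact convex set and its neighbourhood

Softmax of finitely many support functions, see `exists_curve_of_compact_convex`.
-/

open Complex MeasureTheory Set Filter Topology
open scoped Real

namespace Vale.Agent.Lib.P123.U
namespace Softmax

/-- `a w t = Re (e^{-it} w)` -/
noncomputable def a (w : ℂ) (t : ℝ) : ℝ := (exp (-(I * t)) * w).re
/-- `b w t = Im (e^{-it} w)` -/
noncomputable def b (w : ℂ) (t : ℝ) : ℝ := (exp (-(I * t)) * w).im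

lemma hasDerivAt_a (w : ℂ) (t : ℝ) : HasDerivAt (a w) (b w t) t := by
  have := SCurve.hasDerivAt_re (SCurve.hasDerivAt_E w t)
  refine this.congr_deriv ?_
  simp [b]

lemma hasDerivAt_b (w : ℂ) (t : ℝ) : HasDerivAt (b w) (-(a w t)) t := by
  have := SCurve.hasDerivAt_im (SCurve.hasDerivAt_E w t)
  refine this.congr_deriv ?_
  simp [a]

lemma cont_a (w : ℂ) : Continuous (a w) :=
  continuous_iff_continuousAt.2 fun t => (hasDerivAt_a w t).continuousAt

lemma cont_b (w : ℂ) : Continuous (b w) :=
  continuous_iff_continuousAt.2 fun t => (hasDerivAt_b w t).continuousAt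

lemma a_per (w : ℂ) (t : ℝ) : a w (t + 2 * π) = a w t := by
  unfold a; rw [SCurve.exp_neg_I_per]

lemma b_per (w : ℂ) (t : ℝ) : b w (t + 2 * π) = b w t := by
  unfold b; rw [SCurve.exp_neg_I_per]

variable (F : Finset ℂ) (τ c : ℝ)

/-- `S = ∑ exp (τ a_w)` -/
noncomputable def S (t : ℝ) : ℝ := ∑ w ∈ F, Real.exp (τ * a w t)
/-- `N = ∑ b_w exp (τ a_w)` -/
noncomputable def N (t : ℝ) : ℝ := ∑ w ∈ F, b w t * Real.exp (τ * a w t)
/-- `Q = ∑ a_w exp (τ a_w)` -/
noncomputable def Q (t : ℝ) : ℝ := ∑ w ∈ F, a w t * Real.exp (τ * a w t)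
/-- `B = ∑ b_w² exp (τ a_w)` -/
noncomputable def B (t : ℝ) : ℝ := ∑ w ∈ F, b w t ^ 2 * Real.exp (τ * a w t)

lemma hasDerivAt_exp (w : ℂ) (t : ℝ) :
    HasDerivAt (fun t => Real.exp (τ * a w t))
      (τ * (b w t * Real.exp (τ * a w t))) t := by
  have := ((hasDerivAt_a w t).const_mul τ).exp
  refine this.congr_deriv ?_
  ring

lemma hasDerivAt_S (t : ℝ) : HasDerivAt (S F τ) (τ * N F τ t) t := by
  have := HasDerivAt.fun_sum (u := F) (A := fun w t => Real.exp (τ * a w t))
    (A' := fun w => τ * (b w t * Real.exp (τ * a w t))) (x := t)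
    (fun w _ => hasDerivAt_exp τ w t)
  unfold S N
  rw [Finset.mul_sum]
  exact this

lemma hasDerivAt_N (t : ℝ) : HasDerivAt (N F τ) (τ * B F τ t - Q F τ t) t := by
  have := HasDerivAt.fun_sum (u := F) (A := fun w t => b w t * Real.exp (τ * a w t))
    (A' := fun w => (-(a w t)) * Real.exp (τ * a w t) +
      b w t * (τ * (b w t * Real.exp (τ * a w t)))) (x := t)
    (fun w _ => (hasDerivAt_b w t).mul (hasDerivAt_exp τ w t))
  refine HasDerivAt.congr_deriv (f := N F τ) this ?_
  unfold B Q
  rw [Finset.mul_sum, ← Finset.sum_sub_distrib]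
  refine Finset.sum_congr rfl fun w _ => ?_
  ring

lemma cont_S : Continuous (S F τ) :=
  continuous_iff_continuousAt.2 fun t => (hasDerivAt_S F τ t).continuousAt

lemma cont_N : Continuous (N F τ) :=
  continuous_iff_continuousAt.2 fun t => (hasDerivAt_N F τ t).continuousAt

lemma cont_Q : Continuous (Q F τ) := by
  unfold Q
  refine continuous_finsetSum _ fun w _ => ?_
  have h1 := cont_a w
  fun_prop

lemma cont_B : Continuous (B F τ) := by
  unfold B
  refine continuous_finsetSum _ fun w _ => ?_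
  have h1 := cont_a w
  have h2 := cont_b w
  fun_prop

lemma S_per (t : ℝ) : S F τ (t + 2 * π) = S F τ t := by
  simp only [S, a_per]

lemma N_per (t : ℝ) : N F τ (t + 2 * π) = N F τ t := by
  simp only [N, a_per, b_per]

lemma Q_per (t : ℝ) : Q F τ (t + 2 * π) = Q F τ t := by
  simp only [Q, a_per]

lemma B_per (t : ℝ) : B F τ (t + 2 * π) = B F τ t := by
  simp only [B, a_per, b_per]

variable {F}

lemma S_pos (hF : F.Nonempty) (t : ℝ) : 0 < S F τ t :=
  Finset.sum_pos (fun _ _ => Real.exp_pos _) hF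

/-- support function -/
noncomputable def hh (t : ℝ) : ℝ := (1 / τ) * Real.log (S F τ t) + c
/-- its derivative -/
noncomputable def hh1 (t : ℝ) : ℝ := N F τ t / S F τ t
/-- radius of curvature -/
noncomputable def RR (t : ℝ) : ℝ :=
  hh (F := F) τ c t + ((τ * B F τ t - Q F τ t) * S F τ t - N F τ t * (τ * N F τ t)) / S F τ t ^ 2

lemma hasDerivAt_hh (hF : F.Nonempty) (hτ : 0 < τ) (t : ℝ) :
    HasDerivAt (hh (F := F) τ c) (hh1 (F := F) τ t) t := by
  have h1 := (hasDerivAt_S F τ t).log (S_pos τ hF t).ne'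
  have h2 := (h1.const_mul (1 / τ)).add_const c
  refine h2.congr_deriv ?_
  unfold hh1
  field_simp

lemma hasDerivAt_hh1 (hF : F.Nonempty) (t : ℝ) :
    HasDerivAt (hh1 (F := F) τ) (RR (F := F) τ c t - hh (F := F) τ c t) t := by
  have h1 := (hasDerivAt_N F τ t).div (hasDerivAt_S F τ t) (S_pos τ hF t).ne'
  refine h1.congr_deriv ?_
  unfold RR
  ring

lemma cont_hh (hF : F.Nonempty) : Continuous (hh (F := F) τ c) := by
  unfold hh
  have h1 := cont_S F τ
  have h2 : Continuous fun t => Real.log (S F τ t) :=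
    h1.log fun t => (S_pos τ hF t).ne'
  fun_prop

lemma cont_RR (hF : F.Nonempty) : Continuous (RR (F := F) τ c) := by
  unfold RR
  have h0 := cont_hh τ c hF
  have h1 := cont_S F τ
  have h2 := cont_N F τ
  have h3 := cont_Q F τ
  have h4 := cont_B F τ
  refine h0.add (Continuous.div (by fun_prop) (by fun_prop) fun t => ?_)
  exact pow_ne_zero 2 (S_pos τ hF t).ne'

lemma hh_per (t : ℝ) : hh (F := F) τ c (t + 2 * π) = hh (F := F) τ c t := by
  simp only [hh, S_per]

lemma hh1_per (t : ℝ) : hh1 (F := F) τ (t + 2 * π) = hh1 (F := F) τ t := by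
  simp only [hh1, S_per, N_per]

lemma RR_per (t : ℝ) : RR (F := F) τ c (t + 2 * π) = RR (F := F) τ c t := by
  simp only [RR, hh_per, S_per, N_per, Q_per, B_per]

/-- softmax is at least each member -/
lemma a_le_log (hτ : 0 < τ) {w : ℂ} (hw : w ∈ F) (t : ℝ) :
    a w t ≤ (1 / τ) * Real.log (S F τ t) := by
  have hF : F.Nonempty := ⟨w, hw⟩
  have h1 : Real.exp (τ * a w t) ≤ S F τ t :=
    Finset.single_le_sum (f := fun w => Real.exp (τ * a w t))
      (fun _ _ => (Real.exp_pos _).le) hw
  have h2 : τ * a w t ≤ Real.log (S F τ t) := by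
    rw [← Real.log_exp (τ * a w t)]
    exact Real.log_le_log (Real.exp_pos _) h1
  rw [one_div, inv_mul_eq_div, le_div_iff₀ hτ]
  linarith

lemma a_add_le_hh (hτ : 0 < τ) {w : ℂ} (hw : w ∈ F) (t : ℝ) :
    a w t + c ≤ hh (F := F) τ c t := by
  have := a_le_log τ hτ hw t
  unfold hh
  linarith

/-- softmax is at most the maximum plus `log card / τ` -/
lemma hh_le (hF : F.Nonempty) (hτ : 0 < τ) {t m : ℝ} (hm : ∀ w ∈ F, a w t ≤ m) :
    hh (F := F) τ c t ≤ m + (1 / τ) * Real.log F.card + c := by
  have h1 : S F τ t ≤ F.card * Real.exp (τ * m) := by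
    have : S F τ t ≤ ∑ _w ∈ F, Real.exp (τ * m) :=
      Finset.sum_le_sum fun w hw =>
        Real.exp_le_exp.2 (mul_le_mul_of_nonneg_left (hm w hw) hτ.le)
    simpa using this
  have hc : (0:ℝ) < F.card := by exact_mod_cast hF.card_pos
  have h2 : Real.log (S F τ t) ≤ Real.log F.card + τ * m := by
    have := Real.log_le_log (S_pos τ hF t) h1
    rwa [Real.log_mul hc.ne' (Real.exp_pos _).ne', Real.log_exp] at this
  unfold hh
  have h3 : (1 / τ) * Real.log (S F τ t) ≤ (1 / τ) * (Real.log F.card + τ * m) :=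
    mul_le_mul_of_nonneg_left h2 (by positivity)
  have h4 : (1 / τ) * (Real.log F.card + τ * m) = (1 / τ) * Real.log F.card + m := by
    field_simp
  linarith

/-- the curvature radius stays above `c` -/
lemma le_RR (hF : F.Nonempty) (hτ : 0 < τ) (t : ℝ) : c ≤ RR (F := F) τ c t := by
  set L := (1 / τ) * Real.log (S F τ t) with hL
  have hS := S_pos τ hF t
  have hQ : Q F τ t ≤ L * S F τ t := by
    unfold Q S
    rw [Finset.mul_sum]
    exact Finset.sum_le_sum fun w hw =>
      mul_le_mul_of_nonneg_right (a_le_log τ hτ hw t) (Real.exp_pos _).le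
  have hCS : N F τ t ^ 2 ≤ B F τ t * S F τ t := by
    unfold N B S
    refine Finset.sum_sq_le_sum_mul_sum_of_sq_le_mul F
      (fun _ _ => mul_nonneg (sq_nonneg _) (Real.exp_pos _).le)
      (fun _ _ => (Real.exp_pos _).le) fun w _ => ?_
    exact le_of_eq (by ring)
  have key : -L ≤ ((τ * B F τ t - Q F τ t) * S F τ t - N F τ t * (τ * N F τ t)) / S F τ t ^ 2 := by
    rw [le_div_iff₀ (by positivity)]
    have h1 : Q F τ t * S F τ t ≤ L * S F τ t * S F τ t :=
      mul_le_mul_of_nonneg_right hQ hS.le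
    have h2 : τ * N F τ t ^ 2 ≤ τ * (B F τ t * S F τ t) :=
      mul_le_mul_of_nonneg_left hCS hτ.le
    nlinarith
  unfold RR hh
  linarith

end Softmax

open Softmax in
/-- **Job R1.** Between a compact convex set `W` and its `t₁`-neighbourhood lies a smooth strictly
convex curve given by a support function. -/
theorem exists_curve_of_compact_convex {W : Set ℂ} (hc : IsCompact W) (hconv : Convex ℝ W)
    (hne : W.Nonempty) {t₁ : ℝ} (ht : 0 < t₁) :
    ∃ (C : SCurve) (g : ℝ), 0 < g ∧ (∀ w ∈ W, ∀ t, g ≤ C.D w t) ∧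
      (∀ p ∈ C.K, ∃ w ∈ W, ‖p - w‖ ≤ t₁) := by
  obtain ⟨F, hFW, hcov⟩ := hc.elim_nhds_subcover (fun w => Metric.ball w (t₁ / 8))
    (fun w _ => Metric.ball_mem_nhds _ (by positivity))
  have hF : F.Nonempty := by
    obtain ⟨w, hw⟩ := hne
    obtain ⟨v, hv, -⟩ := Set.mem_iUnion₂.1 (hcov hw)
    exact ⟨v, hv⟩
  have hcard : (0:ℝ) < F.card := by exact_mod_cast hF.card_pos
  set τ : ℝ := 4 * F.card / t₁ with hτdef
  have hτ : 0 < τ := by positivity
  set c : ℝ := t₁ / 4 with hcdef
  have hcpos : 0 < c := by positivity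
  have hper : Function.Periodic (RR (F := F) τ c) (2 * π) := RR_per τ c
  have hcomp := hper.compact_of_continuous (by positivity) (cont_RR τ c hF)
  obtain ⟨Rb, hRb⟩ := hcomp.bddAbove
  let C : SCurve :=
    { h := hh (F := F) τ c
      h1 := hh1 (F := F) τ
      R := RR (F := F) τ c
      rho := c
      Rb := Rb
      dh := hasDerivAt_hh τ c hF hτ
      dh1 := hasDerivAt_hh1 τ c hF
      contR := cont_RR τ c hF
      perh := hh_per τ c
      perh1 := hh1_per τ
      perR := RR_per τ c
      rho_pos := hcpos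
      R_ge := le_RR τ c hF hτ
      R_le := fun t => hRb ⟨t, rfl⟩ }
  refine ⟨C, t₁ / 8, by positivity, ?_, ?_⟩
  · -- every point of `W` is at depth at least `t₁ / 8`
    intro w hw t
    obtain ⟨v, hv, hwv⟩ := Set.mem_iUnion₂.1 (hcov hw)
    have h1 := a_add_le_hh τ c hτ hv t
    have h2 : a w t ≤ a v t + t₁ / 8 := by
      have h3 : a w t - a v t = (exp (-(I * t)) * (w - v)).re := by
        unfold a; rw [mul_sub, Complex.sub_re]
      have h4 : (exp (-(I * t)) * (w - v)).re ≤ ‖w - v‖ := by
        refine (Complex.re_le_norm _).trans (le_of_eq ?_)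
        rw [norm_mul, SCurve.norm_exp_neg_I, one_mul]
      have h5 : ‖w - v‖ < t₁ / 8 := by
        rw [← dist_eq_norm]; exact hwv
      linarith
    change t₁ / 8 ≤ hh (F := F) τ c t - a w t
    have : c = t₁ / 4 := rfl
    linarith
  · -- the domain lies in the `t₁`-neighbourhood of `W`
    intro p hp
    obtain ⟨y, hy, hyd⟩ := hc.exists_infDist_eq_dist hne p
    refine ⟨y, hy, ?_⟩
    set d := ‖p - y‖ with hd
    have hd0 : 0 ≤ d := norm_nonneg _
    rcases hd0.eq_or_lt with h0 | hpos
    · rw [← h0]; exact ht.le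
    -- the direction of `p - y`
    set t := Complex.arg (p - y) with htdef
    have hrot : exp (-(I * t)) * (p - y) = (d : ℂ) := by
      have h1 := Complex.norm_mul_exp_arg_mul_I (p - y)
      have h2 : exp (-(I * t)) * exp (↑(Complex.arg (p - y)) * I) = 1 := by
        rw [mul_comm (↑(Complex.arg (p - y)) : ℂ) I]
        exact SCurve.exp_neg_mul_exp t
      calc exp (-(I * t)) * (p - y)
          = exp (-(I * t)) * ((‖p - y‖ : ℂ) * exp (↑(Complex.arg (p - y)) * I)) := by rw [h1]
        _ = (‖p - y‖ : ℂ) * (exp (-(I * t)) * exp (↑(Complex.arg (p - y)) * I)) := by ring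
        _ = (d : ℂ) := by rw [h2, mul_one]
    -- the nearest point property
    have hnear : ∀ w ∈ W, a w t ≤ a y t := by
      intro w hw
      have hmin : ‖p - y‖ = ⨅ z : W, ‖p - (z : ℂ)‖ := by
        rw [← dist_eq_norm, ← hyd, Metric.infDist_eq_iInf]
        simp only [dist_eq_norm]
      have hinner := (norm_eq_iInf_iff_real_inner_le_zero hconv hy).1 hmin w hw
      rw [Complex.inner] at hinner
      -- `inner (p - y) (w - y) = d * Re (e^{-it} (w - y))`
      have h1 : (exp (-(I * t)) * (w - y)).re * d = ((w - y) * (starRingEnd ℂ) (p - y)).re := by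
        have h2 : (starRingEnd ℂ) (p - y) = (d : ℂ) * exp (-(I * t)) := by
          have h3 : (p - y) = (d : ℂ) * exp (I * t) := by
            have h4 := Complex.norm_mul_exp_arg_mul_I (p - y)
            rw [mul_comm (↑(Complex.arg (p - y)) : ℂ) I] at h4
            exact h4.symm
          rw [h3, map_mul, Complex.conj_ofReal, ← Complex.exp_conj]
          congr 2
          simp [Complex.conj_ofReal]
        rw [h2]
        have h5 : (w - y) * ((d : ℂ) * exp (-(I * t))) = (exp (-(I * t)) * (w - y)) * (d : ℂ) := by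
          ring
        rw [h5, Complex.re_mul_ofReal]
      have h6 : (exp (-(I * t)) * (w - y)).re ≤ 0 := by
        by_contra hcon
        push Not at hcon
        have := mul_pos hcon hpos
        rw [h1] at this
        linarith
      have h7 : a w t - a y t = (exp (-(I * t)) * (w - y)).re := by
        unfold a; rw [mul_sub, Complex.sub_re]
      linarith
    -- support function above `a y t` by at most `t₁ / 2`
    have hub : hh (F := F) τ c t ≤ a y t + t₁ / 2 := by
      have h1 := hh_le τ c hF hτ (t := t) (m := a y t) fun w hw => hnear w (hFW w hw)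
      have h2 : (1 / τ) * Real.log F.card ≤ t₁ / 4 := by
        have h3 : Real.log F.card ≤ F.card := Real.log_le_self hcard.le
        have h4 : (1 / τ) * Real.log F.card ≤ (1 / τ) * F.card :=
          mul_le_mul_of_nonneg_left h3 (by positivity)
        have h5 : (1 / τ) * F.card = t₁ / 4 := by
          rw [hτdef]; field_simp
        linarith
      have : c = t₁ / 4 := rfl
      linarith
    have hDp := hp t
    have hval : a p t - a y t = d := by
      have h7 : a p t - a y t = (exp (-(I * t)) * (p - y)).re := by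
        unfold a; rw [mul_sub, Complex.sub_re]
      rw [h7, hrot, Complex.ofReal_re]
    have hDp' : 0 ≤ hh (F := F) τ c t - a p t := hDp
    linarith

end Vale.Agent.Lib.P123.U
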