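import Vale.Agent.Lib.P123.U.YPrime

/-! States on bounded continuous functions. -/

open Complex MeasureTheory Set Filter Topology Polynomial ComplexConjugate
open scoped Real BoundedContinuousFunction

namespace Vale.Agent.Lib.P123.U

variable {l : (ℝ →ᵇ ℂ) →L[ℂ] ℂ} (hl : ‖l‖ ≤ 1) (hl1 : l 1 = 1)
include hl

lemma st_norm (φ : ℝ →ᵇ ℂ) : ‖l φ‖ ≤ ‖φ‖ :=
  (l.le_opNorm φ).trans (by nlinarith [norm_nonneg φ])

include hl1

lemma st_one_smul (c : ℂ) : l (c • (1 : ℝ →ᵇ ℂ)) = c := by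
  rw [map_smul, hl1, smul_eq_mul, mul_one]

lemma st_real {φ : ℝ →ᵇ ℂ} (h : ∀ t, (φ t).im = 0) : (l φ).im = 0 := by
  by_contra hne
  set y := (l φ).im with hy
  set xx := (l φ).re with hxx
  set s : ℝ := (‖φ‖ ^ 2 + 1) / (2 * y) with hs
  have h2ys : 2 * y * s = ‖φ‖ ^ 2 + 1 := by
    rw [hs]; field_simp
  set ψ : ℝ →ᵇ ℂ := φ + ((s : ℂ) * I) • (1 : ℝ →ᵇ ℂ) with hψ
  have hnorm : ‖ψ‖ ≤ Real.sqrt (‖φ‖ ^ 2 + s ^ 2) := by
    refine (BoundedContinuousFunction.norm_le (Real.sqrt_nonneg _)).2 fun t => ?_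
    refine Real.le_sqrt_of_sq_le ?_
    have hval : ψ t = φ t + (s : ℂ) * I := by simp [hψ]
    have hre : φ t = ((φ t).re : ℂ) := by
      apply Complex.ext <;> simp [h t]
    have h1 : ‖ψ t‖ ^ 2 = (φ t).re ^ 2 + s ^ 2 := by
      rw [hval, ← Complex.normSq_eq_norm_sq, Complex.normSq_apply]
      simp [h t]
      ring
    have h2 : ‖φ t‖ ≤ ‖φ‖ := φ.norm_coe_le_norm t
    have h3 : (φ t).re ^ 2 ≤ ‖φ‖ ^ 2 := by
      have : |(φ t).re| ≤ ‖φ‖ := (Complex.abs_re_le_norm _).trans h2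
      exact sq_le_sq' (by linarith [(abs_le.1 this).1]) (abs_le.1 this).2
    rw [h1]
    linarith
  have hl2 : l ψ = l φ + (s : ℂ) * I := by
    rw [hψ, map_add, st_one_smul hl hl1]
  have h3 := (st_norm hl ψ).trans hnorm
  have h4 : ‖l ψ‖ ^ 2 ≤ ‖φ‖ ^ 2 + s ^ 2 := by
    have := pow_le_pow_left₀ (norm_nonneg _) h3 2
    rwa [Real.sq_sqrt (by positivity)] at this
  rw [hl2, ← Complex.normSq_eq_norm_sq, Complex.normSq_apply] at h4
  simp only [Complex.add_re, Complex.mul_re, Complex.ofReal_re, Complex.I_re, mul_zero,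
    Complex.ofReal_im, Complex.I_im, mul_one, sub_self, add_zero, Complex.add_im, Complex.mul_im,
    zero_add] at h4
  rw [← hxx, ← hy] at h4
  nlinarith [sq_nonneg xx, sq_nonneg y]

/-- real part of a bounded continuous function -/
noncomputable def reB (φ : ℝ →ᵇ ℂ) : ℝ →ᵇ ℂ :=
  BoundedContinuousFunction.ofNormedAddCommGroup (fun t => ((φ t).re : ℂ))
    (Complex.continuous_ofReal.comp (Complex.continuous_re.comp φ.continuous)) ‖φ‖
    (fun t => by
      rw [Complex.norm_real, Real.norm_eq_abs]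
      exact (Complex.abs_re_le_norm _).trans (φ.norm_coe_le_norm t))

/-- imaginary part of a bounded continuous function -/
noncomputable def imB (φ : ℝ →ᵇ ℂ) : ℝ →ᵇ ℂ :=
  BoundedContinuousFunction.ofNormedAddCommGroup (fun t => ((φ t).im : ℂ))
    (Complex.continuous_ofReal.comp (Complex.continuous_im.comp φ.continuous)) ‖φ‖
    (fun t => by
      rw [Complex.norm_real, Real.norm_eq_abs]
      exact (Complex.abs_im_le_norm _).trans (φ.norm_coe_le_norm t))

omit hl hl1 in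
lemma reB_apply (φ : ℝ →ᵇ ℂ) (t : ℝ) : reB φ t = ((φ t).re : ℂ) := rfl

omit hl hl1 in
lemma imB_apply (φ : ℝ →ᵇ ℂ) (t : ℝ) : imB φ t = ((φ t).im : ℂ) := rfl

omit hl hl1 in
lemma decomp (φ : ℝ →ᵇ ℂ) : φ = reB φ + I • imB φ := by
  ext t
  simp only [BoundedContinuousFunction.coe_add, BoundedContinuousFunction.coe_smul, Pi.add_apply,
    reB_apply, imB_apply, smul_eq_mul]
  rw [mul_comm]
  exact (Complex.re_add_im _).symm

lemma st_re (φ : ℝ →ᵇ ℂ) : (l φ).re = (l (reB φ)).re := by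
  have h1 : (l (imB φ)).im = 0 := st_real hl hl1 (fun t => by simp [imB_apply])
  conv_lhs => rw [decomp φ]
  rw [map_add, map_smul, Complex.add_re, smul_eq_mul, Complex.mul_re]
  simp [h1]

lemma st_im (φ : ℝ →ᵇ ℂ) : (l φ).im = (l (imB φ)).re := by
  have h1 : (l (reB φ)).im = 0 := st_real hl hl1 (fun t => by simp [reB_apply])
  conv_lhs => rw [decomp φ]
  rw [map_add, map_smul, Complex.add_im, smul_eq_mul, Complex.mul_im]
  simp [h1]

/-- hermitian -/
lemma st_conj {φ ψ : ℝ →ᵇ ℂ} (h : ∀ t, ψ t = conj (φ t)) : l ψ = conj (l φ) := by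
  have hre : reB ψ = reB φ := by
    ext t; simp [reB_apply, h t]
  have him : imB ψ = -imB φ := by
    ext t; simp [imB_apply, h t]
  apply Complex.ext
  · rw [Complex.conj_re, st_re hl hl1, hre, ← st_re hl hl1]
  · rw [Complex.conj_im, st_im hl hl1 ψ, him, map_neg, Complex.neg_re, st_im hl hl1 φ]

lemma st_nonneg_of_real {φ : ℝ →ᵇ ℂ} (h : ∀ t, (φ t).im = 0) (h0 : ∀ t, 0 ≤ (φ t).re) :
    0 ≤ (l φ).re := by
  set M := ‖φ‖ with hM
  have hM0 : 0 ≤ M := norm_nonneg _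
  set ψ : ℝ →ᵇ ℂ := (M : ℂ) • (1 : ℝ →ᵇ ℂ) - φ with hψ
  have hnorm : ‖ψ‖ ≤ M := by
    refine (BoundedContinuousFunction.norm_le hM0).2 fun t => ?_
    have hval : ψ t = (M : ℂ) - φ t := by simp [hψ]
    have hφt : φ t = ((φ t).re : ℂ) := by
      apply Complex.ext <;> simp [h t]
    have hle : (φ t).re ≤ M := by
      refine (le_abs_self _).trans ((Complex.abs_re_le_norm _).trans (φ.norm_coe_le_norm t))
    rw [hval, hφt, ← Complex.ofReal_sub, Complex.norm_real, Real.norm_eq_abs,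
      abs_of_nonneg (by simpa using hle)]
    have := h0 t
    linarith
  have h1 := (st_norm hl ψ).trans hnorm
  have h2 : l ψ = (M : ℂ) - l φ := by
    rw [hψ, map_sub, st_one_smul hl hl1]
  rw [h2] at h1
  have h3 := (Complex.re_le_norm _).trans h1
  simp at h3
  linarith

/-- Monotonicity of real parts. -/
lemma st_re_mono {ψ₁ ψ₂ : ℝ →ᵇ ℂ} (h : ∀ t, (ψ₁ t).re ≤ (ψ₂ t).re) : (l ψ₁).re ≤ (l ψ₂).re := by
  have h0 := st_nonneg_of_real hl hl1 (φ := reB (ψ₂ - ψ₁)) (fun t => by simp [reB_apply])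
    (fun t => by
      simp only [reB_apply, Complex.ofReal_re, BoundedContinuousFunction.coe_sub, Pi.sub_apply,
        Complex.sub_re]
      linarith [h t])
  rw [← st_re hl hl1, map_sub, Complex.sub_re] at h0
  linarith

end Vale.Agent.Lib.P123.U
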