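import Vale.Agent.Lib.P123.U.Lop

/-! The comparison `|G(p)| ≤ (1/π) ∫ |G| kap(p, ·)` for analytic `G`. -/

open Complex MeasureTheory Set Filter Topology Polynomial ComplexConjugate
open scoped Real

set_option linter.unusedSectionVars false

namespace Vale.Agent.Lib.P123.U
namespace SCurve

variable (C : SCurve)

lemma coef_div (u v : ℂ) : ((1 / (2 * π * I) : ℂ) * (u + I * v)) =
    ((1 / (2 * π) : ℝ) : ℂ) * (v - I * u) := by
  have hpi : (π : ℂ) ≠ 0 := by exact_mod_cast Real.pi_ne_zero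
  have hI : I ≠ 0 := Complex.I_ne_zero
  push_cast
  field_simp
  have h : I ^ 2 = -1 := Complex.I_sq
  linear_combination u * h

/-- Real part of the principal value for a real density. -/
theorem principal_real {Φ : ℝ → ℝ} (hΦ : Continuous Φ) {L₀ : ℝ} (hL₀ : 0 ≤ L₀)
    (hL : ∀ t t₀, |Φ t - Φ t₀| ≤ L₀ * ‖C.x t - C.x t₀‖) (t₀ : ℝ) :
    ((1 / (2 * π * I) : ℂ) * ∫ t in (0:ℝ)..(2 * π),
        ((Φ t : ℂ) - (Φ t₀ : ℂ)) * (C.dx t / (C.x t - C.x t₀))).re =
      (C.LR Φ t₀ - Φ t₀) / 2 := by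
  have hg : Continuous fun t => (Φ t : ℂ) := Complex.continuous_ofReal.comp hΦ
  have hgL : ∀ t t₁, ‖(Φ t : ℂ) - (Φ t₁ : ℂ)‖ ≤ L₀ * ‖C.x t - C.x t₁‖ := by
    intro t t₁
    rw [← Complex.ofReal_sub, Complex.norm_real, Real.norm_eq_abs]
    exact hL t t₁
  rw [C.integral_split_kar_kap hg hL₀ hgL t₀, coef_div]
  set z := C.x t₀ with hz
  have hbar : ∫ t in (0:ℝ)..(2 * π), ((Φ t : ℂ) - (Φ t₀ : ℂ)) * (C.kar z t : ℂ) =
      ((∫ t in (0:ℝ)..(2 * π), (Φ t - Φ t₀) * C.kar z t : ℝ) : ℂ) := by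
    rw [← intervalIntegral.integral_ofReal]
    refine intervalIntegral.integral_congr fun t _ => ?_
    simp
  have hbap : ∫ t in (0:ℝ)..(2 * π), ((Φ t : ℂ) - (Φ t₀ : ℂ)) * (C.kap z t : ℂ) =
      ((∫ t in (0:ℝ)..(2 * π), (Φ t - Φ t₀) * C.kap z t : ℝ) : ℂ) := by
    rw [← intervalIntegral.integral_ofReal]
    refine intervalIntegral.integral_congr fun t _ => ?_
    simp
  rw [hbar, hbap, Complex.re_ofReal_mul]
  have hre : ((((∫ t in (0:ℝ)..(2 * π), (Φ t - Φ t₀) * C.kap z t : ℝ) : ℂ)) -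
      I * ((∫ t in (0:ℝ)..(2 * π), (Φ t - Φ t₀) * C.kar z t : ℝ) : ℂ)).re =
      ∫ t in (0:ℝ)..(2 * π), (Φ t - Φ t₀) * C.kap z t := by
    simp
  rw [hre]
  have hsplit : ∫ t in (0:ℝ)..(2 * π), (Φ t - Φ t₀) * C.kap z t =
      π * (C.LR Φ t₀ - Φ t₀) := by
    have e1 : ∀ t, (Φ t - Φ t₀) * C.kap z t = Φ t * C.kap z t - Φ t₀ * C.kap z t := fun t => by ring
    simp_rw [e1]
    rw [intervalIntegral.integral_sub (C.iIR_mul_kap hΦ t₀ _ _)
      ((C.intervalIntegrable_kap_x t₀ _ _).const_mul _), intervalIntegral.integral_const_mul,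
      C.integral_kap_x']
    unfold LR
    have := Real.pi_pos
    field_simp
  rw [hsplit]
  have := Real.pi_pos
  field_simp

lemma shift_kap (δ : ℝ) (hδ : 0 ≤ δ) (p : ℂ) (t : ℝ) :
    (C.shift δ hδ).kap p t = (C.R t + δ) * (C.D p t + δ) / ((C.D p t + δ) ^ 2 + C.T p t ^ 2) := by
  unfold kap
  rw [C.shift_D, C.shift_T]
  rfl

/-- the scalar approximation on `K`. -/
theorem approx_scalar (hne : C.K.Nonempty) {δ : ℝ} (hδ : 0 ≤ δ) (hδ' : 0 < δ) {g : ℝ → ℂ}
    (hg : Continuous g) {η : ℝ} (hη : 0 < η) :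
    ∃ q : ℂ[X], ∀ p ∈ C.K, ‖q.eval p - ∫ t in (0:ℝ)..(2 * π),
        g t * (C.shift δ hδ).dx t / ((C.shift δ hδ).x t - p) / (2 * π * I)‖ ≤ η := by
  obtain ⟨p₀, hp₀⟩ := hne
  have hK : ∀ v : ℂ, ‖v‖ = 1 → inner ℂ v ((p₀ • (1 : ℂ →L[ℂ] ℂ)) v) ∈ C.K := by
    intro v hv
    have hvv : inner ℂ v v = (1 : ℂ) := by
      rw [inner_self_eq_norm_sq_to_K, hv]; simp
    have : inner ℂ v ((p₀ • (1 : ℂ →L[ℂ] ℂ)) v) = p₀ := by
      simp only [ContinuousLinearMap.smul_apply, ContinuousLinearMap.one_apply, inner_smul_right, hvv, mul_one]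
    rw [this]
    exact hp₀
  obtain ⟨q, -, hq⟩ := C.approx_poly (E := ℂ) hK δ hδ hδ' hg hη
  exact ⟨q, hq⟩

theorem YPrime {G : ℂ → ℂ} (hd : DiffContOnCl ℂ G C.Om) {Lg : ℝ}
    (hL : ∀ u ∈ C.K, ∀ v ∈ C.K, ‖G u - G v‖ ≤ Lg * ‖u - v‖) {p : ℂ} (hp : p ∈ C.Om) :
    ‖G p‖ ≤ (1 / π) * ∫ t in (0:ℝ)..(2 * π), ‖G (C.x t)‖ * C.kap p t := by
  have hpi := Real.pi_pos
  set L₀ := max Lg 0 with hL₀def
  have hL₀ : 0 ≤ L₀ := le_max_right _ _
  have hL' : ∀ u ∈ C.K, ∀ v ∈ C.K, ‖G u - G v‖ ≤ L₀ * ‖u - v‖ := fun u hu v hv =>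
    (hL u hu v hv).trans (mul_le_mul_of_nonneg_right (le_max_left _ _) (norm_nonneg _))
  set Φ : ℝ → ℝ := fun t => ‖G (C.x t)‖ with hΦdef
  have hΦL : ∀ t t₀, |Φ t - Φ t₀| ≤ L₀ * ‖C.x t - C.x t₀‖ := fun t t₀ =>
    (abs_norm_sub_norm_le _ _).trans (hL' _ (C.x_mem_K t) _ (C.x_mem_K t₀))
  have hΦc : Continuous Φ := by
    have hGc : ContinuousOn G C.K := by
      intro u hu
      refine ContinuousWithinAt.mono_of_mem_nhdsWithin (f := G) (t := C.K) (s := C.K) ?_ (by
        exact self_mem_nhdsWithin)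
      have : LipschitzOnWith (Real.toNNReal L₀) G C.K := by
        refine LipschitzOnWith.of_dist_le_mul fun a ha b hb => ?_
        rw [dist_eq_norm, dist_eq_norm, Real.coe_toNNReal _ hL₀]
        exact hL' a ha b hb
      exact this.continuousOn u hu
    have h2 : Continuous fun t => G (C.x t) :=
      hGc.comp_continuous C.cont_x C.x_mem_K
    exact h2.norm
  have hΦper : ∀ t, Φ (t + 2 * π) = Φ t := fun t => by simp only [hΦdef, C.x_per]
  have hΦ0 : ∀ t, 0 ≤ Φ t := fun t => norm_nonneg _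
  set g : ℝ → ℂ := fun t => (Φ t : ℂ) with hg
  have hgc : Continuous g := Complex.continuous_ofReal.comp hΦc
  have hgper : ∀ t, g (t + 2 * π) = g t := fun t => by simp only [hg, hΦper]
  have hgL : ∀ t t₁, ‖g t - g t₁‖ ≤ L₀ * ‖C.x t - C.x t₁‖ := by
    intro t t₁
    rw [← Complex.ofReal_sub, Complex.norm_real, Real.norm_eq_abs]
    exact hΦL t t₁
  -- the unimodular constant
  set e : ℂ := exp (-(((Complex.arg (G p) : ℝ) : ℂ) * I)) with he
  have hen : ‖e‖ = 1 := by
    rw [he, show -(((Complex.arg (G p) : ℝ) : ℂ) * I) = ((-(Complex.arg (G p)) : ℝ) : ℂ) * I by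
      push_cast; ring]
    exact Complex.norm_exp_ofReal_mul_I _
  have heG : e * G p = (‖G p‖ : ℂ) := by
    conv_lhs => rw [← Complex.norm_mul_exp_arg_mul_I (G p)]
    rw [he, mul_comm, mul_assoc, ← Complex.exp_add]
    simp
  -- main step
  set Idd : ℝ → ℝ := fun δ => (1 / π) * ∫ t in (0:ℝ)..(2 * π), Φ t *
    ((C.R t + max δ 0) * (C.D p t + max δ 0) / ((C.D p t + max δ 0) ^ 2 + C.T p t ^ 2)) with hIdd
  have hIc : Continuous Idd := by
    refine continuous_const.mul ?_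
    refine intervalIntegral.continuous_parametric_intervalIntegral_of_continuous' ?_ _ _
    have h1 : Continuous fun q : ℝ × ℝ => max q.1 0 := continuous_fst.max continuous_const
    have h2 : Continuous fun q : ℝ × ℝ => Φ q.2 := hΦc.comp continuous_snd
    have h3 : Continuous fun q : ℝ × ℝ => C.R q.2 := C.contR.comp continuous_snd
    have h4 : Continuous fun q : ℝ × ℝ => C.D p q.2 := (C.cont_D p).comp continuous_snd
    have h5 : Continuous fun q : ℝ × ℝ => C.T p q.2 := (C.cont_T p).comp continuous_snd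
    refine h2.mul (Continuous.div ((h3.add h1).mul (h4.add h1)) (((h4.add h1).pow 2).add (h5.pow 2)) ?_)
    intro q
    have hD := hp q.2
    have hm : 0 ≤ max q.1 0 := le_max_right _ _
    have : 0 < C.D p q.2 + max q.1 0 := by linarith
    positivity
  have hI0 : Idd 0 = (1 / π) * ∫ t in (0:ℝ)..(2 * π), ‖G (C.x t)‖ * C.kap p t := by
    simp only [hIdd, max_self, add_zero]
    rfl
  have hKne : C.K.Nonempty := ⟨C.x 0, C.x_mem_K 0⟩
  have key : ∀ η > 0, ‖G p‖ ≤ Idd 0 + 6 * η := by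
    intro η hη
    obtain ⟨δ₀, hδ₀, hbl⟩ := C.boundary_limit hgc hgper hL₀ hgL hη
    have hev : ∀ᶠ δ in 𝓝[>] (0:ℝ), ‖G p‖ ≤ Idd δ + 6 * η := by
      filter_upwards [Ioo_mem_nhdsGT hδ₀] with δ hδ
      have hδ0 : 0 < δ := hδ.1
      set C' := C.shift δ hδ0.le with hC'
      obtain ⟨q, hq⟩ := C.approx_scalar hKne hδ0.le hδ0 hgc hη
      -- the value of the Cauchy integral at `p`
      have hpK : p ∈ C.K := C.Om_subset_K hp
      have hpOm' : p ∈ C'.Om := C.K_subset_shift_Om δ hδ0.le hδ0 hpK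
      have hRe : (∫ t in (0:ℝ)..(2 * π), g t * C'.dx t / (C'.x t - p) / (2 * π * I)).re =
          (1 / 2) * Idd δ := by
        have hc : Continuous fun t => g t * C'.dx t / (C'.x t - p) / (2 * π * I) :=
          ((hgc.mul C'.cont_dx).div (C'.cont_x.sub continuous_const) (C'.x_sub_ne hpOm')).div_const _
        have h1 := Complex.reCLM.intervalIntegral_comp_comm (hc.intervalIntegrable (μ := volume) 0 (2 * π))
        simp only [Complex.reCLM_apply] at h1
        rw [← h1]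
        simp only [hIdd, max_eq_left hδ0.le]
        rw [← mul_assoc, show (1 / 2 * (1 / π) : ℝ) = 1 / (2 * π) by field_simp,
          ← intervalIntegral.integral_const_mul]
        refine intervalIntegral.integral_congr fun t _ => ?_
        beta_reduce
        have e1 : g t * C'.dx t / (C'.x t - p) / (2 * π * I) =
            ((Φ t : ℂ)) * ((1 / (2 * π * I) : ℂ) * ((C'.kar p t : ℂ) + I * (C'.kap p t : ℂ))) := by
          rw [← C'.dx_div]
          simp only [hg]
          ring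
        rw [e1, coef_div, ← mul_assoc, ← Complex.ofReal_mul, Complex.re_ofReal_mul]
        have e2 : (((C'.kap p t : ℂ)) - I * (C'.kar p t : ℂ)).re = C'.kap p t := by simp
        rw [e2, C.shift_kap]
        ring
      -- boundary estimate
      have hbd : ∀ w ∈ frontier C.Om, ‖exp (e * G w - 2 * q.eval w)‖ ≤ Real.exp (4 * η) := by
        intro w hw
        obtain ⟨t₀, -, rfl⟩ := C.frontier_Om_subset hw
        rw [Complex.norm_exp, Real.exp_le_exp]
        have h1 := hbl δ hδ0 hδ.2 t₀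
        have h2 := hq _ (C.x_mem_K t₀)
        have h3 := C.principal_real hΦc hL₀ hΦL t₀
        set Cd := ∫ t in (0:ℝ)..(2 * π), g t * C'.dx t / (C'.x t - C.x t₀) / (2 * π * I) with hCd
        set J := (1 / (2 * π * I) : ℂ) * ∫ t in (0:ℝ)..(2 * π), (g t - g t₀) * (C.dx t / (C.x t - C.x t₀)) with hJ
        have h4 : |(Cd - g t₀ - J).re| ≤ η := (Complex.abs_re_le_norm _).trans h1
        have h5 : |(q.eval (C.x t₀) - Cd).re| ≤ η := (Complex.abs_re_le_norm _).trans h2
        have hJre : J.re = (C.LR Φ t₀ - Φ t₀) / 2 := h3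
        have hLR : 0 ≤ C.LR Φ t₀ := C.LR_nonneg hΦc hΦ0 t₀
        have hgre : (g t₀).re = Φ t₀ := by simp [hg]
        simp only [Complex.sub_re] at h4 h5
        have h6 := (abs_le.1 h4).1
        have h7 := (abs_le.1 h5).1
        have h8 : (e * G (C.x t₀)).re ≤ Φ t₀ := by
          refine (Complex.re_le_norm _).trans ?_
          rw [norm_mul, hen, one_mul]
        simp only [Complex.sub_re, Complex.mul_re, Complex.re_ofNat, Complex.im_ofNat, zero_mul, sub_zero] at *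
        nlinarith
      have hW : DiffContOnCl ℂ (fun w => exp (e * G w - 2 * q.eval w)) C.Om := by
        have hqd : Differentiable ℂ fun w => 2 * q.eval w :=
          (q.differentiable).const_mul 2
        refine ⟨?_, ?_⟩
        · exact ((hd.differentiableOn.const_mul e).sub hqd.differentiableOn).cexp
        · exact ((hd.continuousOn.const_mul e |>.sub hqd.continuous.continuousOn)).cexp
      have hbdd : Bornology.IsBounded C.Om :=
        (C.isCompact_K.isBounded).subset C.Om_subset_K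
      have hmax := Complex.norm_le_of_forall_mem_frontier_norm_le hbdd hW hbd (subset_closure hp)
      rw [Complex.norm_exp, Real.exp_le_exp] at hmax
      have h1 := hq p hpK
      set Cdp := ∫ t in (0:ℝ)..(2 * π), g t * C'.dx t / (C'.x t - p) / (2 * π * I) with hCdp
      have h5 : |(q.eval p - Cdp).re| ≤ η := (Complex.abs_re_le_norm _).trans h1
      simp only [Complex.sub_re] at h5
      have h7 := (abs_le.1 h5).2
      rw [heG] at hmax
      simp only [Complex.sub_re, Complex.ofReal_re, Complex.mul_re, Complex.re_ofNat, Complex.im_ofNat, zero_mul, sub_zero] at hmax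
      nlinarith
    have hlim : Tendsto (fun δ => Idd δ + 6 * η) (𝓝[>] (0:ℝ)) (𝓝 (Idd 0 + 6 * η)) :=
      ((hIc.tendsto 0).add_const _).mono_left nhdsWithin_le_nhds
    exact ge_of_tendsto hlim hev
  rw [← hI0]
  refine le_of_forall_pos_le_add fun ε hε => ?_
  have := key (ε / 6) (by positivity)
  linarith

end SCurve
end Vale.Agent.Lib.P123.U
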